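import Crest.Agent.X212.M.Api

/-!
# Row 212, layer M: the layers of a world on the necks
-/

set_option autoImplicit false
set_option linter.unusedSectionVars false
set_option linter.dupNamespace false
noncomputable section
open Set Function Filter Topology Module Matrix
open scoped ContDiff Manifold InnerProductSpace
open Crest.Agent.R208.F (Ext pb)

namespace Crest.Agent.X212.M
open An Cyl58 Cyf70 Int54 Prm93
open Met55 (Sp VF VJ FAt fP atx rFr IsP)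
open Line51 (Ln Uni)
open Dr59 (mf)

variable {X : Mf 4} {A κ : Type} [Fintype A] [Fintype κ] {M : Mark X A κ}

namespace Caps
variable (C : Caps M) (c : M.Cl)

theorem mem_src {x : X.M} : x ∈ (C.φ c).source ↔ x ∉ M.sys.cores c.1 := by rw [C.src]; rfl

variable {c}

theorem ld {x : X.M} (h : x ∉ M.sys.cores c.1) :
    IsLocalDiffeomorphAt X.I (C.Z c).I ∞ (C.φ c) x :=
  (C.φ c).isLocalDiffeomorphAt _ _ _ ((C.mem_src c).2 h)

theorem inj {x y : X.M} (hx : x ∉ M.sys.cores c.1) (hy : y ∉ M.sys.cores c.1)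
    (h : C.φ c x = C.φ c y) : x = y := (C.φ c).injOn ((C.mem_src c).2 hx) ((C.mem_src c).2 hy) h

theorem mem_image {x : X.M} (hx : x ∉ M.sys.cores c.1) {a : A} (ha : a ∈ M.sys.fr c.1)
    {s : Set X.M} (hs : s ⊆ range (M.bn a).j) : C.φ c x ∈ C.φ c '' s ↔ x ∈ s :=
  ⟨fun ⟨_, h1, h2⟩ => C.inj (Mark.fr_not_mem ha (hs h1)) hx h2 ▸ h1, mem_image_of_mem _⟩

variable (c) in
/-- the band `a` in `Z c` -/
abbrev nj (a : A) : (M.bn a).Y.M × ℝ → (C.Z c).M := C.φ c ∘ (M.bn a).j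

theorem ld_nj {a : A} {q : (M.bn a).Y.M × ℝ} (h : (M.bn a).j q ∉ M.sys.cores c.1) :
    IsLocalDiffeomorphAt (IC (M.bn a).Y.I) (C.Z c).I ∞ (C.nj c a) q :=
  ld_comp (C.ld h) ((M.bn a).oe.loc q)

theorem mf_nj {a : A} {q : (M.bn a).Y.M × ℝ} (h : (M.bn a).j q ∉ M.sys.cores c.1)
    (w : (M.bn a).Y.E × ℝ) : mf (IC (M.bn a).Y.I) (C.Z c).I (C.nj c a) q w =
      mf X.I (C.Z c).I (C.φ c) ((M.bn a).j q) (mf (IC (M.bn a).Y.I) X.I (M.bn a).j q w) :=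
  DFunLike.congr_fun (Dr59.mf_comp ((C.ld h).mdifferentiableAt (by simp))
    (((M.bn a).oe.loc q).mdifferentiableAt (by simp))) w

theorem pm_nj {a : A} {q : (M.bn a).Y.M × ℝ} (h : (M.bn a).j q ∉ M.sys.cores c.1)
    (b : (C.Z c).M → Ext (C.Z c).E) : Dr59.pm (IC (M.bn a).Y.I) (C.Z c).I (C.nj c a) b q =
      Dr59.pm (IC (M.bn a).Y.I) X.I (M.bn a).j (Dr59.pm X.I (C.Z c).I (C.φ c) b) q :=
  (Dr59.pm_comp ((C.ld h).mdifferentiableAt (by simp))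
    (((M.bn a).oe.loc q).mdifferentiableAt (by simp))).symm

theorem same_nj {a : A} {q : (M.bn a).Y.M × ℝ} (h : (M.bn a).j q ∉ M.sys.cores c.1) :
    0 < tp _ (M.oC a q) * tp _ (Dr59.pm (IC (M.bn a).Y.I) (C.Z c).I (C.nj c a) (C.o c) q) := by
  rw [C.pm_nj h]
  exact (C.oφ c).pm (s := {q}) (fun y _ => (M.bn a).oe.loc y)
    (fun y hy => (C.mem_src c).2 (mem_singleton_iff.1 hy ▸ h)) q rfl

theorem mem_Ω {p : Prm A} {x : X.M} (hx : x ∉ M.sys.cores c.1) :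
    (p, C.φ c x) ∈ M.Ω c.1 (C.φ c) ↔ ∀ a ∈ M.sys.fr c.1, p.2 a < 1 ∨ x ∉ (M.sys.w a).core :=
  forall₂_congr fun a ha => or_congr_right
    (not_congr (C.mem_image hx ha (M.sys.w a).core_subset))

theorem mem_Ω_of_br {p : Prm A} (hp : p ∈ M.Br c.1) {x : X.M}
    (hx : x ∉ M.sys.cores (Sys.inf p.2)) : (p, C.φ c x) ∈ M.Ω c.1 (C.φ c) := by
  refine (C.mem_Ω fun h => hx (biUnion_subset_biUnion_left hp.2 h)).2 fun a _ => ?_
  by_cases h : p.2 a = 1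
  · exact .inr fun h' => hx (mem_biUnion (show a ∈ Sys.inf p.2 from h) h')
  · exact .inl ((hp.1.1 a).2.lt_of_ne h)

theorem mem_O_iff {p : Prm A} : p ∈ M.O c.1 ↔ ∀ z, (p, z) ∈ M.Ω c.1 (C.φ c) :=
  ⟨Mark.mem_Ω _, fun h a ha => (h (C.φ c ((M.bn a).j (Classical.arbitrary _, 0))) a ha).resolve_right
    fun h' => h' (mem_image_of_mem _ ((M.bn a).j_mem_core.2 rfl))⟩

theorem isOpen_Ω : IsOpen (M.Ω c.1 (C.φ c)) := by
  have : M.Ω c.1 (C.φ c) = ⋂ a ∈ M.sys.fr c.1,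
      {q | q.1.2 a < 1} ∪ Prod.snd ⁻¹' (C.φ c '' (M.sys.w a).core)ᶜ := by ext; simp [Mark.Ω]
  rw [this]
  refine (toFinite _).isOpen_biInter fun a ha => (isOpen_lt ((continuous_apply a).comp
    (continuous_snd.comp continuous_fst)) continuous_const).union
    ((IsCompact.isClosed ?_).isOpen_compl.preimage continuous_snd)
  refine IsCompact.image_of_continuousOn ?_ ((C.φ c).contMDiffOn.continuousOn.mono fun x hx =>
    (C.mem_src c).2 (Mark.fr_not_mem ha ((M.sys.w a).core_subset hx)))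
  exact (M.bn a).slab_zero ▸ (M.bn a).isCompact_slab isCompact_singleton

end Caps

namespace Mark
variable {c : M.Cl} {t : A → ℝ} {a : A} {q : (M.bn a).Y.M × ℝ}

theorem Lt.not_mem (h : M.Lt c.1 t a) (ho : (tv c.1 t a, q.2) ∈ Off) :
    (M.bn a).j q ∉ M.sys.cores c.1 := j_not_mem c (h.imp (fun h => ⟨h, by
  rw [tv_mem h] at ho; exact ho.resolve_left (lt_irrefl _)⟩) And.left)

/-- a point of a model neck is off the broken cores -/
theorem not_mem_inf (ht : t ∈ M.sys.Par) (h : 1 / 2 ≤ t a) (ho : (t a, q.2) ∈ Off) :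
    (M.bn a).j q ∉ M.sys.cores (Sys.inf t) := fun h1 => by
  obtain ⟨a', h2, y, h3⟩ := mem_cores.1 h1
  by_cases e : a' = a
  · subst e
    rcases ho with ho | ho
    · exact ho.ne h2
    · exact ho (congrArg Prod.snd ((M.bn a').oe.inj h3)).symm
  · exact not_cmp ⟨_, h3⟩ ⟨_, rfl⟩ (ht.2 (Sys.inf_subset t h2) (show t a ≠ 0 by linarith) e)

theorem Lit.lt {m : Set A} {s : ℝ} (h : M.Lit m c.1 a s) :
    M.Lt c.1 (fun a' => by classical exact if a' = a then 1 / 2 else 0) a ∧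
      (tv c.1 (fun a' => by classical exact if a' = a then 1 / 2 else 0) a, s) ∈ Off := by
  rcases h.2 with h | h
  · exact ⟨.inl h.1, .inr h.2⟩
  · refine ⟨.inr ⟨h.2, by norm_num, fun a' _ e _ => if_neg e⟩, .inl ?_⟩
    rw [tv_fr h.2]; norm_num

end Mark

namespace World
variable (W : World M) (m : M.Cl) {c : M.Cl} {t : A → ℝ} {a : A} {q : (M.bn a).Y.M × ℝ}

/-- reduction to an admissible parameter on a model neck -/
theorem exists_br (h : M.Lt c.1 t a) (u : ℝ) : ∃ t', (u, t') ∈ M.Br c.1 ∧ t' a = Mark.tv c.1 t a ∧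
    1 / 2 ≤ t' a ∧ ∀ q : (M.bn a).Y.M × ℝ, (M.bn a).j q ∉ M.sys.cores c.1 → ∀ a' ∈ M.sys.fr c.1,
      W.nj c a q ∈ W.φ c '' (M.bn a').slab (Icc (-2) 2) → t a' = t' a' := by
  obtain ⟨t', h1, h2, h3, h4⟩ := h.exists_br u
  exact ⟨t', h1, h2, h3, fun q hq a' ha' hz => h4 a' ha' (Mark.not_cmp ⟨q, rfl⟩
    ((M.bn a').slab_subset _ ((W.mem_image hq ha' ((M.bn a').slab_subset _)).1 hz)))⟩

theorem mem_Ω_neck (h : M.Lt c.1 t a) (ho : (Mark.tv c.1 t a, q.2) ∈ Off) (u : ℝ) :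
    ((u, t), W.nj c a q) ∈ M.Ω c.1 (W.φ c) := by
  refine (W.mem_Ω (h.not_mem ho)).2 fun a' ha' => ?_
  by_cases hc : M.sys.Cmp a a'
  · exact .inr fun h1 => Mark.not_cmp ⟨q, rfl⟩ ((M.sys.w a').core_subset h1) hc
  rcases h with h | h
  · exact (hc (ha'.2 a h).symm).elim
  by_cases e : a' = a
  · subst e
    rw [Mark.tv_fr ha'] at ho
    exact ho.imp_right fun h1 h2 => h1 ((M.bn a').j_mem_core.1 h2)
  · exact .inl (show t a' < 1 by rw [h.2.2 a' ha' e hc]; exact one_pos)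

/-- the metric of a model neck -/
theorem neck' (h : M.Lt c.1 t a) (hq : |q.2| ≤ 1) (ho : (Mark.tv c.1 t a, q.2) ∈ Off) (u : ℝ) :
    Met55.Co (fun i => mf (IC (M.bn a).Y.I) (W.Z c).I (W.nj c a) q (M.nf a (Mark.tv c.1 t a) q i))
      (atx ((W.L m c).e (u, t)) (W.nj c a q)) := by
  obtain ⟨t', h1, h2, h3, h4⟩ := W.exists_br h u
  rw [← h2] at ho ⊢
  have h5 := Mark.not_mem_inf h1.1 h3 ho
  have h6 := h.not_mem (h2 ▸ ho)
  rw [W.loc m c u t t' _ (h4 q h6)]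
  simp only [W.mf_nj h6]
  exact ((W.neck a (u, t') h1.1 h3 q hq ho).map
    (mf X.I (W.Z c).I (W.φ c) ((M.bn a).j q) : X.E →ₗ[ℝ] (W.Z c).E)).trans (W.co m c _ h1 _ h5)

variable {m}

/-- the frame of a literal neck -/
theorem lit' (hp : ¬M.pin a) (hl : M.Lit m.1 c.1 a q.2) (h : M.Lt c.1 t a)
    (ho : (Mark.tv c.1 t a, q.2) ∈ Off) (u : ℝ) (i : Option κ) :
    atx ((W.L m c).e (u, t)) (W.nj c a q) i =
      mf (IC (M.bn a).Y.I) (W.Z c).I (W.nj c a) q (M.nf a (Mark.tv c.1 t a) q i) := by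
  obtain ⟨t', h1, h2, h3, h4⟩ := W.exists_br h u
  rw [← h2] at ho ⊢
  rw [W.loc m c u t t' _ (h4 q hl.not_mem)]
  exact W.lit m c a hp _ h1 h3 q hl ho i

theorem P_lit (hp : ¬M.pin a) (hl : M.Lit m.1 c.1 a q.2) (i k : Option κ) :
    (W.L m c).F0.P i k (W.nj c a q) = cP (M.gY a).P i k q := by
  obtain ⟨h, ho⟩ := hl.lt
  have hΩ := W.mem_Ω_neck h ho 0
  rw [← (W.L m c).P_eq hΩ, ← Mark.fP_ce]
  refine congrFun (congrFun (Met55.fP_eq ((W.L m c).sp _ _ hΩ) ?_) i) k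
  rw [show atx ((W.L m c).e _) _ = _ from funext (W.lit' hp hl h ho 0)]
  have hi : Injective (mf (IC (M.bn a).Y.I) (W.Z c).I (W.nj c a) q) :=
    (Met55.ld_bij (W.ld_nj hl.not_mem)).1
  exact (Mark.isP_nf ho).map (A := ((mf (IC (M.bn a).Y.I) (W.Z c).I (W.nj c a) q :
    (M.bn a).Y.E × ℝ →L[ℝ] (W.Z c).E) : (M.bn a).Y.E × ℝ →ₗ[ℝ] (W.Z c).E)) hi

theorem ov_lit (hp : ¬M.pin a) (hl : M.Lit m.1 c.1 a q.2) (i k l n : Option κ) :
    ov (W.o c) (W.L m c).F0.e i k l n (W.nj c a q) = M.oY a i k l n q.1 := by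
  obtain ⟨h, ho⟩ := hl.lt
  have hΩ := W.mem_Ω_neck h ho 0
  rw [← (W.L m c).ob _ _ hΩ, ← Mark.oc_oC]
  exact (cf_rel (W.Z c).dim (Mark.finrank_cyl a) (e' := M.nF a _)
    (fun i => (W.lit' hp hl h ho 0 i).symm) ((W.L m c).sp _ _ hΩ) (Mark.sp_nf ho)
    (W.same_nj hl.not_mem) _).trans (Mark.cf_nf ho _ _)

end World

namespace Lns
variable {W : World M} {lam : Type} [Fintype lam] [DecidableEq lam] {N : ML M lam} (Λ : Lns W N)
  {m c : M.Cl} {t : A → ℝ} {a : A} {q : (M.bn a).Y.M × ℝ}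

theorem B_ok (m c : M.Cl) : (Λ.B m c).OK (W.Z c).I := (Λ.Λ m c).B_ok (W.ori c)

theorem G_ok (m : M.Cl) {p : Prm A} (h : p ∈ M.O c.1) : (Λ.G m c p).OK (Λ.B m c) :=
  (Λ.Λ m c).G_ok (Mark.mem_Ω _ h)

theorem uni (m c : M.Cl) :
    Uni X.I N.p (fun x => (Λ.Λ m c).p (W.φ c x)) (Λ.v m c) (W.φ c).source := by
  classical
  refine (Λ.iso m c (0, fun a => if a ∈ c.1 then 1 else 0) ⟨⟨fun a => ?_, ?_⟩, fun a ha => ?_⟩).toUni
  · dsimp only; split_ifs <;> norm_num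
  · exact c.2.mono fun a ha => by_contra fun h => ha (if_neg h)
  · exact if_pos ha

theorem p_lit (hl : M.Lit m.1 c.1 a q.2) : (Λ.Λ m c).p (W.nj c a q) = (N.LY a).p q.1 := by
  have h1 := ((Λ.uni m c).iso _ ((W.mem_src c).2 hl.not_mem)).tgt
  rw [Λ.lit m c a q hl, ((N.um a).iso q (hl.1.trans (by norm_num))).tgt] at h1
  exact h1.symm

/-- on a model neck the marking is parallel -/
theorem neck' (m : M.Cl) (h : M.Lt c.1 t a) (hq : |q.2| ≤ 1) (hc : (M.bn a).j q ∉ M.sys.cores c.1)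
    (u : ℝ) : Line51.th (IC (M.bn a).Y.I) (fun q => Λ.v m c ((M.bn a).j q)) q +
      Dr59.pm (IC (M.bn a).Y.I) (W.Z c).I (W.nj c a) ((Λ.Λ m c).a (u, t)) q =
      Line51.th (IC (M.bn a).Y.I) (N.m a) q + (N.cy a).ln.a q := by
  obtain ⟨t', h1, -, h3, h4⟩ := W.exists_br h u
  have hs := (W.mem_src c).2 hc
  rw [Dr59.pm_congr_right (Λ.loc m c u t t' _ (h4 q hc)), (Λ.neck a _ h1.1 h3).par q hq,
    W.pm_nj hc, ← Line51.pm_th ((Λ.uni m c).sm _ hs)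
      (((M.bn a).oe.loc q).mdifferentiableAt (by simp))]
  exact (map_add _ _ _).symm.trans (congrArg _ ((Λ.iso m c _ h1).par _ hs))

theorem ev_lit (hl : M.Lit m.1 c.1 a q.2) (hq : |q.2| < 1) :
    ∀ᶠ q' in 𝓝 q, M.Lit m.1 c.1 a q'.2 := by
  have h1 : ∀ᶠ q' : (M.bn a).Y.M × ℝ in 𝓝 q, |q'.2| < 1 :=
    (isOpen_lt (by fun_prop) continuous_const).mem_nhds hq
  rcases hl.2 with h | h
  · filter_upwards [h1, (isOpen_ne_fun continuous_snd continuous_const).mem_nhds h.2] with q' k1 k2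
    exact ⟨k1.le, .inl ⟨h.1, k2⟩⟩
  · exact h1.mono fun q' k1 => ⟨k1.le, .inr h⟩

/-- the connection form of a literal neck -/
theorem a_lit (hl : M.Lit m.1 c.1 a q.2) (hq : |q.2| < 1) (h : M.Lt c.1 t a) (u : ℝ) :
    Dr59.pm (IC (M.bn a).Y.I) (W.Z c).I (W.nj c a) ((Λ.Λ m c).a (u, t)) q = (N.cy a).ln.a q := by
  have h1 := Λ.neck' m h hq.le hl.not_mem u
  rw [Line51.th_congr (u' := N.m a) ((ev_lit hl hq).mono fun q' => Λ.lit m c a q')] at h1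
  exact add_left_cancel h1

/-- the connection matrices of a literal neck -/
theorem cm_lit (hl : M.Lit m.1 c.1 a q.2) (hq : |q.2| < 1) (h : M.Lt c.1 t a) (u : ℝ)
    (w : (M.bn a).Y.E × ℝ) : ((Λ.Λ m c).ln (u, t)).cm (W.Z c).I (W.nj c a q)
      (mf (IC (M.bn a).Y.I) (W.Z c).I (W.nj c a) q w) = (N.cy a).ln.cm (IC (M.bn a).Y.I) q w := by
  rw [← Line51.cm_pull (((Λ.Λ m c).ln_on _).sm _ trivial)
    ((W.ld_nj hl.not_mem).mdifferentiableAt (by simp)),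
    Line51.cm_congr (L := (N.cy a).ln) ((ev_lit hl hq).mono fun q' => Λ.p_lit) (Λ.a_lit hl hq h u)]

end Lns

end Crest.Agent.X212.M
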