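import Crest.Agent.X212.M.World

/-!
# Row 212, layer M: identifications of marks, lines and worlds; the existence statements
-/

set_option autoImplicit false
set_option linter.unusedSectionVars false
set_option linter.dupNamespace false
noncomputable section
open Set Function Filter Topology
open scoped ContDiff Manifold InnerProductSpace
open Crest.Agent.R208.F (Ext)

namespace Crest.Agent.X212.M
open An Cyl58 Cyf70 Int54 Prm93
open Met55 (Sp VF VJ FAt fP atx rFr)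
open Line51 (Ln Uni)
open Dr59 (mf)

/-- literal identification of cylinders -/
structure Cy.Iso {Y Y' : Mf 3} {κ lam : Type} [Fintype κ] (C : Cy Y κ lam) (C' : Cy Y' κ lam)
    (g : Y.M ≃ₘ^∞⟮Y.I, Y'.I⟯ Y'.M) : Prop where
  e : ∀ k y, mf Y.I Y'.I g y (atx C.F.e y k) = atx C'.F.e (g y) k
  o : ∀ i k l n y, C'.o i k l n (g y) = C.o i k l n y
  L : C'.L.pull Y.I Y'.I g = C.L

variable {X X' : Mf 4} {A A' A₀ κ lam : Type} [Fintype A] [Fintype A'] [Fintype A₀] [Fintype κ]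
  [Fintype lam]

/-- a partial identification of marks; the walls `f a` and `f' a` are matched -/
structure MId (M : Mark X A κ) (M' : Mark X' A' κ) (A₀ : Type) where
  ψ : PartialDiffeomorph X.I X'.I X.M X'.M ∞
  f : A₀ ↪ A
  f' : A₀ ↪ A'
  g : ∀ a, (M.bn (f a)).Y.M ≃ₘ^∞⟮(M.bn (f a)).Y.I, (M'.bn (f' a)).Y.I⟯ (M'.bn (f' a)).Y.M
  sub : ∀ a, range (M.bn (f a)).j ⊆ ψ.source
  jj : ∀ a q, ψ ((M.bn (f a)).j q) = (M'.bn (f' a)).j (g a q.1, q.2)
  sd : ∀ a b, ∀ x ∈ ψ.source, ψ x ∈ (M'.sys.w (f' a)).sd b ↔ x ∈ (M.sys.w (f a)).sd b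
  pin : ∀ a, M'.pin (f' a) ↔ M.pin (f a)
  gY : ∀ a k y, mf (M.bn (f a)).Y.I (M'.bn (f' a)).Y.I (g a) y (atx (M.gY (f a)).e y k) =
    atx (M'.gY (f' a)).e (g a y) k
  th : ∀ a, M.pin (f a) → ∀ y, M'.th (f' a) (g a y) = M.th (f a) y
  ori : SameOn M.o (Dr59.pm X.I X'.I ψ M'.o) ψ.source

variable {M : Mark X A κ} {M' : Mark X' A' κ}

/-- the identification is a diffeomorphism -/
def MId.Glob (I : MId M M' A₀) : Prop := I.ψ.source = univ ∧ I.ψ.target = univ

/-- matched parameters: unmatched active walls do not meet `V` -/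
structure MId.Rel (I : MId M M' A₀) (V : Set X.M) (t : A → ℝ) (t' : A' → ℝ) : Prop where
  par : t ∈ M.sys.Par
  par' : t' ∈ M'.sys.Par
  eq : ∀ a, t' (I.f' a) = t (I.f a)
  off : ∀ a, a ∉ range I.f → t a ≠ 0 → Disjoint (range (M.bn a).j) V
  off' : ∀ a, a ∉ range I.f' → t' a ≠ 0 → Disjoint (range (M'.bn a).j) (I.ψ '' V)

/-- the metrics of two worlds agree over `V` -/
def WId (W : World M) (W' : World M') (I : MId M M' A₀) (V : Set X.M) (u u' : ℝ) : Prop :=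
  ∀ t t', I.Rel V t t' → ∀ x ∈ V, x ∉ M.sys.cores (Sys.inf t) →
    Met55.Co (fun i => mf X.I X'.I I.ψ x (W.k (u, t) x i)) (W'.k (u', t') (I.ψ x))

/-- an isomorphism of marked lines over `V` -/
structure LId (N : ML M lam) (N' : ML M' lam) (I : MId M M' A₀) (V : Set X.M)
    (w : X.M → Matrix lam lam ℂ) : Prop where
  op : IsOpen V
  sub : V ⊆ I.ψ.source
  uni : Uni X.I N.p (fun x => N'.p (I.ψ x)) w V
  LY : ∀ a, (N'.LY (I.f' a)).pull (M.bn (I.f a)).Y.I (M'.bn (I.f' a)).Y.I (I.g a) = N.LY (I.f a)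
  m : ∀ a (q : (M.bn (I.f a)).Y.M × ℝ), |q.2| ≤ 3 → (M.bn (I.f a)).j q ∈ V →
    N'.m (I.f' a) (I.g a q.1, q.2) * w ((M.bn (I.f a)).j q) = N.m (I.f a) q

/-- the connections of two worlds agree over `V` -/
def CId {W : World M} {W' : World M'} {N : ML M lam} {N' : ML M' lam} (Λ : Lns W N)
    (Λ' : Lns W' N') (I : MId M M' A₀) (V : Set X.M) (w : X.M → Matrix lam lam ℂ) (u u' : ℝ) :
    Prop :=
  ∀ t t', I.Rel V t t' →
    Line51.Iso X.I ⟨N.p, Λ.a0 (u, t)⟩ (Ln.pull X.I X'.I I.ψ ⟨N'.p, Λ'.a0 (u', t')⟩) w V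

/-- forgetting walls -/
def Mark.res (M : Mark X A κ) (f : A₀ ↪ A) : Mark X A₀ κ where
  cpt := M.cpt
  con := M.con
  o := M.o
  ori := M.ori
  bn a := M.bn (f a)
  pin a := M.pin (f a)
  gY a := M.gY (f a)
  gvol a := M.gvol (f a)
  th a := M.th (f a)
  rnd a := M.rnd (f a)

/-- forgetting walls -/
def ML.res (N : ML M lam) (f : A₀ ↪ A) : ML (M.res f) lam where
  p := N.p
  ok := N.ok
  LY a := N.LY (f a)
  okY a := N.okY (f a)
  cst a := N.cst (f a)
  m a := N.m (f a)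
  um a := N.um (f a)

/-- the identification of a mark with fewer walls with the mark itself -/
def Mark.resId (M : Mark X A κ) (f : A₀ ↪ A) : MId (M.res f) M A₀ where
  ψ := (Diffeomorph.refl X.I X.M ∞).toPartialDiffeomorph
  f := .refl _
  f' := f
  g _ := Diffeomorph.refl _ _ ∞
  sub _ := subset_univ _
  jj _ _ := rfl
  sd _ _ _ _ := Iff.rfl
  pin _ := Iff.rfl
  gY a _ y := DFunLike.congr_fun (Dr59.mf_id (I := (M.bn (f a)).Y.I) (M := (M.bn (f a)).Y.M) y) _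
  th _ _ _ := rfl
  ori := by
    have : Dr59.pm X.I X.I (Diffeomorph.refl X.I X.M ∞).toPartialDiffeomorph M.o = M.o :=
      Dr59.pm_id _
    rw [this]; exact M.ori.same _

/-- an identification seen from the mark with the matched walls only -/
def MId.res (I : MId M M' A₀) : MId (M.res I.f) M' A₀ :=
  { I with f := .refl _ }

/-! ### standard worlds -/

/-- the cometric of a family of vectors -/
def cm {E ι : Type} [AddCommGroup E] [Module ℝ E] [Fintype ι] (v : ι → E) (α β : E →ₗ[ℝ] ℝ) : ℝ :=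
  ∑ i, α (v i) * β (v i)

/-- a family of metrics on `V` -/
structure Bas (X : Mf 4) (V : Set X.M) where
  n : ℕ
  r : ℝ → Fin n → VF X.I X.M
  sm : ∀ u, ∀ x ∈ V, ∀ i, VJ X.I (fun s => r s i) u x
  sp : ∀ u, ∀ x ∈ V, Sp (atx (r u) x)

/-- a family of one-forms on `V` -/
structure LBas (X : Mf 4) (V : Set X.M) where
  b : ℝ → X.M → Ext X.E
  sm : ∀ u, Dr59.Sm X.I V (b u)
  dg : ∀ u, Dr59.Dg 1 V (b u)
  js : ∀ u, ∀ x ∈ V, ∀ e : VF X.I X.M, Met55.VAt X.I e x →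
    JAt X.I (fun s y => Num57.e1 (b s y) (e y)) u x

/-- the world is the standard modification of the base metrics `B` -/
structure Std (W : World M) (B : Bas X univ) : Prop where
  off : ∀ u, ∀ t ∈ M.sys.Par, ∀ x, (∀ a, t a ≠ 0 → x ∉ range (M.bn a).j) →
    Met55.Co (W.k (u, t) x) (atx (B.r u) x)
  band : ∀ u, ∀ t ∈ M.sys.Par, ∀ a, t a ≠ 0 → ∀ q : (M.bn a).Y.M × ℝ, (t a, q.2) ∈ Off → ∀ α β,
    cm (W.k (u, t) ((M.bn a).j q)) α β =
      (1 - tau (t a) * chi q.2) * cm (atx (B.r u) ((M.bn a).j q)) α β + tau (t a) * chi q.2 *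
        cm (fun i => mf (IC (M.bn a).Y.I) X.I (M.bn a).j q (M.nf a (t a) q i)) α β

/-- the connection form for which the marking of the band `a` is parallel -/
def ML.nA (N : ML M lam) (a : A) (q : (M.bn a).Y.M × ℝ) : Ext ((M.bn a).Y.E × ℝ) :=
  Line51.th (IC (M.bn a).Y.I) (N.m a) q +
    Dr59.pm (IC (M.bn a).Y.I) (M.bn a).Y.I Prod.fst (N.LY a).a q

/-- the connections are the standard modification of the base connections `b` -/
structure LStd {W : World M} {N : ML M lam} (Λ : Lns W N) (b : LBas X univ) : Prop where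
  off : ∀ u, ∀ t ∈ M.sys.Par, ∀ x, (∀ a, t a ≠ 0 → x ∉ range (M.bn a).j) → Λ.a0 (u, t) x = b.b u x
  band : ∀ u, ∀ t ∈ M.sys.Par, ∀ a, t a ≠ 0 → ∀ q : (M.bn a).Y.M × ℝ,
    Dr59.pm (IC (M.bn a).Y.I) X.I (M.bn a).j (Λ.a0 (u, t)) q =
      (1 - tau (t a) * chi q.2) • Dr59.pm (IC (M.bn a).Y.I) X.I (M.bn a).j (b.b u) q +
        (tau (t a) * chi q.2) • N.nA a q

/-- eight frame indices are not used on the cylinders -/
def Mark.Spare (M : Mark X A κ) : Prop :=
  ∃ e : Fin 8 ↪ κ, ∀ a, ¬M.pin a → ∀ j y, atx (M.gY a).e y (e j) = 0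

/-- three indices are not used by the lines of the walls -/
def ML.Spare (N : ML M lam) : Prop :=
  ∃ e : Fin 3 ↪ lam, ∀ a j y k, (N.LY a).p y (e j) k = 0

/-! ### the leaves -/

/-- MS1: eight fields are enough -/
def Ms1Stmt : Prop := ∀ (Z : Mf 4) (ι : Type) [Fintype ι] (e : ι → VF Z.I Z.M), (∀ x, FAt e x) →
  ∃ e' : Fin 8 → VF Z.I Z.M, ∀ x, FAt e' x

/-- MS2: every line lives in `ℂ³` -/
def Ms2Stmt : Prop := ∀ (Z : Mf 4) (ι : Type) [Fintype ι] (p : Z.M → Matrix ι ι ℂ),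
  Ln.On Z.I ⟨p, 0⟩ univ → ∃ (q : Z.M → Matrix (Fin 3) (Fin 3) ℂ) (w : Z.M → Matrix (Fin 3) ι ℂ),
    Uni Z.I p q w univ

/-- CAPS -/
def CapsStmt : Prop := ∀ (X : Mf 4) (A κ : Type) [Fintype A] [Fintype κ] (M : Mark X A κ),
  Nonempty (Caps M)

/-- EXW: standard worlds exist -/
def ExwStmt : Prop := ∀ (X : Mf 4) (A κ : Type) [Fintype A] [Fintype κ] (M : Mark X A κ)
  (C : Caps M) (B : Bas X univ), M.Spare → ∃ W : World M, W.toCaps = C ∧ Std W B

/-- EXL: standard connections exist -/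
def ExlStmt : Prop := ∀ (X : Mf 4) (A κ lam : Type) [Fintype A] [Fintype κ] [Fintype lam]
  (M : Mark X A κ) (W : World M) (N : ML M lam) (b : LBas X univ), N.Spare →
    ∃ Λ : Lns W N, LStd Λ b

/-- IND: two worlds over diffeomorphic marks are joined by a family over the matched walls -/
def IndStmt : Prop := ∀ (X X' : Mf 4) (A A' A₀ κ lam : Type) [Fintype A] [Fintype A'] [Fintype A₀]
  [Fintype κ] [Fintype lam] (M : Mark X A κ) (M' : Mark X' A' κ) (I : MId M M' A₀)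
  (W : World M) (W' : World M') (u u' : ℝ), I.Glob →
    ∃ W₀ : World (M.res I.f), WId W₀ W (M.resId I.f) univ 0 u ∧ WId W₀ W' I.res univ 1 u' ∧
      (∀ s t x α β, cm (W₀.k (s, t) x) α β = (1 - Real.smoothTransition s) * cm (W₀.k (0, t) x) α β +
        Real.smoothTransition s * cm (W₀.k (1, t) x) α β) ∧
      ∀ (N : ML M lam) (N' : ML M' lam) (w : X.M → Matrix lam lam ℂ) (Λ : Lns W N) (Λ' : Lns W' N'),
        LId N N' I univ w → ∃ Λ₀ : Lns W₀ (N.res I.f),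
          CId Λ₀ Λ (M.resId I.f) univ N.p 0 u ∧ CId Λ₀ Λ' I.res univ w 1 u' ∧
          ∀ s t x, Λ₀.a0 (s, t) x = (1 - Real.smoothTransition s) • Λ₀.a0 (0, t) x +
            Real.smoothTransition s • Λ₀.a0 (1, t) x

end Crest.Agent.X212.M
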