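import Mathlib

/-!
# Row 212, layer M: profile functions of the necks

`tau` switches a neck on, `chi` is the cut-off of a band, `rad t s` the radius of the pinched neck,
`sig t s` the length of the vector field `∂_s` on a stretched neck, `len`/`lenR` arc length.
-/

set_option autoImplicit false
noncomputable section
open Set Function Filter Topology
open scoped ContDiff

namespace Crest.Agent.X212.M

/-- `0` for `t ≤ 0`, `1` for `t ≥ 1/2` -/
def tau (t : ℝ) : ℝ := Real.smoothTransition (2 * t)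

/-- `1` for `|s| ≤ 1`, `0` for `|s| ≥ 2` -/
def chi (s : ℝ) : ℝ := Real.smoothTransition (2 - s) * Real.smoothTransition (2 + s)

theorem contDiff_tau : ContDiff ℝ ∞ tau :=
  Real.smoothTransition.contDiff.comp (contDiff_const.mul contDiff_id)

theorem contDiff_chi : ContDiff ℝ ∞ chi :=
  (Real.smoothTransition.contDiff.comp (contDiff_const.sub contDiff_id)).mul
    (Real.smoothTransition.contDiff.comp (contDiff_const.add contDiff_id))

theorem tau_nonneg (t : ℝ) : 0 ≤ tau t := Real.smoothTransition.nonneg _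
theorem tau_le_one (t : ℝ) : tau t ≤ 1 := Real.smoothTransition.le_one _
theorem tau_eq_zero {t : ℝ} (h : t ≤ 0) : tau t = 0 :=
  Real.smoothTransition.zero_of_nonpos (by linarith)
@[simp] theorem tau_zero : tau 0 = 0 := tau_eq_zero le_rfl
theorem tau_eq_one {t : ℝ} (h : 1 / 2 ≤ t) : tau t = 1 :=
  Real.smoothTransition.one_of_one_le (by linarith)
@[simp] theorem tau_one : tau 1 = 1 := tau_eq_one (by norm_num)

theorem chi_nonneg (s : ℝ) : 0 ≤ chi s :=
  mul_nonneg (Real.smoothTransition.nonneg _) (Real.smoothTransition.nonneg _)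
theorem chi_le_one (s : ℝ) : chi s ≤ 1 :=
  mul_le_one₀ (Real.smoothTransition.le_one _) (Real.smoothTransition.nonneg _)
    (Real.smoothTransition.le_one _)
theorem chi_eq_one {s : ℝ} (h : |s| ≤ 1) : chi s = 1 := by
  rw [abs_le] at h
  rw [chi, Real.smoothTransition.one_of_one_le (by linarith),
    Real.smoothTransition.one_of_one_le (by linarith), one_mul]
theorem chi_eq_zero {s : ℝ} (h : 2 ≤ |s|) : chi s = 0 := by
  rcases le_abs.1 h with h | h
  · rw [chi, Real.smoothTransition.zero_of_nonpos (x := 2 - s) (by linarith), zero_mul]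
  · rw [chi, Real.smoothTransition.zero_of_nonpos (x := 2 + s) (by linarith), mul_zero]
theorem chi_neg (s : ℝ) : chi (-s) = chi s := by
  rw [chi, chi, sub_neg_eq_add, ← sub_eq_add_neg, mul_comm]
theorem chi_two_one {s : ℝ} (h : |s| ≤ 1 / 2) : chi (2 * s) = 1 :=
  chi_eq_one (by rw [abs_mul, abs_two]; linarith)
theorem chi_two_zero {s : ℝ} (h : 1 ≤ |s|) : chi (2 * s) = 0 :=
  chi_eq_zero (by rw [abs_mul, abs_two]; linarith)

/-- the set of neck parameters and heights off the broken core -/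
def Off : Set (ℝ × ℝ) := {p | p.1 < 1 ∨ p.2 ≠ 0}

theorem isOpen_off : IsOpen Off :=
  (isOpen_lt continuous_fst continuous_const).union (isOpen_ne_fun continuous_snd continuous_const)

/-- the radius of the pinched neck -/
def rad (t s : ℝ) : ℝ := √(s ^ 2 + (1 - t) ^ 2)

theorem rad_sq_pos {t s : ℝ} (h : (t, s) ∈ Off) : 0 < s ^ 2 + (1 - t) ^ 2 := by
  rcases h with h | h
  · have : 0 < 1 - t := sub_pos.2 h
    positivity
  · have : s ≠ 0 := h
    positivity

theorem rad_pos {t s : ℝ} (h : (t, s) ∈ Off) : 0 < rad t s := Real.sqrt_pos.2 (rad_sq_pos h)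

theorem rad_sq (t s : ℝ) : rad t s ^ 2 = s ^ 2 + (1 - t) ^ 2 := Real.sq_sqrt (by positivity)

@[simp] theorem rad_one (s : ℝ) : rad 1 s = |s| := by simp [rad, Real.sqrt_sq_eq_abs]

theorem contDiffAt_rad {p : ℝ × ℝ} (h : p ∈ Off) : ContDiffAt ℝ ∞ (fun q : ℝ × ℝ => rad q.1 q.2) p :=
  ContDiffAt.sqrt (by fun_prop) (rad_sq_pos h).ne'

/-- a smoothing of `|s|` at the scale `ε` -/
def ab (ε s : ℝ) : ℝ := if |s| < ε then |s| + chi (2 * (s / ε)) * (ε - |s|) else |s|

theorem ab_of_le {ε s : ℝ} (h : ε ≤ |s|) : ab ε s = |s| := if_neg (not_lt.2 h)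

theorem ab_of_pos {ε : ℝ} (h : 0 < ε) (s : ℝ) : ab ε s = |s| + chi (2 * (s / ε)) * (ε - |s|) := by
  unfold ab; split_ifs with h1
  · rfl
  · rw [chi_two_zero (by rw [abs_div, abs_of_pos h, one_le_div h]; exact not_lt.1 h1)]; simp

theorem abs_le_ab (ε s : ℝ) : |s| ≤ ab ε s := by
  unfold ab; split_ifs with h1
  · exact le_add_of_nonneg_right (mul_nonneg (chi_nonneg _) (sub_pos.2 h1).le)
  · exact le_rfl

theorem ab_le (ε s : ℝ) : ab ε s ≤ max ε |s| := by
  unfold ab; split_ifs with h1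
  · have := mul_le_of_le_one_left (sub_pos.2 h1).le (chi_le_one (2 * (s / ε)))
    exact le_max_of_le_left (by linarith)
  · exact le_max_right _ _

theorem ab_of_small {ε s : ℝ} (h : 0 < ε) (hs : |s| ≤ ε / 2) : ab ε s = ε := by
  rw [ab_of_pos h, chi_two_one (by rw [abs_div, abs_of_pos h, div_le_iff₀ h]; linarith)]; ring

theorem ab_pos {ε s : ℝ} (h : 0 < ε ∨ s ≠ 0) : 0 < ab ε s := by
  by_cases hs : s = 0
  · have h := h.resolve_right (not_not.2 hs)
    rw [ab_of_small h (by rw [hs, abs_zero]; positivity)]; exact h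
  · exact (abs_pos.2 hs).trans_le (abs_le_ab _ _)

theorem ab_neg (ε s : ℝ) : ab ε (-s) = ab ε s := by
  simp only [ab, abs_neg, neg_div, mul_neg, chi_neg]

theorem contDiffAt_ab {p : ℝ × ℝ} (h : 0 < p.1 ∨ p.2 ≠ 0) :
    ContDiffAt ℝ ∞ (fun q : ℝ × ℝ => ab q.1 q.2) p := by
  by_cases h1 : 0 < p.1
  · by_cases h2 : p.2 = 0
    · have : ∀ᶠ q : ℝ × ℝ in 𝓝 p, 0 < q.1 ∧ |q.2| < q.1 / 2 :=
        Filter.Eventually.and ((isOpen_lt continuous_const continuous_fst).mem_nhds h1)
          ((isOpen_lt (f := fun q : ℝ × ℝ => |q.2|) (g := fun q => q.1 / 2) (by fun_prop)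
            (by fun_prop)).mem_nhds (by
            show |p.2| < p.1 / 2
            rw [h2, abs_zero]; positivity))
      exact contDiffAt_fst.congr_of_eventuallyEq (this.mono fun q hq => ab_of_small hq.1 hq.2.le)
    · have ha : ContDiffAt ℝ ∞ (fun q : ℝ × ℝ => |q.2|) p := contDiffAt_snd.abs h2
      have : ∀ᶠ q : ℝ × ℝ in 𝓝 p, 0 < q.1 := (isOpen_lt continuous_const continuous_fst).mem_nhds h1
      refine ContDiffAt.congr_of_eventuallyEq ?_ (this.mono fun q hq => ab_of_pos hq q.2)
      exact ha.add ((contDiff_chi.contDiffAt.comp p (contDiffAt_const.mul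
        (contDiffAt_snd.div contDiffAt_fst h1.ne'))).mul (contDiffAt_fst.sub ha))
  · have h2 := h.resolve_left h1
    have : ∀ᶠ q : ℝ × ℝ in 𝓝 p, q.1 < |q.2| :=
      (isOpen_lt continuous_fst (by fun_prop)).mem_nhds ((not_lt.1 h1).trans_lt (abs_pos.2 h2))
    exact (contDiffAt_snd.abs h2).congr_of_eventuallyEq (this.mono fun q hq => ab_of_le hq.le)

/-- the length of `∂_s` on a stretched neck -/
def sig (t s : ℝ) : ℝ := 1 + tau t * chi (2 * s) * (ab ((1 - t) / 2) s - 1)

theorem off_iff {t s : ℝ} (h : (t, s) ∈ Off) : 0 < (1 - t) / 2 ∨ s ≠ 0 :=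
  h.imp (fun h : t < 1 => by linarith) id

theorem sig_pos {t s : ℝ} (h : (t, s) ∈ Off) : 0 < sig t s := by
  have h1 := ab_pos (off_iff h)
  have h2 : 0 ≤ tau t * chi (2 * s) := mul_nonneg (tau_nonneg t) (chi_nonneg _)
  have h3 : tau t * chi (2 * s) ≤ 1 := mul_le_one₀ (tau_le_one t) (chi_nonneg _) (chi_le_one _)
  unfold sig
  rcases h3.eq_or_lt with h4 | h4
  · rw [h4]; linarith
  · nlinarith [mul_nonneg h2 h1.le]

theorem sig_eq_one_left {t : ℝ} (h : t ≤ 0) (s : ℝ) : sig t s = 1 := by simp [sig, tau_eq_zero h]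

@[simp] theorem sig_zero (s : ℝ) : sig 0 s = 1 := sig_eq_one_left le_rfl s

theorem sig_eq_one {s : ℝ} (h : 1 ≤ |s|) (t : ℝ) : sig t s = 1 := by simp [sig, chi_two_zero h]

theorem sig_one {s : ℝ} (h : |s| ≤ 1 / 2) : sig 1 s = |s| := by
  simp [sig, chi_two_one h, ab_of_le]

theorem sig_eq_sig_one {t s : ℝ} (ht : 1 / 2 ≤ t) (h : (1 - t) / 2 ≤ |s|) : sig t s = sig 1 s := by
  simp [sig, tau_eq_one ht, ab_of_le h, ab_of_le]

theorem sig_neg (t s : ℝ) : sig t (-s) = sig t s := by
  simp only [sig, mul_neg, chi_neg, ab_neg]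

theorem sig_le_one {t : ℝ} (ht : 0 ≤ t) (s : ℝ) : sig t s ≤ 1 := by
  by_cases h : 1 ≤ |s|
  · exact (sig_eq_one h t).le
  have h1 : ab ((1 - t) / 2) s ≤ 1 := (ab_le _ _).trans (max_le (by linarith) (not_le.1 h).le)
  have h2 : 0 ≤ tau t * chi (2 * s) := mul_nonneg (tau_nonneg t) (chi_nonneg _)
  unfold sig; nlinarith

theorem contDiffAt_sig {p : ℝ × ℝ} (h : p ∈ Off) :
    ContDiffAt ℝ ∞ (fun q : ℝ × ℝ => sig q.1 q.2) p := by
  have h1 : ContDiffAt ℝ ∞ (fun q : ℝ × ℝ => ab ((1 - q.1) / 2) q.2) p :=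
    (contDiffAt_ab (p := ((1 - p.1) / 2, p.2)) (off_iff h)).comp p
      (f := fun q : ℝ × ℝ => ((1 - q.1) / 2, q.2)) (by fun_prop)
  exact contDiffAt_const.add (((contDiff_tau.contDiffAt.comp p contDiffAt_fst).mul
    (contDiff_chi.contDiffAt.comp p (contDiffAt_const.mul contDiffAt_snd))).mul
      (h1.sub contDiffAt_const))

theorem contDiffAt_sig_right {t s : ℝ} (h : (t, s) ∈ Off) : ContDiffAt ℝ ∞ (sig t) s :=
  (contDiffAt_sig h).comp s (f := fun s => (t, s)) (by fun_prop)

theorem contDiffAt_inv_sig {t s : ℝ} (h : (t, s) ∈ Off) :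
    ContDiffAt ℝ ∞ (fun x => (sig t x)⁻¹) s := (contDiffAt_sig_right h).inv (sig_pos h).ne'

/-- the heights on the left of the core (everything if the neck is not broken) -/
def dom (t : ℝ) (b : Bool) : Set ℝ := {s | t < 1 ∨ if b then 0 < s else s < 0}

theorem dom_off {t s : ℝ} {b : Bool} (h : s ∈ dom t b) : (t, s) ∈ Off := by
  refine h.imp id fun h => ?_
  cases b
  · exact (show s < 0 from h).ne
  · exact (show 0 < s from h).ne'

theorem dom_eq (t : ℝ) (b : Bool) :
    dom t b = if t < 1 then univ else if b then Ioi 0 else Iio 0 := by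
  ext s; by_cases h : t < 1 <;> cases b <;> simp [dom, h]

theorem isOpen_dom (t : ℝ) (b : Bool) : IsOpen (dom t b) := by
  rw [dom_eq]; split_ifs
  exacts [isOpen_univ, isOpen_Ioi, isOpen_Iio]

theorem ordConnected_dom (t : ℝ) (b : Bool) : OrdConnected (dom t b) := by
  rw [dom_eq]; split_ifs <;> infer_instance

/-- the end point `±1` -/
def pm (b : Bool) : ℝ := if b then 1 else -1

theorem pm_mem (t : ℝ) (b : Bool) : pm b ∈ dom t b := by cases b <;> simp [dom, pm]

/-- arc length measured from the height `±1` -/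
def len (t : ℝ) (b : Bool) (s : ℝ) : ℝ := ∫ x in pm b..s, (sig t x)⁻¹

theorem continuousOn_inv_sig (t : ℝ) (b : Bool) : ContinuousOn (fun x => (sig t x)⁻¹) (dom t b) :=
  fun _ hx => (contDiffAt_inv_sig (dom_off hx)).continuousAt.continuousWithinAt

theorem integrable_inv_sig {t : ℝ} {b : Bool} {r s : ℝ} (hr : r ∈ dom t b) (hs : s ∈ dom t b) :
    IntervalIntegrable (fun x => (sig t x)⁻¹) MeasureTheory.volume r s :=
  ((continuousOn_inv_sig t b).mono ((ordConnected_dom t b).uIcc_subset hr hs)).intervalIntegrable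

theorem hasDerivAt_len {t : ℝ} {b : Bool} {s : ℝ} (hs : s ∈ dom t b) :
    HasDerivAt (len t b) (sig t s)⁻¹ s :=
  intervalIntegral.integral_hasDerivAt_right (integrable_inv_sig (pm_mem t b) hs)
    ((continuousOn_inv_sig t b).stronglyMeasurableAtFilter (isOpen_dom t b) s hs)
    (contDiffAt_inv_sig (dom_off hs)).continuousAt

theorem contDiffOn_len (t : ℝ) (b : Bool) : ContDiffOn ℝ ∞ (len t b) (dom t b) := by
  rw [contDiffOn_infty_iff_deriv_of_isOpen (isOpen_dom t b)]
  refine ⟨fun s hs => (hasDerivAt_len hs).differentiableAt.differentiableWithinAt, ?_⟩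
  exact ContDiffOn.congr (fun s hs => (contDiffAt_inv_sig (dom_off hs)).contDiffWithinAt)
    fun s hs => (hasDerivAt_len hs).deriv

theorem strictMonoOn_len (t : ℝ) (b : Bool) : StrictMonoOn (len t b) (dom t b) :=
  strictMonoOn_of_deriv_pos (ordConnected_dom t b).convex (contDiffOn_len t b).continuousOn
    fun s hs => by
      have hs := interior_subset hs
      rw [(hasDerivAt_len hs).deriv]; exact inv_pos.2 (sig_pos (dom_off hs))

@[simp] theorem len_pm (t : ℝ) (b : Bool) : len t b (pm b) = 0 := intervalIntegral.integral_same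

theorem len_sub {t : ℝ} {b : Bool} {r s : ℝ} (hr : r ∈ dom t b) (hs : s ∈ dom t b) :
    len t b s - len t b r = ∫ x in r..s, (sig t x)⁻¹ :=
  intervalIntegral.integral_interval_sub_left (integrable_inv_sig (pm_mem t b) hs)
    (integrable_inv_sig (pm_mem t b) hr)

/-- the length of the neck -/
def nl (t : ℝ) : ℝ := len t false 1

theorem len_false {t : ℝ} (ht : t < 1) (s : ℝ) : len t false s = len t true s + nl t := by
  have := len_sub (t := t) (b := false) (r := 1) (s := s) (.inl ht) (.inl ht)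
  rw [nl, ← sub_eq_iff_eq_add, this]; rfl

/-- outside the cut-off region arc length is the height -/
theorem len_outer {t : ℝ} {b : Bool} {s : ℝ} (hs : 1 ≤ pm b * s) : len t b s = s - pm b := by
  rw [len, intervalIntegral.integral_congr (g := fun _ => 1) fun x hx => ?_]
  · simp
  · rw [sig_eq_one _ t, inv_one]
    cases b
    · simp only [pm, Bool.false_eq_true, if_false, neg_mul, one_mul] at hs hx
      rw [uIcc_of_ge (by linarith)] at hx
      exact le_abs.2 (.inr (by linarith [hx.2]))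
    · simp only [pm, if_true, one_mul] at hs hx
      rw [uIcc_of_le hs] at hx
      exact le_abs.2 (.inl hx.1)

/-- off the middle part the stretched neck is the broken neck -/
theorem len_eq_len_one {t : ℝ} (ht : 1 / 2 ≤ t) {b : Bool} {s : ℝ} (hs : (1 - t) / 2 ≤ pm b * s) :
    len t b s = len 1 b s := by
  refine intervalIntegral.integral_congr fun x hx => ?_
  show (sig t x)⁻¹ = (sig 1 x)⁻¹
  rw [sig_eq_sig_one ht]
  cases b
  · simp only [pm, Bool.false_eq_true, if_false, neg_mul, one_mul] at hs hx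
    refine le_abs.2 (.inr ?_)
    rcases mem_uIcc.1 hx with h | h <;> linarith [h.1, h.2]
  · simp only [pm, if_true, one_mul] at hs hx
    refine le_abs.2 (.inl ?_)
    rcases mem_uIcc.1 hx with h | h <;> linarith [h.1, h.2]

theorem len_neg (t : ℝ) (b : Bool) (s : ℝ) : len t (!b) (-s) = -len t b s := by
  have : pm (!b) = -pm b := by cases b <;> simp [pm]
  rw [len, this, ← intervalIntegral.integral_comp_neg (fun x => (sig t x)⁻¹)]
  simp only [sig_neg]
  rw [intervalIntegral.integral_symm]; rfl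

/-- near the core of the broken neck arc length is `log s` -/
theorem len_one_true {s : ℝ} (h0 : 0 < s) (hs : s ≤ 1 / 2) :
    len 1 true s = len 1 true (1 / 2) + Real.log (2 * s) := by
  have := len_sub (t := 1) (b := true) (r := 1 / 2) (s := s) (.inr (by simp)) (.inr (by simpa))
  rw [intervalIntegral.integral_congr (g := fun x => x⁻¹) fun x hx => ?_,
    integral_inv_of_pos (by norm_num) h0] at this
  · rw [← sub_eq_iff_eq_add', this]; congr 1; ring
  · rw [uIcc_of_ge hs] at hx
    have hx0 : 0 < x := h0.trans_le hx.1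
    show (sig 1 x)⁻¹ = x⁻¹
    rw [sig_one (by rw [abs_of_pos hx0]; exact hx.2), abs_of_pos hx0]

theorem len_one_false {s : ℝ} (h0 : s < 0) (hs : -(1 / 2) ≤ s) :
    len 1 false s = -len 1 true (1 / 2) - Real.log (-(2 * s)) := by
  have := len_neg 1 true (-s)
  rw [neg_neg, len_one_true (neg_pos.2 h0) (by linarith)] at this
  rw [show false = !true from rfl, this, mul_neg]; ring

theorem tendsto_len_one_true : Tendsto (len 1 true) (𝓝[>] 0) atBot := by
  have h1 : Tendsto (fun s : ℝ => 2 * s) (𝓝[>] 0) (𝓝[>] 0) :=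
    tendsto_nhdsWithin_iff.2 ⟨by
      simpa using ((continuous_const.mul continuous_id).tendsto (0 : ℝ)).mono_left
        (nhdsWithin_le_nhds (s := Ioi 0)) (f := fun s : ℝ => 2 * s),
      eventually_mem_nhdsWithin.mono fun s (hs : 0 < s) => by show 0 < 2 * s; positivity⟩
  refine (tendsto_atBot_add_const_left _ (len 1 true (1 / 2))
    (Real.tendsto_log_nhdsGT_zero.comp h1)).congr' ?_
  filter_upwards [Ioc_mem_nhdsGT (show (0 : ℝ) < 1 / 2 by norm_num)] with s hs
  exact (len_one_true hs.1 hs.2).symm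

theorem nl_ge {t : ℝ} (ht : 1 / 2 ≤ t) (h1 : t < 1) : -len 1 true ((1 - t) / 2) ≤ nl t := by
  have h2 := len_false h1 ((1 - t) / 2)
  rw [len_eq_len_one (b := true) ht (by simp [pm])] at h2
  have h3 : len t false (pm false) ≤ len t false ((1 - t) / 2) :=
    (strictMonoOn_len t false).monotoneOn (.inl h1) (.inl h1) (by simp only [pm]; norm_num; linarith)
  rw [len_pm] at h3; linarith

theorem tendsto_nl : Tendsto nl (𝓝[<] 1) atTop := by
  have h1 : Tendsto (fun t : ℝ => (1 - t) / 2) (𝓝[<] 1) (𝓝[>] 0) :=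
    tendsto_nhdsWithin_iff.2 ⟨by
      have : Continuous fun t : ℝ => (1 - t) / 2 := by fun_prop
      simpa using (this.tendsto 1).mono_left (nhdsWithin_le_nhds (s := Iio 1)),
      eventually_mem_nhdsWithin.mono fun t (ht : t < 1) => by show 0 < (1 - t) / 2; linarith⟩
  refine tendsto_atTop_mono' _ ?_ (tendsto_neg_atBot_atTop.comp (tendsto_len_one_true.comp h1))
  filter_upwards [Ico_mem_nhdsLT (show (1 / 2 : ℝ) < 1 by norm_num)] with t ht
  exact nl_ge ht.1 ht.2

/-- a smooth clamp: the identity on `[-3,3]`, constant outside `[-6,6]` -/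
def clp (s : ℝ) : ℝ := chi (s / 3) * s + (1 - chi (s / 3)) * (if 0 < s then 4 else -4)

theorem clp_eq {s : ℝ} (h : |s| ≤ 3) : clp s = s := by
  rw [clp, chi_eq_one (by rw [abs_div, abs_of_pos (show (0 : ℝ) < 3 by norm_num)]; linarith)]; ring

theorem clp_top {s : ℝ} (h : 6 ≤ s) : clp s = 4 := by
  rw [clp, chi_eq_zero (le_abs.2 (.inl (by linarith))), if_pos (by linarith)]; ring

theorem clp_bot {s : ℝ} (h : s ≤ -6) : clp s = -4 := by
  rw [clp, chi_eq_zero (le_abs.2 (.inr (by linarith))), if_neg (by linarith)]; ring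

theorem clp_ge {s : ℝ} (h : 3 ≤ s) : 3 ≤ clp s := by
  rw [clp, if_pos (by linarith)]
  nlinarith [chi_nonneg (s / 3), chi_le_one (s / 3)]

theorem clp_le {s : ℝ} (h : s ≤ -3) : clp s ≤ -3 := by
  rw [clp, if_neg (by linarith)]
  nlinarith [chi_nonneg (s / 3), chi_le_one (s / 3)]

theorem contDiff_clp : ContDiff ℝ ∞ clp := by
  have hc : ContDiff ℝ ∞ fun s : ℝ => chi (s / 3) := contDiff_chi.comp (contDiff_id.div_const 3)
  refine contDiff_iff_contDiffAt.2 fun s => ?_
  rcases lt_trichotomy s 0 with h | rfl | h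
  · refine (((hc.mul contDiff_id).add (((contDiff_const (c := (1 : ℝ))).sub hc).mul
      (contDiff_const (c := (-4 : ℝ))))).contDiffAt).congr_of_eventuallyEq ?_
    filter_upwards [Iio_mem_nhds h] with x (hx : x < 0)
    simp [clp, hx.le]
  · refine contDiffAt_id.congr_of_eventuallyEq ?_
    filter_upwards [Icc_mem_nhds (show (-3 : ℝ) < 0 by norm_num) (show (0 : ℝ) < 3 by norm_num)]
      with x hx
    exact clp_eq (abs_le.2 hx)
  · refine (((hc.mul contDiff_id).add (((contDiff_const (c := (1 : ℝ))).sub hc).mul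
      (contDiff_const (c := (4 : ℝ))))).contDiffAt).congr_of_eventuallyEq ?_
    filter_upwards [Ioi_mem_nhds h] with x (hx : 0 < x)
    simp [clp, hx]

end Crest.Agent.X212.M
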