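import Crest.Agent.X212.M.Coef
import Crest.Agent.X212.M.Prof
import Crest.Agent.X212.An.Gauge
import Crest.Agent.X212.Cyf70.Cyl
import Crest.Agent.X212.Cyl58.HB

/-!
# Row 212, layer M: bundled manifolds and bands
-/

set_option autoImplicit false
set_option linter.unusedSectionVars false
set_option linter.dupNamespace false
noncomputable section
open Set Function Filter Topology
open scoped ContDiff Manifold InnerProductSpace

namespace Crest.Agent.X212.M
open An Cyl58 Cyf70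

/-- the model space of the caps -/
abbrev V4 : Type := EuclideanSpace ℝ (Fin 4)

/-- a bundled `n`-manifold with everything layer AN asks for -/
structure Mf (n : ℕ) : Type 1 where
  E : Type
  [nE : NormedAddCommGroup E]
  [sE : NormedSpace ℝ E]
  [fE : FiniteDimensional ℝ E]
  [mE : MeasurableSpace E]
  [bE : BorelSpace E]
  H : Type
  [tH : TopologicalSpace H]
  I : ModelWithCorners ℝ E H
  [bI : I.Boundaryless]
  M : Type
  [tM : TopologicalSpace M]
  [cM : ChartedSpace H M]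
  [mM : IsManifold I ∞ M]
  [t2 : T2Space M]
  [sc : SecondCountableTopology M]
  [ms : MeasurableSpace M]
  [bs : BorelSpace M]
  dim : Module.finrank ℝ E = n

attribute [instance] Mf.nE Mf.sE Mf.fE Mf.mE Mf.bE Mf.tH Mf.bI Mf.tM Mf.cM Mf.mM Mf.t2 Mf.sc Mf.ms
  Mf.bs

/-- bundle a manifold -/
abbrev Mf.of (n : ℕ) {E : Type} [NormedAddCommGroup E] [NormedSpace ℝ E] [FiniteDimensional ℝ E]
    [MeasurableSpace E] [BorelSpace E]
    {H : Type} [TopologicalSpace H] (I : ModelWithCorners ℝ E H) [I.Boundaryless] (M : Type)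
    [TopologicalSpace M] [ChartedSpace H M] [IsManifold I ∞ M] [T2Space M]
    [SecondCountableTopology M] [MeasurableSpace M] [BorelSpace M]
    (h : Module.finrank ℝ E = n) : Mf n :=
  { E := E, H := H, I := I, M := M, dim := h }

/-- bundle a manifold, with the Borel structures -/
abbrev Mf.ofB (n : ℕ) {E : Type} [NormedAddCommGroup E] [NormedSpace ℝ E] [FiniteDimensional ℝ E]
    {H : Type} [TopologicalSpace H] (I : ModelWithCorners ℝ E H) [I.Boundaryless] (M : Type)
    [TopologicalSpace M] [ChartedSpace H M] [IsManifold I ∞ M] [T2Space M]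
    [SecondCountableTopology M] (h : Module.finrank ℝ E = n) : Mf n :=
  { E := E, H := H, I := I, M := M, dim := h, mE := borel E, bE := @BorelSpace.mk _ _ (borel E) rfl,
    ms := borel M, bs := @BorelSpace.mk _ _ (borel M) rfl }

/-- the piece of the gluing library -/
abbrev Mf.pc {n : ℕ} (X : Mf n) : Glue52.Pc (EuclideanSpace ℝ (Fin n)) :=
  Glue52.Pc.of X.I X.M (Glue52.linE n X.E X.dim)

/-- a separating band `Y × ℝ → X`; the sign of `ht` names the two sides -/
structure Band (X : Mf 4) : Type 1 where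
  Y : Mf 3
  [cpt : CompactSpace Y.M]
  [con : ConnectedSpace Y.M]
  j : Y.M × ℝ → X.M
  oe : IsOE (IC Y.I) X.I j
  ht : X.M → ℝ
  cont : Continuous ht
  pos : ∀ p, 0 < ht (j p) ↔ 0 < p.2
  neg : ∀ p, ht (j p) < 0 ↔ p.2 < 0
  off : ∀ x, x ∉ range j → ht x ≠ 0

attribute [instance] Band.cpt Band.con

theorem pm_eq_sg (b : Bool) : pm b = sg b := rfl
theorem pm_mul_pm (b : Bool) : pm b * pm b = 1 := by cases b <;> simp [pm]
theorem abs_pm (b : Bool) : |pm b| = 1 := by cases b <;> simp [pm]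
theorem pm_not (b : Bool) : pm (!b) = -pm b := by cases b <;> simp [pm]

namespace Band
variable {X : Mf 4} (N : Band X)

theorem j_mem_side (b : Bool) (p : N.Y.M × ℝ) : 0 < pm b * N.ht (N.j p) ↔ 0 < pm b * p.2 := by
  cases b
  · simpa [pm] using N.neg p
  · simpa [pm] using N.pos p

theorem band_inter (b : Bool) : range N.j ∩ {x | 0 < pm b * N.ht x} =
    N.j '' (univ ×ˢ {s | 0 < pm b * s}) := by
  ext x
  refine ⟨?_, ?_⟩
  · rintro ⟨⟨p, rfl⟩, h⟩; exact ⟨p, ⟨trivial, (N.j_mem_side b p).1 h⟩, rfl⟩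
  · rintro ⟨p, h, rfl⟩; exact ⟨⟨p, rfl⟩, (N.j_mem_side b p).2 h.2⟩

/-- the wall of a band -/
def wall : Wall X.M where
  band := range N.j
  sd b := {x | 0 < pm b * N.ht x}
  op_band := N.oe.isOpen_range
  op_sd b := isOpen_lt continuous_const (continuous_const.mul N.cont)
  dj := disjoint_left.2 fun x h h' => by
    simp only [pm, mem_setOf_eq, if_true, Bool.false_eq_true, if_false] at h h'; linarith
  cov x hx := by
    rcases (N.off x hx).lt_or_gt with h | h
    · exact ⟨false, by simpa [pm] using h⟩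
    · exact ⟨true, by simpa [pm] using h⟩
  conn_band := isPreconnected_range N.oe.continuous
  conn_half b := by
    rw [N.band_inter]
    refine (isPreconnected_univ.prod ?_).image _ N.oe.continuous.continuousOn
    cases b
    · simpa [pm, Iio] using isPreconnected_Iio (a := (0 : ℝ))
    · simpa [pm, Ioi] using isPreconnected_Ioi (a := (0 : ℝ))
  ne b := ⟨N.j (Classical.arbitrary _, pm b), ⟨_, rfl⟩, (N.j_mem_side b _).2 (by
    rw [pm_mul_pm]; exact one_pos)⟩

@[simp] theorem wall_band : N.wall.band = range N.j := rfl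

theorem j_mem_sd {b : Bool} {p : N.Y.M × ℝ} : N.j p ∈ N.wall.sd b ↔ 0 < pm b * p.2 :=
  N.j_mem_side b p

theorem j_mem_core {p : N.Y.M × ℝ} : N.j p ∈ N.wall.core ↔ p.2 = 0 := by
  refine ⟨fun h => ?_, fun h b hb => ?_⟩
  · have h1 := mt N.j_mem_sd.2 (h true)
    have h2 := mt N.j_mem_sd.2 (h false)
    simp only [pm, if_true, Bool.false_eq_true, if_false] at h1 h2; linarith
  · rw [N.j_mem_sd, h, mul_zero] at hb; exact lt_irrefl _ hb

theorem mem_core {x : X.M} : x ∈ N.wall.core ↔ ∃ y, N.j (y, 0) = x := by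
  refine ⟨fun h => ?_, ?_⟩
  · obtain ⟨⟨y, s⟩, rfl⟩ := N.wall.core_subset h
    obtain rfl : s = 0 := N.j_mem_core.1 h
    exact ⟨y, rfl⟩
  · rintro ⟨y, rfl⟩; exact N.j_mem_core.2 rfl

theorem mem_half {b : Bool} {x : X.M} :
    x ∈ N.wall.half b ↔ ∃ y r, 0 < r ∧ N.j (y, pm b * r) = x := by
  refine ⟨?_, ?_⟩
  · rintro ⟨⟨p, rfl⟩, h⟩
    exact ⟨p.1, pm b * p.2, N.j_mem_sd.1 h, by rw [← mul_assoc, pm_mul_pm, one_mul]⟩
  · rintro ⟨y, r, hr, rfl⟩
    exact ⟨⟨_, rfl⟩, N.j_mem_sd.2 (by rwa [← mul_assoc, pm_mul_pm, one_mul])⟩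

/-- the part of the band over a set of heights -/
def slab (s : Set ℝ) : Set X.M := N.j '' (univ ×ˢ s)

theorem j_mem_slab {s : Set ℝ} {p : N.Y.M × ℝ} : N.j p ∈ N.slab s ↔ p.2 ∈ s :=
  N.oe.inj.mem_set_image.trans (by simp)

theorem isOpen_slab {s : Set ℝ} (hs : IsOpen s) : IsOpen (N.slab s) :=
  N.oe.isOpen_image (isOpen_univ.prod hs)

theorem isCompact_slab {s : Set ℝ} (hs : IsCompact s) : IsCompact (N.slab s) :=
  (isCompact_univ.prod hs).image N.oe.continuous

theorem slab_subset (s : Set ℝ) : N.slab s ⊆ range N.j := image_subset_range _ _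

theorem slab_mono {s s' : Set ℝ} (h : s ⊆ s') : N.slab s ⊆ N.slab s' :=
  image_mono (prod_mono subset_rfl h)

theorem slab_zero : N.slab {0} = N.wall.core := by
  ext x
  rw [mem_core]
  refine ⟨?_, ?_⟩
  · rintro ⟨⟨y, s⟩, h, rfl⟩
    obtain rfl : s = 0 := h.2
    exact ⟨y, rfl⟩
  · rintro ⟨y, rfl⟩; exact N.j_mem_slab.2 rfl

open Classical in
/-- the smooth height: the band coordinate on `|s| ≤ 3`, of absolute value `≥ 3` elsewhere -/
def s : X.M → ℝ := extend N.j (fun p => clp p.2) fun x => if 0 < N.ht x then 4 else -4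

theorem s_j (p : N.Y.M × ℝ) : N.s (N.j p) = clp p.2 := N.oe.inj.extend_apply _ _ p

theorem s_j_of_le {p : N.Y.M × ℝ} (h : |p.2| ≤ 3) : N.s (N.j p) = p.2 := by rw [s_j, clp_eq h]

theorem s_off {x : X.M} (h : x ∉ N.slab (Icc (-6) 6)) :
    N.s x = if 0 < N.ht x then 4 else -4 := by
  by_cases hx : x ∈ range N.j
  · obtain ⟨p, rfl⟩ := hx
    rw [N.j_mem_slab, mem_Icc, not_and_or, not_le, not_le] at h
    rw [s_j]
    rcases h with h | h
    · rw [clp_bot h.le, if_neg (by rw [N.pos]; linarith)]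
    · rw [clp_top h.le, if_pos (by rw [N.pos]; linarith)]
  · exact extend_apply' _ _ _ hx

theorem contMDiff_s : ContMDiff X.I 𝓘(ℝ, ℝ) ∞ N.s := fun x => by
  by_cases hx : x ∈ range N.j
  · obtain ⟨p, rfl⟩ := hx
    refine N.oe.contMDiffAt_iff.1 ?_
    rw [show N.s ∘ N.j = fun p => clp p.2 from funext N.s_j]
    exact (contDiff_clp.contMDiff.comp contMDiff_snd) p
  · have h1 : ∀ᶠ y in 𝓝 x, y ∉ N.slab (Icc (-6) 6) :=
      (N.isCompact_slab isCompact_Icc).isClosed.isOpen_compl.mem_nhds fun h => hx (N.slab_subset _ h)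
    rcases (N.off x hx).lt_or_gt with h | h
    · refine (contMDiffAt_const (c := (-4 : ℝ))).congr_of_eventuallyEq ?_
      filter_upwards [h1, (isOpen_lt N.cont continuous_const).mem_nhds h] with y hy hy'
      rw [N.s_off hy, if_neg (not_lt.2 (le_of_lt hy'))]
    · refine (contMDiffAt_const (c := (4 : ℝ))).congr_of_eventuallyEq ?_
      filter_upwards [h1, (isOpen_lt continuous_const N.cont).mem_nhds h] with y hy hy'
      rw [N.s_off hy, if_pos hy']

theorem three_le_abs_s {x : X.M} (h : x ∉ N.slab (Ioo (-3) 3)) : 3 ≤ |N.s x| := by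
  by_cases hx : x ∈ range N.j
  · obtain ⟨p, rfl⟩ := hx
    rw [N.j_mem_slab, mem_Ioo, not_and_or, not_lt, not_lt] at h
    rw [s_j]
    rcases h with h | h
    · exact le_abs.2 (.inr (by linarith [clp_le h]))
    · exact le_abs.2 (.inl (clp_ge h))
  · rw [N.s_off fun h => hx (N.slab_subset _ h)]
    split_ifs <;> norm_num

theorem exists_of_abs_s_lt {x : X.M} (h : |N.s x| < 3) : ∃ y, N.j (y, N.s x) = x := by
  by_contra hn
  refine (N.three_le_abs_s fun hx => hn ?_).not_gt h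
  obtain ⟨p, hp, rfl⟩ := hx
  exact ⟨p.1, by rw [N.s_j_of_le (abs_lt.2 hp.2).le]⟩

theorem s_eq_zero {x : X.M} : N.s x = 0 ↔ x ∈ N.wall.core := by
  refine ⟨fun h => ?_, fun h => ?_⟩
  · obtain ⟨y, hy⟩ := N.exists_of_abs_s_lt (x := x) (by rw [h]; norm_num)
    exact N.mem_core.2 ⟨y, h ▸ hy⟩
  · obtain ⟨y, rfl⟩ := N.mem_core.1 h
    exact N.s_j_of_le (by norm_num)

theorem mem_sd {b : Bool} {x : X.M} : x ∈ N.wall.sd b ↔ 0 < pm b * N.s x := by
  have key : ∀ b, x ∈ N.wall.sd b → 0 < pm b * N.s x := fun b h => by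
    by_cases hx : x ∈ range N.j
    · obtain ⟨p, rfl⟩ := hx
      rw [N.j_mem_sd] at h
      rw [s_j]
      by_cases h3 : |p.2| ≤ 3
      · rwa [clp_eq h3]
      · rcases lt_abs.1 (not_le.1 h3) with h4 | h4 <;> cases b <;>
          simp only [pm, if_true, Bool.false_eq_true, if_false] at h ⊢
        · linarith
        · linarith [clp_ge h4.le]
        · linarith [clp_le (s := p.2) (by linarith)]
        · linarith
    · rw [N.s_off fun h => hx (N.slab_subset _ h)]
      have h : 0 < pm b * N.ht x := h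
      cases b <;> simp only [pm, if_true, Bool.false_eq_true, if_false] at h ⊢
      · rw [if_neg (by linarith)]; norm_num
      · rw [if_pos (by linarith)]; norm_num
  refine ⟨key b, fun h => ?_⟩
  rcases N.wall.mem_cases b x with h1 | h1 | h1
  · exact h1
  · rw [N.s_eq_zero.2 h1, mul_zero] at h; exact (lt_irrefl _ h).elim
  · have := key _ h1
    rw [pm_not] at this; linarith

/-- transport of a band along a diffeomorphism -/
def map {X' : Mf 4} (f : X.M ≃ₘ^∞⟮X.I, X'.I⟯ X'.M) : Band X' where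
  Y := N.Y
  j := f ∘ N.j
  oe := (IsOE.of_diffeo f).comp N.oe
  ht := N.ht ∘ f.symm
  cont := N.cont.comp f.symm.continuous
  pos p := by simpa using N.pos p
  neg p := by simpa using N.neg p
  off x hx := N.off _ fun ⟨p, hp⟩ => hx ⟨p, by simp [hp]⟩

end Band

/-- `θ` identifies `(Y, F)` with the round unit sphere -/
structure Round {Y : Mf 3} {κ : Type} [Fintype κ] (F : Fr Y.I Y.M κ) (θ : Y.M → V4) : Prop where
  nrm : ∀ y, ‖θ y‖ = 1
  oe : IsOE (IC Y.I) 𝓘(ℝ, V4) fun p : Y.M × ℝ => Real.exp p.2 • θ p.1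
  surj : ∀ v, ‖v‖ = 1 → ∃ y, θ y = v
  gram : ∀ y (v w : V4), ∑ k, ⟪v, F.D k θ y⟫_ℝ * ⟪w, F.D k θ y⟫_ℝ =
    ⟪v, w⟫_ℝ - ⟪v, θ y⟫_ℝ * ⟪w, θ y⟫_ℝ

end Crest.Agent.X212.M
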