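import Crest.Agent.X212.M.World
import Crest.Agent.X212.Met55.Eng
import Crest.Agent.X212.Int54.Cyl
import Crest.Agent.X212.Nd18.Defs

/-!
# Row 212, layer M: first properties of layers, marks and cylinders
-/

set_option autoImplicit false
set_option linter.unusedSectionVars false
set_option linter.dupNamespace false
noncomputable section
open Set Function Filter Topology Module
open scoped ContDiff Manifold InnerProductSpace
open Crest.Agent.R208.F (Ext pb)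

namespace Crest.Agent.X212.M
open An Cyl58 Cyf70 Int54 Prm93
open Met55 (Sp VF VJ FAt fP atx rFr IsP)
open Line51 (Ln Uni)
open Dr59 (mf)

/-! ### volume components under local diffeomorphisms -/

section rel
variable {E : Type} [NormedAddCommGroup E] [NormedSpace ℝ E] [FiniteDimensional ℝ E]
  [MeasurableSpace E] [BorelSpace E] {H : Type} [TopologicalSpace H] {I : ModelWithCorners ℝ E H}
  [I.Boundaryless] {P : Type} [TopologicalSpace P] [ChartedSpace H P] [IsManifold I ∞ P]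
  [MeasurableSpace P] [BorelSpace P] [SecondCountableTopology P]
  {E' : Type} [NormedAddCommGroup E'] [NormedSpace ℝ E'] [FiniteDimensional ℝ E']
  [MeasurableSpace E'] [BorelSpace E'] {H' : Type} [TopologicalSpace H'] {J : ModelWithCorners ℝ E' H'}
  [J.Boundaryless] {Q : Type} [TopologicalSpace Q] [ChartedSpace H' Q] [IsManifold J ∞ Q]
  [MeasurableSpace Q] [BorelSpace Q] [SecondCountableTopology Q] {ι : Type} [Fintype ι]

theorem cf_rel {n : ℕ} (h : finrank ℝ E = n) (h' : finrank ℝ E' = n) {f : Q → P} {y : Q}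
    {e : ι → VF I P} {e' : ι → VF J Q} {o : P → Ext E} {o' : Q → Ext E'}
    (he : ∀ i, mf J I f y (atx e' y i) = atx e (f y) i) (hs : Sp (atx e (f y)))
    (hs' : Sp (atx e' y)) (ho : 0 < tp E' (o' y) * tp E' (Dr59.pm J I f o y)) (Φ : Fin n → ι) :
    Int54.cf e n (volF o e) Φ (f y) = Int54.cf e' n (volF o' e') Φ y := by
  have hd := h.trans h'.symm
  have e1 : tp E' (Dr59.pm J I f o y) = jac (mf J I f y) * tp E (o (f y)) := tp_pb hd _ _
  have h0 : tp E (o (f y)) ≠ 0 := right_ne_zero_of_mul (e1 ▸ right_ne_zero_of_mul ho.ne')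
  have h0' : tp E' (o' y) ≠ 0 := left_ne_zero_of_mul ho.ne'
  have u1 : IsU (fv e' y) (pb (mf J I f y : E' →ₗ[ℝ] E) (volF o e (f y))) :=
    (isU_pb hd _ _).2 (by
      rw [show (fun a => mf J I f y (fv e' y a)) = fv e (f y) from funext he]
      exact isU_volF hs h0)
  have u2 := u1.tp_eq (isU_volF hs' h0') (by
    simp only [volF, Pi.smul_apply', map_smul, smul_eq_mul]
    have := mul_pos (mul_pos (nf_pos (o := o) hs h0) (nf_pos (o := o') hs' h0')) ho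
    rw [Dr59.pm_apply] at this
    linarith)
  simp only [Int54.cf]
  rw [← evA_congr_tp h' u2, R208.F.evA_pb]
  exact congrArg _ (funext fun i => (he _).symm)

end rel

/-! ### layers -/

section lay
variable {Z : Mf 4} {o : Z.M → Ext Z.E} {T ι : Type} [NormedAddCommGroup T] [NormedSpace ℝ T]
  [Fintype ι] {Ω : Set (T × Z.M)}

namespace Lay
variable (L : Lay Z o T ι Ω) {t : T} {x : Z.M}

theorem fAt (h : (t, x) ∈ Ω) : FAt (L.e t) x := ⟨fun a => (L.sm t x h a).right, L.sp t x h⟩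

theorem F_e (h : ∀ x, (t, x) ∈ Ω) : (L.F t).e = L.e t := by
  rw [Lay.F, dif_pos fun x => L.fAt (h x)]; rfl

theorem F_vol (t : T) : (L.F t).IsVol := by
  unfold Lay.F; split_ifs
  exacts [Met55.rFr_vol _ _, L.vol]

theorem P_eq (h : (t, x) ∈ Ω) (a b : ι) : fP (L.e t) x a b = L.F0.P a b x := by
  rw [L.P t x h, Met55.fr_P]

theorem F_P (h : ∀ x, (t, x) ∈ Ω) : (L.F t).P = L.F0.P := by
  funext a b x
  rw [Met55.fr_P, L.F_e h, L.P_eq (h x)]

theorem ov_F (h : ∀ x, (t, x) ∈ Ω) : ov o (L.F t).e = ov o L.F0.e := by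
  funext a b c d x
  rw [L.F_e h, L.ob t x (h x)]

/-- the Riemannian frames are jointly smooth -/
theorem vj_F (h : ∀ᶠ s in 𝓝 t, ∀ x, (s, x) ∈ Ω) (a : ι) (x : Z.M) :
    VJ Z.I (fun s => (L.F s).e a) t x := by
  refine (L.sm t x (h.self_of_nhds x) a).congr_of_eventuallyEq ?_
  filter_upwards [(continuous_fst.tendsto (t, x)).eventually h] with z hz
  rw [L.F_e hz]

/-- the coefficients of the frame -/
def S (t : T) (x : Z.M) (a b : ι) : ℝ := Met55.fM L.F0.e (L.e t) x b a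

theorem sum_S (t : T) (x : Z.M) (a : ι) : ∑ b, L.S t x a b • L.F0.e b x = L.e t a x :=
  Met55.sum_fM (Met55.pre_sp _ x) _ a

theorem jAt_S (h : (t, x) ∈ Ω) (a b : ι) : JAt Z.I (fun s y => L.S s y a b) t x :=
  Met55.mJ_fM (e := fun _ => L.F0.e) (fun a => .of_fixed (L.F0.sm a x)) (Met55.pre_sp _ x)
    (L.sm t x h) b a

end Lay

namespace LLay
variable {L : Lay Z o T ι Ω} {lam : Type} [Fintype lam] [DecidableEq lam] (Λ : LLay L lam) {t : T}

theorem ln_on (t : T) : (Λ.ln t).On Z.I univ := Λ.ok t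

theorem B_ok (ho : Ori Z.I o) : Λ.B.OK Z.I :=
  (Λ.ok 0).base_ok L.F0.P_sm (fun a b c d => oc_sm a b c d L.F0.toPre (ho.vol L.F0.toPre).sm)
    (fr_pr L.F0) (fun x => (fr_rk L.F0 x).trans (by rw [Z.dim]; norm_num)) oc_12 oc_23 oc_34 oc_P
    fun x => (ho.unit_vol L.F0.toPre).oc_nm x Z.dim

theorem B_eq (h : ∀ x, (t, x) ∈ Ω) : Λ.B = (Λ.ln t).base (L.F t).P (ov o (L.F t).e) := by
  rw [L.F_P h, L.ov_F h]; rfl

theorem G_ok (h : ∀ x, (t, x) ∈ Ω) : (Λ.G t).OK Λ.B := by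
  rw [Λ.B_eq h]; exact (Λ.ok t).geo_ok (L.F_vol t) _

/-- the reference geometry -/
theorem G0_ok (t : T) : ((Λ.ln t).geo L.F0).OK Λ.B := (Λ.ok t).geo_ok L.vol _

/-- the connection forms along a jointly smooth family of fields -/
theorem jAt_a {w : T → VF Z.I Z.M} {x : Z.M} (hw : VJ Z.I w t x) :
    JAt Z.I (fun s y => Num57.e1 (Λ.a s y) (w s y)) t x := by
  have h1 := fun k => Met55.jAt_fT (e := fun _ : T => L.F0.e)
    (fun a => .of_fixed (L.F0.sm a x)) (Met55.pre_sp _ x) hw k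
  refine JAt.congr (f := fun s y => ∑ k, Met55.fT L.F0.e (w s) y k *
    Num57.e1 (Λ.a s y) (atx L.F0.e y k))
    (Pj41.FSm.sum' fun k _ => Pj41.FSm.mul' (h1 k) (Λ.sm k t x)) (.of_forall fun z => ?_)
  have h2 := congrArg (Line51.e1L (Λ.a z.1 z.2))
    (Met55.sum_fT (Met55.pre_sp L.F0.toPre z.2) (w z.1))
  exact h2.symm.trans ((map_sum _ _ _).trans (Finset.sum_congr rfl fun k _ => map_smul _ _ _))

end LLay
end lay

/-! ### marks -/

variable {X : Mf 4} {A κ : Type} [Fintype A] [Fintype κ] {M : Mark X A κ}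

namespace Mark

theorem cmp_iff {a a' : A} : M.sys.Cmp a a' ↔ Disjoint (range (M.bn a).j) (range (M.bn a').j) :=
  Iff.rfl

theorem not_cmp {a a' : A} {x : X.M} (h : x ∈ range (M.bn a).j) (h' : x ∈ range (M.bn a').j) :
    ¬M.sys.Cmp a a' := fun hc => disjoint_left.1 hc h h'

theorem mem_cores {σ : Set A} {x : X.M} :
    x ∈ M.sys.cores σ ↔ ∃ a ∈ σ, ∃ y, (M.bn a).j (y, 0) = x := by
  simp only [Sys.cores, mem_iUnion, exists_prop]
  exact exists_congr fun a => and_congr_right fun _ => (M.bn a).mem_core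

theorem fr_not_mem {σ : Set A} {a : A} (ha : a ∈ M.sys.fr σ) {x : X.M}
    (hx : x ∈ range (M.bn a).j) : x ∉ M.sys.cores σ := fun h =>
  let ⟨a', h1, _, h2⟩ := mem_cores.1 h; not_cmp hx ⟨_, h2⟩ (ha.2 a' h1)

theorem j_not_mem (c : M.Cl) {a : A} {q : (M.bn a).Y.M × ℝ}
    (h : a ∈ c.1 ∧ q.2 ≠ 0 ∨ a ∈ M.sys.fr c.1) : (M.bn a).j q ∉ M.sys.cores c.1 := by
  rcases h with h | h
  · intro h1
    obtain ⟨a', h2, y, h3⟩ := mem_cores.1 h1
    by_cases e : a' = a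
    · subst e; exact h.2 (congrArg Prod.snd ((M.bn a').oe.inj h3)).symm
    · exact not_cmp ⟨_, h3⟩ ⟨_, rfl⟩ (c.2 h2 h.1 e)
  · exact fr_not_mem h ⟨_, rfl⟩

theorem Lit.not_mem {m c : M.Cl} {a : A} {q : (M.bn a).Y.M × ℝ} (h : M.Lit m.1 c.1 a q.2) :
    (M.bn a).j q ∉ M.sys.cores c.1 := j_not_mem c (h.2.imp_right And.right)

theorem isOpen_O (σ : Set A) : IsOpen (M.O σ) := by
  have : M.O σ = ⋂ a ∈ M.sys.fr σ, {p : Prm A | p.2 a < 1} := by ext; simp [O]
  rw [this]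
  exact (toFinite _).isOpen_biInter fun a _ => isOpen_lt (by fun_prop) continuous_const

theorem mem_Ω {σ : Set A} {Z : Type} (φ : X.M → Z) {p : Prm A} (h : p ∈ M.O σ) (z : Z) :
    (p, z) ∈ M.Ω σ φ := fun a ha => .inl (h a ha)

theorem ev_Ω {σ : Set A} {Z : Type} (φ : X.M → Z) {p : Prm A} (h : p ∈ M.O σ) :
    ∀ᶠ s in 𝓝 p, ∀ z, (s, z) ∈ M.Ω σ φ :=
  eventually_of_mem ((isOpen_O σ).mem_nhds h) fun _ hs => mem_Ω φ hs

theorem mem_O_cOf {p : Prm A} (h : p.2 ∈ M.sys.Par) : p ∈ M.O (M.cOf h).1 := fun a ha =>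
  (h.1 a).2.lt_of_ne ha.1

theorem mem_Br_cOf {p : Prm A} (h : p.2 ∈ M.sys.Par) : p ∈ M.Br (M.cOf h).1 := ⟨h, subset_rfl⟩

theorem mem_Br_c0 {p : Prm A} (h : p.2 ∈ M.sys.Par) : p ∈ M.Br M.c0.1 := ⟨h, empty_subset _⟩

open Classical in
/-- the effective neck parameter on `Z c` -/
def tv (σ : Set A) (t : A → ℝ) (a : A) : ℝ := if a ∈ σ then 1 else t a

variable (M) in
/-- the neck `a` of `Z σ` is a model neck at the parameter `t` -/
def Lt (σ : Set A) (t : A → ℝ) (a : A) : Prop :=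
  a ∈ σ ∨ a ∈ M.sys.fr σ ∧ t a ∈ Icc (1 / 2 : ℝ) 1 ∧
    ∀ a' ∈ M.sys.fr σ, a' ≠ a → ¬M.sys.Cmp a a' → t a' = 0

theorem tv_mem {σ : Set A} {a : A} (h : a ∈ σ) (t : A → ℝ) : tv σ t a = 1 := if_pos h

theorem tv_fr {σ : Set A} {a : A} (h : a ∈ M.sys.fr σ) (t : A → ℝ) : tv σ t a = t a := if_neg h.1

theorem lt_of_br {σ : Set A} {p : Prm A} (hp : p.2 ∈ M.sys.Par) {a : A} (ha : a ∈ M.sys.fr σ)
    (h : 1 / 2 ≤ p.2 a) : M.Lt σ p.2 a :=
  .inr ⟨ha, ⟨h, (hp.1 a).2⟩, fun a' _ hne hc => by_contra fun h0 =>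
    hc (hp.2 (show p.2 a ≠ 0 by linarith) h0 hne.symm)⟩

/-- an admissible parameter with the same data on the band `a` -/
theorem Lt.exists_br {c : M.Cl} {t : A → ℝ} {a : A} (h : M.Lt c.1 t a) (u : ℝ) :
    ∃ t', (u, t') ∈ M.Br c.1 ∧ t' a = tv c.1 t a ∧ 1 / 2 ≤ t' a ∧
      ∀ a' ∈ M.sys.fr c.1, ¬M.sys.Cmp a a' → t a' = t' a' := by
  classical
  have h1 : tv c.1 t a ∈ Icc (1 / 2 : ℝ) 1 := by
    rcases h with h | h
    · rw [tv_mem h]; norm_num
    · rw [tv_fr h.1]; exact h.2.1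
  let t' : A → ℝ := fun a' => if a' = a then tv c.1 t a else if a' ∈ c.1 then 1 else 0
  have h2 : t' a = tv c.1 t a := if_pos rfl
  have h3 : ∀ a', t' a' ≠ 0 → a' = a ∨ a' ∈ c.1 := fun a' h0 => by
    by_contra hn
    rw [not_or] at hn
    exact h0 (by simp [t', hn.1, hn.2])
  have h4 : ∀ a' ∈ c.1, a' ≠ a → M.sys.Cmp a a' := fun a' ha' hne =>
    h.elim (fun h => c.2 h ha' hne.symm) fun h => h.1.2 a' ha'
  refine ⟨t', ⟨⟨fun a' => ?_, fun a₁ k1 a₂ k2 hne => ?_⟩, fun a' ha' => ?_⟩, h2, h2 ▸ h1.1,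
    fun a' ha' hc => ?_⟩
  · simp only [t']; split_ifs
    exacts [⟨by linarith [h1.1], h1.2⟩, ⟨zero_le_one, le_rfl⟩, ⟨le_rfl, zero_le_one⟩]
  · rcases h3 a₁ k1 with rfl | e1 <;> rcases h3 a₂ k2 with rfl | e2
    exacts [(hne rfl).elim, h4 _ e2 hne.symm, (h4 _ e1 hne).symm, c.2 e1 e2 hne]
  · show t' a' = 1
    by_cases e : a' = a
    · rw [e, h2, tv_mem (e ▸ ha')]
    · simp [t', e, ha']
  · rcases h with h | h
    · exact (hc (ha'.2 a h).symm).elim
    · by_cases e : a' = a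
      · rw [e, h2, tv_fr h.1]
      · rw [h.2.2 a' ha' e hc]; simp [t', e, ha'.1]

theorem wt_pos {a : A} {t s : ℝ} (h : (t, s) ∈ Off) (i : Option κ) : 0 < M.wt a t s i := by
  cases i <;> simp only [wt] <;> split_ifs
  exacts [one_pos, sig_pos h, inv_pos.2 (rad_pos h), one_pos]

theorem wt_none {a : A} (h : ¬M.pin a) (t s : ℝ) : M.wt a t s none = sig t s := if_neg h

theorem wt_some {a : A} (h : ¬M.pin a) (t s : ℝ) (k : κ) : M.wt a t s (some k) = 1 := if_neg h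

theorem wt_none' {a : A} (h : M.pin a) (t s : ℝ) : M.wt a t s none = 1 := if_pos h

theorem wt_some' {a : A} (h : M.pin a) (t s : ℝ) (k : κ) : M.wt a t s (some k) = (rad t s)⁻¹ :=
  if_pos h

variable (M) in
/-- the model frame as a family of vector fields -/
def nF (a : A) (t : ℝ) (i : Option κ) : VF (IC (M.bn a).Y.I) ((M.bn a).Y.M × ℝ) :=
  fun q => M.nf a t q i

theorem finrank_cyl (a : A) : finrank ℝ ((M.bn a).Y.E × ℝ) = 4 := by
  rw [finrank_prod, (M.bn a).Y.dim, finrank_self]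

section nf
open Classical
variable {a : A} {t : ℝ} {q : (M.bn a).Y.M × ℝ}

theorem nf_eq : atx (M.nF a t) q =
    Met55.mix (Matrix.diagonal (M.wt a t q.2)) (atx (ce (M.gY a).e) q) := by
  funext i
  simp [Met55.mix, Matrix.diagonal_apply, nF, nf]

theorem fP_ce (q : (M.bn a).Y.M × ℝ) (i k : Option κ) :
    fP (ce (M.gY a).e) q i k = cP (M.gY a).P i k q :=
  (Met55.fr_P (Cyf70.cyl (M.gY a)) i k q).symm

theorem sp_ce (q : (M.bn a).Y.M × ℝ) : Sp (atx (ce (M.gY a).e) q) :=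
  Met55.pre_sp (Cyf70.cyl (M.gY a)).toPre q

theorem adm_wt (h : (t, q.2) ∈ Off) :
    Met55.Adm (fP (ce (M.gY a).e) q) (Matrix.diagonal (M.wt a t q.2)) := by
  refine ⟨Matrix.PosDef.diagonal (wt_pos h), ?_⟩
  ext i k
  rw [Matrix.diagonal_mul, Matrix.mul_diagonal, fP_ce]
  cases i <;> cases k <;> simp [cP, wt, mul_comm]

theorem sp_nf (h : (t, q.2) ∈ Off) : Sp (atx (M.nF a t) q) := by
  rw [nf_eq]; exact (sp_ce q).mix (adm_wt h).unit

theorem isP_nf (h : (t, q.2) ∈ Off) : IsP (atx (M.nF a t) q) (fP (ce (M.gY a).e) q) := by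
  rw [nf_eq]; exact (adm_wt h).isP (sp_ce q).isP

theorem cf_nf (h : (t, q.2) ∈ Off) (o : (M.bn a).Y.M × ℝ → Ext ((M.bn a).Y.E × ℝ))
    (Φ : Fin 4 → Option κ) : Int54.cf (M.nF a t) 4 (volF o (M.nF a t)) Φ q =
      Int54.cf (ce (M.gY a).e) 4 (volF o (ce (M.gY a).e)) Φ q := by
  have := (adm_wt h).evA_mix (finrank_cyl a) (sp_ce q) (o q) Φ
  rw [← nf_eq] at this
  simp only [Int54.cf, volF, Pi.smul_apply', map_smul, AlternatingMap.smul_apply,
    smul_eq_mul, Int54.nf, div_mul_eq_mul_div]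
  exact congrArg (· / _) this

end nf

variable (M) in
/-- the orientation form of the cylinder of a wall -/
def oC (a : A) : (M.bn a).Y.M × ℝ → Ext ((M.bn a).Y.E × ℝ) :=
  Dr59.pm (IC (M.bn a).Y.I) X.I (M.bn a).j M.o

theorem ori_oC (a : A) : Ori (IC (M.bn a).Y.I) (M.oC a) := M.ori.pm (M.bn a).oe.loc

/-- the volume components of the cylinder are translation invariant -/
theorem cf_oC (a : A) (Φ : Fin 4 → Option κ) (q : (M.bn a).Y.M × ℝ) :
    Int54.cf (ce (M.gY a).e) 4 (volF (M.oC a) (ce (M.gY a).e)) Φ q =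
      Int54.cf (ce (M.gY a).e) 4 (volF (M.oC a) (ce (M.gY a).e)) Φ (q.1, 0) := by
  classical
  let F := Cyf70.cyl (M.gY a)
  let g : (Fin 4 → Option κ) → ℝ → ℝ := fun Ψ s => Int54.cf F.e 4 (volF (M.oC a) F.e) Ψ (q.1, s)
  have hu := (ori_oC a).unit_vol F.toPre
  have h1 : ∀ Ψ Ψ' s, g Ψ s * g Ψ' s = g Ψ 0 * g Ψ' 0 := fun Ψ Ψ' s => by
    simp only [g]
    rw [hu.cf_mul (finrank_cyl a), hu.cf_mul (finrank_cyl a)]
    congr 1; ext i k
    show cP _ _ _ _ = cP _ _ _ _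
    cases Ψ i <;> cases Ψ' k <;> rfl
  have hc : Continuous (g Φ) := (continuous_iff_continuousAt.2 fun x => (contMDiffAt_cf le_rfl
    (fun i => F.sm i x) (((ori_oC a).vol F.toPre).sm x) Φ).continuousAt).comp
      (Continuous.prodMk_right q.1)
  show g Φ q.2 = g Φ 0
  by_cases h0 : g Φ 0 = 0
  · rw [h0]; exact mul_self_eq_zero.1 (by rw [h1, h0, mul_zero])
  · rcases mul_self_eq_mul_self_iff.1 (h1 Φ Φ q.2) with e | e
    · exact e
    · obtain ⟨s, hs⟩ : (0 : ℝ) ∈ range (g Φ) := by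
        refine mem_range_of_exists_le_of_exists_ge hc ?_ ?_ <;> rcases lt_or_gt_of_ne h0 with k | k
        exacts [⟨0, k.le⟩, ⟨q.2, by linarith⟩, ⟨q.2, by linarith⟩, ⟨0, k.le⟩]
      exact (h0 (mul_self_eq_zero.1 (by rw [← h1 Φ Φ s, hs, mul_zero]))).elim

theorem oc_oC (a : A) (i k l n : Option κ) (q : (M.bn a).Y.M × ℝ) :
    oc (ce (M.gY a).e) (volF (M.oC a) (ce (M.gY a).e)) i k l n q = M.oY a i k l n q.1 :=
  cf_oC a _ q

end Mark

/-! ### cylinders -/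

namespace Cy
variable {Y : Mf 3} [CompactSpace Y.M] {lam : Type} [Fintype lam] [DecidableEq lam]
  (C : Cy Y κ lam)

/-- the cross-section data -/
def yd : Nd18.YD Y.I Y.M κ (lam ⊕ lam) := ⟨C.F, C.o, C.L.l, Line51.iL lam, C.L.A Y.I C.F.e⟩

theorem yd_B : C.yd.B = C.B := rfl

variable {C}

theorem ln_on (h : C.L.On Y.I univ) : C.ln.On (IC Y.I) univ :=
  h.pull ⟨fun _ _ => contMDiffAt_fst, mapsTo_univ _ _⟩

theorem yd_G (h : C.L.On Y.I univ) : C.yd.G = C.G := by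
  refine congrArg (Geo.mk _) (funext fun i => funext fun q => ?_)
  have h1 := Line51.cm_pull (J := IC Y.I) (L := C.L) (f := Prod.fst) (y := q) (h.sm _ trivial)
    mdifferentiableAt_fst (ce C.F.e i q)
  have h2 : mf (IC Y.I) Y.I Prod.fst q (ce C.F.e i q) = (ce C.F.e i q).1 :=
    DFunLike.congr_fun mfderiv_fst _
  refine Eq.trans ?_ (congrArg Line51.rl (h1.trans (congrArg _ h2))).symm
  cases i
  · exact ((congrArg Line51.rl (map_zero _)).trans (map_zero _)).symm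
  · rfl

theorem OK.yd (h : C.OK) : C.yd.OK := ⟨h.B, by rw [yd_G h.ln]; exact h.G⟩

end Cy

theorem ML.cy_ok {lam : Type} [Fintype lam] [DecidableEq lam] (N : ML M lam) (a : A) :
    (N.cy a).OK := by
  have h1 : (N.cy a).ln.On _ univ := Cy.ln_on (N.okY a)
  let F := Cyf70.cyl (M.gY a)
  refine ⟨M.gvol a, N.okY a, ?_, h1.geo_ok (isVol_cyl (M.gvol a)) _⟩
  have h2 : (fun i k l n (q : (M.bn a).Y.M × ℝ) => M.oY a i k l n q.1) =
      oc F.e (volF (M.oC a) F.e) := by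
    funext i k l n q; exact (Mark.oc_oC a i k l n q).symm
  show ((N.cy a).ln.base F.P fun i k l n q => M.oY a i k l n q.1).OK _
  rw [h2]
  exact h1.base_ok F.P_sm (fun i k l n => oc_sm i k l n F.toPre ((Mark.ori_oC a).vol F.toPre).sm)
    (fr_pr F) (fun x => (fr_rk F x).trans (by rw [Mark.finrank_cyl]; norm_num)) oc_12 oc_23 oc_34
    oc_P fun x => ((Mark.ori_oC a).unit_vol F.toPre).oc_nm x (Mark.finrank_cyl a)

end Crest.Agent.X212.M
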