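import Crest.Agent.X212.M.Nrm

/-!
# Row 212, layer M: identifications of worlds give equivalences of backgrounds
-/

set_option autoImplicit false
set_option linter.unusedSectionVars false
set_option linter.dupNamespace false
noncomputable section
open Set Function Filter Topology Module Matrix
open scoped ContDiff Manifold InnerProductSpace
open Crest.Agent.R208.F (Ext pb)

namespace Crest.Agent.X212.M
open An Cyl58 Cyf70 Int54 Prm93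
open Met55 (Sp VF VJ FAt fP atx rFr IsP pbv cF msk rotU)
open Line51 (Ln Uni)
open Dr59 (mf Mp)
open Pj41 (FRel MSm)

section cl
variable {Z : Mf 4} {lam lam' : Type} [Fintype lam] [Fintype lam']

theorem co_of_eq {E ι : Type} [AddCommGroup E] [Module ℝ E] [Fintype ι] {v w : ι → E}
    (h : ∀ i, v i = w i) : Met55.Co v w := funext h ▸ .refl _

/-- a smooth field of matrices that is a parallel isometry on a dense set -/
theorem iso_cl {L : Ln Z.E Z.M lam} {L' : Ln Z.E Z.M lam'} {u : Z.M → Matrix lam' lam ℂ}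
    {S D : Set Z.M} (hS : IsOpen S) (hD : S ⊆ closure D) (hL : L.On Z.I S) (hL' : L'.On Z.I S)
    (hu : ∀ z ∈ S, MSm Z.I u z) (h : Line51.Iso Z.I L L' u D) : Line51.Iso Z.I L L' u S := by
  have k : ∀ z ∈ S, ∃ᶠ y in 𝓝 z, y ∈ D := fun z hz => mem_closure_iff_frequently.1 (hD hz)
  refine ⟨⟨hu, fun z hz => .of_prj (hL.prj z hz).idem
    (mat_cl ((hu z hz).ct.mul (hu z hz)) (hL.sm z hz) ((k z hz).mono fun y hy => (h.iso y hy).src))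
    (mat_cl ((hu z hz).mul (hu z hz).ct) (hL'.sm z hz)
      ((k z hz).mono fun y hy => (h.iso y hy).tgt))⟩, fun z hz => ?_⟩
  exact form_cl (a := Line51.th Z.I u + L'.a) ((Line51.smAt_th (hu z hz)).add (hL'.sa z hz))
    (hL.sa z hz) (eventually_of_mem (hS.mem_nhds hz) ((Line51.dg_th u).add hL'.dg))
    (eventually_of_mem (hS.mem_nhds hz) hL.dg) ((k z hz).mono h.par)

/-- an isometry on a dense set -/
theorem co_cl' {Z' : Mf 4} {ι ι' : Type} [Fintype ι] [Fintype ι'] {Ψ : Z.M → Z'.M} {z : Z.M}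
    (hΨ : IsLocalDiffeomorphAt Z.I Z'.I ∞ Ψ z) {e : ι → VF Z.I Z.M} {e' : ι' → VF Z'.I Z'.M}
    (he : FAt e z) (he' : FAt e' (Ψ z))
    (h : ∃ᶠ y in 𝓝 z, Met55.Co (fun i => mf Z.I Z'.I Ψ y (atx e y i)) (atx e' (Ψ y))) :
    Met55.Co (fun i => mf Z.I Z'.I Ψ z (atx e z i)) (atx e' (Ψ z)) := by
  have := (co_cl he (he'.pbv hΨ).sm ((h.and_eventually (Met55.ld_eventually hΨ)).mono fun y hy =>
    Met55.Co.of_map (A := Met55.dmp Z.I Z'.I Ψ y) (show Bijective _ from Met55.ld_bij hy.2) (by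
      rw [← Met55.atx_rel fun i => Met55.pbv_rel hy.2 (e' i)]; exact hy.1))).map
    (Met55.dmp Z.I Z'.I Ψ z)
  rwa [← Met55.atx_rel fun i => Met55.pbv_rel hΨ (e' i)] at this

theorem rotU_lit {Z' : Mf 4} {ι : Type} [Fintype ι] {F : Fr Z.I Z.M ι} {F' : Fr Z'.I Z'.M ι}
    {Ψ : Z.M → Z'.M} {z : Z.M} (hΨ : IsLocalDiffeomorphAt Z.I Z'.I ∞ Ψ z)
    (h : ∀ i, mf Z.I Z'.I Ψ z (atx F.e z i) = atx F'.e (Ψ z) i) (b a : ι) :
    rotU F.toPre F'.toPre Ψ z b a = F.P b a z := by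
  have : atx (fun b => pbv Z.I Z'.I Ψ (F'.e b)) z = atx F.e z := funext fun i =>
    (Met55.ld_bij hΨ).1 ((Met55.pbv_rel hΨ _).trans (h i).symm)
  rw [F.P_symm, Met55.fr_P, rotU, Met55.fM, this]; rfl

end cl

variable {X X' : Mf 4} {A A' A₀ κ κ' : Type} [Fintype A] [Fintype A'] [Fintype A₀] [Fintype κ]
  [Fintype κ'] {M : Mark X A κ} {M' : Mark X' A' κ'}

theorem Mark.inf_eq {c : M.Cl} {p : Prm A} (h : p ∈ M.Br c.1) (h' : p ∈ M.O c.1) :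
    Sys.inf p.2 = c.1 := Subset.antisymm (fun a ha => by_contra fun k => (h' a ⟨k, fun a' ha' =>
  Sys.cell_inf h.1 ha (h.2 ha') (by rintro rfl; exact k ha')⟩).ne ha) h.2

/-- extension of a field over centres of caps -/
theorem Caps.exists_ext (C : Caps M) {c : M.Cl} {V : Set X.M}
    (hU : V ⊆ (M.sys.cores c.1)ᶜ) {J : Set (A × Bool)} (hJ : ∀ p ∈ J, Thin M c V p)
    {l l' : Type} {F : X.M → Matrix l l' ℂ} (hF : ∀ x ∈ V, MSm X.I F x)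
    {g : A × Bool → (C.Z c).M → Matrix l l' ℂ} (hg : ∀ p ∈ J, MSm (C.Z c).I (g p) (C.β c p.1 p.2 0))
    (h : ∀ p ∈ J, ∃ ε > 0, ∀ y r, 0 < r → r < ε →
      g p (C.nj c p.1 (y, pm p.2 * r)) = F ((M.bn p.1).j (y, pm p.2 * r))) :
    ∃ u : (C.Z c).M → Matrix l l' ℂ, (∀ z ∈ cext C c V J, MSm (C.Z c).I u z) ∧
      (∀ x ∉ M.sys.cores c.1, u (C.φ c x) = F x) ∧ ∀ p ∈ J, u (C.β c p.1 p.2 0) = g p (C.β c p.1 p.2 0) := by
  classical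
  let u : (C.Z c).M → Matrix l l' ℂ := fun z =>
    if h : ∃ p ∈ J, z = C.β c p.1 p.2 0 then g h.choose z else F ((C.φ c).symm z)
  have u1 : ∀ x ∉ M.sys.cores c.1, u (C.φ c x) = F x := fun x hx => (dif_neg fun ⟨p, hp, e⟩ =>
    caps_ne C hx (hJ p hp).1 (hJ p hp).2.1 _ e).trans
      (congrArg F ((C.φ c).left_inv ((C.mem_src c).2 hx)))
  have u2 : ∀ p ∈ J, u (C.β c p.1 p.2 0) = g p (C.β c p.1 p.2 0) := fun p hp => by
    have k : ∃ q ∈ J, C.β c p.1 p.2 0 = C.β c q.1 q.2 0 := ⟨p, hp, rfl⟩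
    have k1 := k.choose_spec
    obtain ⟨k2, k3⟩ := caps_disj C (hJ p hp).1 (hJ p hp).2.1 (hJ _ k1.1).1 (hJ _ k1.1).2.1 k1.2
    exact (dif_pos k).trans (congrArg (g · _) (Prod.ext k2 k3).symm)
  refine ⟨u, ?_, u1, u2⟩
  rintro _ (⟨x, hx, rfl⟩ | ⟨p, hp, rfl⟩)
  · have hs := (C.mem_src c).2 (hU hx)
    have ht := (C.φ c).map_source hs
    refine (MSm.comp (f := (C.φ c).symm) (by
      rw [show (C.φ c).symm (C.φ c x) = x from (C.φ c).left_inv hs]; exact hF x hx)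
      (Met55.pd_ld' ht).contMDiffAt).congr ?_
    filter_upwards [(C.φ c).open_target.mem_nhds ht] with z hz
    obtain ⟨y, hy, rfl⟩ := Met55.exists_src hz
    rw [u1 y ((C.mem_src c).1 hy), show (C.φ c).symm (C.φ c y) = y from (C.φ c).left_inv hy]
  · obtain ⟨h1, h2, -⟩ := hJ p hp
    obtain ⟨ε, h0, hε⟩ := h p hp
    have hβ := C.βoe c _ h1 h2 p.2
    refine (hg p hp).congr (mem_of_superset (hβ.isOpen_image (Metric.isOpen_ball (x := 0) (ε := ε))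
      |>.mem_nhds ⟨0, Metric.mem_ball_self h0, rfl⟩) ?_)
    rintro _ ⟨v, hv, rfl⟩
    by_cases e : v = 0
    · rw [e]; exact u2 p hp
    · obtain ⟨y, hy⟩ := rnd_exists (M.rnd _ h2) e
      have hr := norm_pos_iff.2 e
      rw [← hy, C.βφ c _ h1 h2 _ y _ hr]
      exact (u1 _ (half_not_mem h1 _ y hr)).trans (hε y _ hr (mem_ball_zero_iff.1 hv)).symm

variable {W : World M} {W' : World M'} {m c : M.Cl} {m' c' : M'.Cl} {p : Prm A} {p' : Prm A'}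
  {ψ : X.M → X'.M} {Ψ : (W.Z c).M → (W'.Z c').M} {x : X.M}

theorem mf_tr (hx : x ∉ M.sys.cores c.1) (hx' : ψ x ∉ M'.sys.cores c'.1)
    (hψ : MDifferentiableAt X.I X'.I ψ x) (hΨ : MDifferentiableAt (W.Z c).I (W'.Z c').I Ψ (W.φ c x))
    (he : Ψ ∘ W.φ c =ᶠ[𝓝 x] W'.φ c' ∘ ψ) (v : X.E) :
    mf (W.Z c).I (W'.Z c').I Ψ (W.φ c x) (mf X.I (W.Z c).I (W.φ c) x v) =
      mf X'.I (W'.Z c').I (W'.φ c') (ψ x) (mf X.I X'.I ψ x v) :=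
  (DFunLike.congr_fun (Dr59.mf_comp hΨ ((W.ld hx).mdifferentiableAt (by simp))) v).symm.trans
    ((DFunLike.congr_fun (Dr59.mf_congr he) v).trans
      (DFunLike.congr_fun (Dr59.mf_comp ((W'.ld hx').mdifferentiableAt (by simp)) hψ) v))

variable (m m') in
/-- the metrics of the layers agree where the common cometrics agree -/
theorem co_tr (hp : p ∈ M.Br c.1) (hp' : p' ∈ M'.Br c'.1) (hx : x ∉ M.sys.cores (Sys.inf p.2))
    (hx' : ψ x ∉ M'.sys.cores (Sys.inf p'.2)) (hψ : MDifferentiableAt X.I X'.I ψ x)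
    (hΨ : MDifferentiableAt (W.Z c).I (W'.Z c').I Ψ (W.φ c x))
    (he : Ψ ∘ W.φ c =ᶠ[𝓝 x] W'.φ c' ∘ ψ)
    (h : Met55.Co (fun i => mf X.I X'.I ψ x (W.k p x i)) (W'.k p' (ψ x))) :
    Met55.Co (fun i => mf (W.Z c).I (W'.Z c').I Ψ (W.φ c x) (atx ((W.L m c).e p) (W.φ c x) i))
      (atx ((W'.L m' c').e p') (Ψ (W.φ c x))) := by
  have h1 := (W.co m c p hp x hx).symm.map (Met55.dmp (W.Z c).I (W'.Z c').I Ψ (W.φ c x))
  have h2 := (h.map (Met55.dmp X'.I (W'.Z c').I (W'.φ c') (ψ x))).trans (W'.co m' c' p' hp' _ hx')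
  rw [show Ψ (W.φ c x) = W'.φ c' (ψ x) from he.self_of_nhds]
  exact (h1.trans (co_of_eq fun i => mf_tr (Mark.cores_mono hp.2 hx)
    (Mark.cores_mono hp'.2 hx') hψ hΨ he (W.k p x i))).trans h2

variable {lam lam' : Type} [Fintype lam] [DecidableEq lam] [Fintype lam'] [DecidableEq lam']
  {N : ML M lam} {N' : ML M' lam'} (Λ : Lns W N) (Λ' : Lns W' N') {V : Set X.M}
  {w : X.M → Matrix lam' lam ℂ}

variable (m c m' c' ψ w) in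
/-- the isometry of the lines of two layers, read on `X` -/
def tw (x : X.M) : Matrix lam' lam ℂ := Λ'.v m' c' (ψ x) * w x * (Λ.v m c x)ᴴ

theorem iso_tr (hp : p ∈ M.Br c.1) (hp' : p' ∈ M'.Br c'.1) (hV : IsOpen V)
    (hU : V ⊆ (M.sys.cores c.1)ᶜ) (hU' : ∀ x ∈ V, ψ x ∉ M'.sys.cores c'.1)
    (hψ : ∀ x ∈ V, ContMDiffAt X.I X'.I ∞ ψ x)
    (hΨ : ∀ x ∈ V, ContMDiffAt (W.Z c).I (W'.Z c').I ∞ Ψ (W.φ c x))
    (he : ∀ x ∈ V, Ψ (W.φ c x) = W'.φ c' (ψ x))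
    (h : Line51.Iso X.I ⟨N.p, Λ.a0 p⟩ (Ln.pull X.I X'.I ψ ⟨N'.p, Λ'.a0 p'⟩) w V)
    {u : (W.Z c).M → Matrix lam' lam ℂ} (hu : ∀ x ∈ V, u (W.φ c x) = tw m c m' c' ψ Λ Λ' w x) :
    Line51.Iso (W.Z c).I ((Λ.Λ m c).ln p) (((Λ'.Λ m' c').ln p').pull (W.Z c).I (W'.Z c').I Ψ) u
      (W.φ c '' V) := by
  have hs : V ⊆ (W.φ c).source := fun x hx => (W.mem_src c).2 (hU hx)
  have h1 := (((Λ.iso m c p hp).mono hs).symm.trans h).trans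
    ((Λ'.iso m' c' p' hp').pull ⟨hψ, fun x hx => (W'.mem_src c').2 (hU' x hx)⟩)
  have hO : IsOpen (W.φ c '' V) :=
    (W.φ c).toOpenPartialHomeomorph.isOpen_image_of_subset_source hV hs
  have hi : ∀ x ∈ V, (W.φ c).symm (W.φ c x) = x := fun x hx => (W.φ c).left_inv (hs hx)
  refine (Line51.Iso.of_pull (f := W.φ c) (g := (W.φ c).symm) (W := V) hO
    (h1.of_eq (fun _ _ => rfl) (fun _ _ => rfl) (fun x hx => congrArg _ (he x hx)) fun x hx => ?_)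
    ⟨fun x hx => (W.ld (hU hx)).contMDiffAt, mapsTo_image _ _⟩
    ⟨?_, ?_⟩ ?_).congr hO ?_
  · refine (Dr59.pm_comp ((hΨ x hx).mdifferentiableAt (by simp))
      ((W.ld (hU hx)).mdifferentiableAt (by simp))).trans (Eq.trans ?_ (Dr59.pm_comp
        ((W'.ld (hU' x hx)).mdifferentiableAt (by simp)) ((hψ x hx).mdifferentiableAt (by simp))).symm)
    exact Dr59.pm_congr (eventually_of_mem (hV.mem_nhds hx) he) rfl
  · rintro _ ⟨x, hx, rfl⟩; exact (Met55.pd_ld' ((W.φ c).map_source (hs hx))).contMDiffAt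
  · rintro _ ⟨x, hx, rfl⟩; rwa [hi x hx]
  · rintro _ ⟨x, hx, rfl⟩; rw [hi x hx]
  · rintro _ ⟨x, hx, rfl⟩
    rw [hu x hx]; simp only [hi x hx, tw, Matrix.mul_assoc]

theorem sm_tw (hU : x ∉ M.sys.cores c.1) (hU' : ψ x ∉ M'.sys.cores c'.1)
    (hψ : ContMDiffAt X.I X'.I ∞ ψ x) (hw : MSm X.I w x) : MSm X.I (tw m c m' c' ψ Λ Λ' w) x :=
  ((((Λ'.uni m' c').sm _ ((W'.mem_src c').2 hU')).comp hψ).mul hw).mul
    ((Λ.uni m c).sm _ ((W.mem_src c).2 hU)).ct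

/-- **GEQ**, general form -/
theorem geq_of {Ψ : PartialDiffeomorph (W.Z c).I (W'.Z c').I (W.Z c).M (W'.Z c').M ∞}
    (hp : p ∈ M.Br c.1) (ho : p ∈ M.O c.1) (hp' : p' ∈ M'.Br c'.1) (ho' : p' ∈ M'.O c'.1)
    (hV : IsOpen V) (hU : V ⊆ (M.sys.cores c.1)ᶜ) (hU' : ∀ x ∈ V, ψ x ∉ M'.sys.cores c'.1)
    (hψ : ∀ x ∈ V, ContMDiffAt X.I X'.I ∞ ψ x) (h1 : W.φ c '' V ⊆ Ψ.source)
    (h2 : Ψ.source ⊆ closure (W.φ c '' V)) (he : ∀ x ∈ V, Ψ (W.φ c x) = W'.φ c' (ψ x))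
    (hs : Orx52.Pos (W.Z c).I (W'.Z c').I Ψ Ψ.source (W.o c) (W'.o c'))
    (hk : ∀ x ∈ V, Met55.Co (fun i => mf X.I X'.I ψ x (W.k p x i)) (W'.k p' (ψ x)))
    (h : Line51.Iso X.I ⟨N.p, Λ.a0 p⟩ (Ln.pull X.I X'.I ψ ⟨N'.p, Λ'.a0 p'⟩) w V)
    {u : (W.Z c).M → Matrix lam' lam ℂ} (hu : ∀ x ∈ V, u (W.φ c x) = tw m c m' c' ψ Λ Λ' w x)
    (su : ∀ z ∈ Ψ.source, MSm (W.Z c).I u z) :
    GEq (Λ.B m c) (Λ.G m c p) (Λ'.B m' c') (Λ'.G m' c' p') Ψ.toOpenPartialHomeomorph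
      (rotU (W.F m c p).toPre (W'.F m' c' p').toPre Ψ) fun z => Line51.rl (u z) := by
  have hl := fun z (hz : z ∈ Ψ.source) => Orx52.ldp Ψ hz
  refine (Λ.Λ m c).geq (Ψ := Ψ.toOpenPartialHomeomorph) (Λ'.Λ m' c') (W.ori c) (W'.ori c') (Mark.mem_Ω _ ho) (Mark.mem_Ω _ ho')
    Ψ.contMDiffOn_toFun Ψ.contMDiffOn_invFun (fun z hz => ?_) (SameOn.symm hs) ?_
  · refine co_cl' (hl z hz) ((W.L m c).fAt (Mark.mem_Ω _ ho _)) ((W'.L m' c').fAt (Mark.mem_Ω _ ho' _))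
      ((mem_closure_iff_frequently.1 (h2 hz)).mono ?_)
    rintro _ ⟨x, hx, rfl⟩
    exact co_tr m m' hp hp' (Mark.inf_eq hp ho ▸ hU hx) (Mark.inf_eq hp' ho' ▸ hU' x hx)
      ((hψ x hx).mdifferentiableAt (by simp)) ((hl _ (h1 ⟨x, hx, rfl⟩)).mdifferentiableAt (by simp))
      (eventually_of_mem (hV.mem_nhds hx) he) (hk x hx)
  · exact iso_cl Ψ.open_source h2 (((Λ.Λ m c).ok p).mono (subset_univ _))
      (((Λ'.Λ m' c').ok p').pull ⟨fun z hz => (hl z hz).contMDiffAt, mapsTo_univ _ _⟩) su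
      (iso_tr Λ Λ' hp hp' hV hU hU' hψ (fun x hx => (hl _ (h1 ⟨x, hx, rfl⟩)).contMDiffAt) he h hu)

/-! ### matched walls -/

section id
variable {M' : Mark X' A' κ} {W' : World M'} {N' : ML M' lam} {m' c' : M'.Cl} {p' : Prm A'}
  (Λ' : Lns W' N') {I : MId M M' A₀} {V₁ : Set X.M} {w : X.M → Matrix lam lam ℂ}
  {a : A₀} {q : (M.bn (I.f a)).Y.M × ℝ}

/-- on literal matched necks the isometry of the lines is the projector -/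
theorem tw_lit (hL : LId N N' I V₁ w) (hq : (M.bn (I.f a)).j q ∈ V₁)
    (hl : M.Lit m.1 c.1 (I.f a) q.2) (hl' : M'.Lit m'.1 c'.1 (I.f' a) q.2) :
    tw m c m' c' I.ψ Λ Λ' w ((M.bn (I.f a)).j q) = (Λ.Λ m c).p (W.nj c (I.f a) q) := by
  have h3 : |q.2| ≤ 3 := hl.1.trans (by norm_num)
  rw [tw, I.jj, Λ'.lit m' c' _ _ hl', hL.m a q h3 hq, Λ.lit m c _ _ hl, ((N.um _).iso q h3).tgt,
    Λ.p_lit hl]

theorem mf_nf (t : ℝ) (i : Option κ) :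
    mf X.I X'.I I.ψ ((M.bn (I.f a)).j q) (mf (IC (M.bn (I.f a)).Y.I) X.I (M.bn (I.f a)).j q
      (M.nf (I.f a) t q i)) = mf (IC (M'.bn (I.f' a)).Y.I) X'.I (M'.bn (I.f' a)).j (I.g a q.1, q.2)
        (M'.nf (I.f' a) t (I.g a q.1, q.2) i) := by
  have hg : MDifferentiableAt (IC (M.bn (I.f a)).Y.I) (IC (M'.bn (I.f' a)).Y.I)
      (fun q => (I.g a q.1, q.2)) q :=
    ((md_dif (I.g a) q.1).comp q mdifferentiableAt_fst).prodMk mdifferentiableAt_snd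
  have h1 := Dr59.mf_comp (I.md (I.sub a ⟨q, rfl⟩))
    (((M.bn (I.f a)).oe.loc q).mdifferentiableAt (by simp))
  rw [show I.ψ ∘ (M.bn (I.f a)).j = (M'.bn (I.f' a)).j ∘ fun q => (I.g a q.1, q.2) from
    funext (I.jj a), Dr59.mf_comp (((M'.bn (I.f' a)).oe.loc _).mdifferentiableAt (by simp)) hg] at h1
  refine (DFunLike.congr_fun h1 _).symm.trans (congrArg (mf (IC (M'.bn (I.f' a)).Y.I) X'.I
    (M'.bn (I.f' a)).j (I.g a q.1, q.2)) ?_)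
  have h2 : M'.wt (I.f' a) t q.2 i = M.wt (I.f a) t q.2 i := by
    by_cases k : M.pin (I.f a) <;> cases i <;> simp [Mark.wt, k, (I.pin a).trans (Iff.refl _)]
  have h3 := Dr59.mf_of_has (((md_dif (I.g a) q.1).hasMFDerivAt.comp q
    (hasMFDerivAt_fst (I' := 𝓘(ℝ, ℝ)) q)).prodMk (hasMFDerivAt_snd (I' := 𝓘(ℝ, ℝ)) q))
  rw [Mark.nf, Mark.nf, map_smul, h2]
  refine congrArg _ ((DFunLike.congr_fun h3 _).trans ?_)
  cases i
  · exact Prod.ext (map_zero (mf (M.bn (I.f a)).Y.I (M'.bn (I.f' a)).Y.I (I.g a) q.1)) rfl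
  · exact Prod.ext (I.gY a _ q.1) rfl

/-- on literal matched necks the frames correspond -/
theorem e_lit {Ψ : (W.Z c).M → (W'.Z c').M} (hn : ¬M.pin (I.f a))
    (hl : M.Lit m.1 c.1 (I.f a) q.2) (hl' : M'.Lit m'.1 c'.1 (I.f' a) q.2)
    (h : M.Lt c.1 p.2 (I.f a)) (h' : M'.Lt c'.1 p'.2 (I.f' a))
    (ht : Mark.tv c'.1 p'.2 (I.f' a) = Mark.tv c.1 p.2 (I.f a))
    (ho : (Mark.tv c.1 p.2 (I.f a), q.2) ∈ Off)
    (hΨ : MDifferentiableAt (W.Z c).I (W'.Z c').I Ψ (W.nj c (I.f a) q))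
    (he : Ψ ∘ W.φ c =ᶠ[𝓝 ((M.bn (I.f a)).j q)] W'.φ c' ∘ I.ψ) (i : Option κ) :
    mf (W.Z c).I (W'.Z c').I Ψ (W.nj c (I.f a) q) (atx ((W.L m c).e p) (W.nj c (I.f a) q) i) =
      atx ((W'.L m' c').e p') (Ψ (W.nj c (I.f a) q)) i := by
  have h1 : Ψ (W.nj c (I.f a) q) = W'.nj c' (I.f' a) (I.g a q.1, q.2) :=
    he.self_of_nhds.trans (congrArg _ (I.jj a q))
  have h2 : (M'.bn (I.f' a)).j (I.g a q.1, q.2) ∉ M'.sys.cores c'.1 := hl'.not_mem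
  rw [h1, W.lit' hn hl h ho p.1, W'.lit' (q := (I.g a q.1, q.2)) (mt (I.pin a).1 hn) hl' h'
    (ht ▸ ho) p'.1, W.mf_nj hl.not_mem, W'.mf_nj h2, ht, ← mf_nf, ← I.jj]
  exact mf_tr hl.not_mem (I.jj a q ▸ h2) (I.md (I.sub a ⟨q, rfl⟩)) hΨ he _

variable (m m') in
/-- the isometry of the lines over matched centres -/
theorem exists_tw (hL : LId N N' I V₁ w) (h1 : V ⊆ V₁)
    (hU : V ⊆ (M.sys.cores c.1)ᶜ) (hU' : ∀ x ∈ V, I.ψ x ∉ M'.sys.cores c'.1) {J : Set (A₀ × Bool)}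
    (hJ : ∀ p ∈ J, Thin M c V (I.f p.1, p.2) ∧ I.f' p.1 ∈ c'.1) :
    ∃ u : (W.Z c).M → Matrix lam lam ℂ, (∀ z ∈ cext W.toCaps c V (Prod.map I.f id '' J),
      MSm (W.Z c).I u z) ∧ ∀ x ∉ M.sys.cores c.1, u (W.φ c x) = tw m c m' c' I.ψ Λ Λ' w x := by
  obtain ⟨u, k1, k2, -⟩ := W.exists_ext hU (J := Prod.map I.f id '' J)
    (by rintro _ ⟨p, hp, rfl⟩; exact (hJ p hp).1) (F := tw m c m' c' I.ψ Λ Λ' w)
    (fun x hx => sm_tw Λ Λ' (hU hx) (hU' x hx) (Orx52.ldp _ (hL.sub (h1 hx))).contMDiffAt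
      (hL.uni.sm x (h1 hx))) (g := fun _ => (Λ.Λ m c).p)
    (fun _ _ => ((Λ.Λ m c).ok 0).sm _ trivial) (by
      rintro _ ⟨p, hp, rfl⟩
      obtain ⟨⟨k1, -, ε, h0, hε⟩, k2⟩ := hJ p hp
      refine ⟨min ε 1, lt_min h0 one_pos, fun y r hr hr' => ?_⟩
      have k3 : |pm p.2 * r| ≤ 1 := by
        rw [abs_mul, abs_pm, one_mul, abs_of_pos hr]; exact (hr'.trans_le (min_le_right _ _)).le
      have k4 := mul_ne_zero (sg_ne p.2) hr.ne'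
      exact (tw_lit Λ Λ' (q := (y, pm p.2 * r)) hL (h1 (hε y r hr (hr'.trans_le (min_le_left _ _))))
        ⟨k3, .inl ⟨k1, k4⟩⟩ ⟨k3, .inl ⟨k2, k4⟩⟩).symm)
  exact ⟨u, k1, k2⟩

variable (m m') in
/-- **GEQ** : identified worlds have equivalent layers over `V` and the matched centres `J` -/
theorem geq (hW : WId W W' I V₁ p.1 p'.1) (hL : LId N N' I V₁ w) (hC : CId Λ Λ' I V₁ w p.1 p'.1)
    (hR : I.Rel V₁ p.2 p'.2) (hp : p ∈ M.Br c.1) (ho : p ∈ M.O c.1) (hp' : p' ∈ M'.Br c'.1)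
    (ho' : p' ∈ M'.O c'.1) (hV : IsOpen V) (h1 : V ⊆ V₁) (hU : V ⊆ (M.sys.cores c.1)ᶜ)
    (hU' : ∀ x ∈ V, I.ψ x ∉ M'.sys.cores c'.1) {J : Set (A₀ × Bool)}
    (hJ : ∀ p ∈ J, Thin M c V (I.f p.1, p.2) ∧ I.f' p.1 ∈ c'.1) :
    ∃ (Ψ : PartialDiffeomorph (W.Z c).I (W'.Z c').I (W.Z c).M (W'.Z c').M ∞)
      (u : (W.Z c).M → Matrix lam lam ℂ),
      Ψ.source = cext W.toCaps c V (Prod.map I.f id '' J) ∧
      Ψ.target = cext W'.toCaps c' (I.ψ '' V) (Prod.map I.f' id '' J) ∧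
      (∀ x ∈ V, Ψ (W.φ c x) = W'.φ c' (I.ψ x)) ∧
      (∀ x ∉ M.sys.cores c.1, u (W.φ c x) = tw m c m' c' I.ψ Λ Λ' w x) ∧
      GEq (Λ.B m c) (Λ.G m c p) (Λ'.B m' c') (Λ'.G m' c' p') Ψ.toOpenPartialHomeomorph
        (rotU (W.F m c p).toPre (W'.F m' c' p').toPre Ψ) fun z => Line51.rl (u z) := by
  obtain ⟨Ψ, k1, k2, k3, -, k5⟩ := tr W.toCaps W'.toCaps I hV (h1.trans hL.sub) hU hU' hJ
  obtain ⟨u, u1, u2⟩ := exists_tw m Λ m' Λ' hL h1 hU hU' hJ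
  exact ⟨Ψ, u, k1, k2, k3, u2, geq_of Λ Λ' hp ho hp' ho' hV hU hU'
    (fun x hx => (Orx52.ldp _ (hL.sub (h1 hx))).contMDiffAt) (k1 ▸ subset_union_left)
    (k1 ▸ cext_subset_closure _ (by rintro _ ⟨p, hp, rfl⟩; exact (hJ p hp).1)) k3 k5
    (fun x hx => hW _ _ hR x (h1 hx) (Mark.inf_eq hp ho ▸ hU hx)) ((hC _ _ hR).mono h1)
    (fun x hx => u2 x (hU hx)) (k1 ▸ u1)⟩

/-- on literal matched necks the rotation is the projector -/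
theorem rot_lit {Ψ : PartialDiffeomorph (W.Z c).I (W'.Z c').I (W.Z c).M (W'.Z c').M ∞}
    (ho : p ∈ M.O c.1) (ho' : p' ∈ M'.O c'.1) (hV : IsOpen V)
    (he : ∀ x ∈ V, Ψ (W.φ c x) = W'.φ c' (I.ψ x)) (hq : (M.bn (I.f a)).j q ∈ V)
    (hs : W.nj c (I.f a) q ∈ Ψ.source) (hn : ¬M.pin (I.f a))
    (hl : M.Lit m.1 c.1 (I.f a) q.2) (hl' : M'.Lit m'.1 c'.1 (I.f' a) q.2)
    (h : M.Lt c.1 p.2 (I.f a)) (h' : M'.Lt c'.1 p'.2 (I.f' a))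
    (ht : Mark.tv c'.1 p'.2 (I.f' a) = Mark.tv c.1 p.2 (I.f a))
    (hq' : (Mark.tv c.1 p.2 (I.f a), q.2) ∈ Off) (i k : Option κ) :
    rotU (W.F m c p).toPre (W'.F m' c' p').toPre Ψ (W.nj c (I.f a) q) i k =
      (W.L m c).F0.P i k (W.nj c (I.f a) q) := by
  rw [← (W.L m c).F_P (Mark.mem_Ω _ ho)]
  refine rotU_lit (Orx52.ldp Ψ hs) (fun i => ?_) i k
  rw [Lay.F_e _ (Mark.mem_Ω _ ho), Lay.F_e _ (Mark.mem_Ω _ ho')]
  exact e_lit hn hl hl' h h' ht hq' ((Orx52.ldp Ψ hs).mdifferentiableAt (by simp))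
    (eventually_of_mem (hV.mem_nhds hq) he) i

variable (m m') in
/-- **GEQ** for matched pieces -/
theorem geq_pc (hW : WId W W' I V₁ p.1 p'.1) (hL : LId N N' I V₁ w) (hC : CId Λ Λ' I V₁ w p.1 p'.1)
    (hR : I.Rel V₁ p.2 p'.2) (hp : p ∈ M.Br c.1) (ho : p ∈ M.O c.1) (hp' : p' ∈ M'.Br c'.1)
    (ho' : p' ∈ M'.O c'.1) {π : Reg A} {π' : Reg A'} (hπ : M.sys.Piece c.1 π)
    (hπ' : M'.sys.Piece c'.1 π') (h1 : M.sys.U π ⊆ V₁) (h2 : I.ψ '' M.sys.U π = M'.sys.U π')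
    (hb : ∀ a ∈ Sys.bd π, M.pin a → a ∈ range I.f) (hb' : ∀ a ∈ Sys.bd π', M'.pin a → a ∈ range I.f')
    (h3 : ∀ a, M.pin (I.f a) → π' (I.f' a) = π (I.f a)) :
    ∃ (Ψ : PartialDiffeomorph (W.Z c).I (W'.Z c').I (W.Z c).M (W'.Z c').M ∞)
      (u : (W.Z c).M → Matrix lam lam ℂ), Ψ.source = W.pc c π ∧ Ψ.target = W'.pc c' π' ∧
      (∀ x ∈ M.sys.U π, Ψ (W.φ c x) = W'.φ c' (I.ψ x)) ∧
      (∀ x ∉ M.sys.cores c.1, u (W.φ c x) = tw m c m' c' I.ψ Λ Λ' w x) ∧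
      GEq (Λ.B m c) (Λ.G m c p) (Λ'.B m' c') (Λ'.G m' c' p') Ψ.toOpenPartialHomeomorph
        (rotU (W.F m c p).toPre (W'.F m' c' p').toPre Ψ) fun z => Line51.rl (u z) := by
  have := M.con
  have := M'.con
  obtain ⟨Ψ, u, k1, k2, k3⟩ := geq m Λ m' Λ' hW hL hC hR hp ho hp' ho' (M.sys.isOpen_U π) h1
    (hπ.disjoint_cores c.2).subset_compl_right
    (fun x hx => (hπ'.disjoint_cores c'.2).subset_compl_right (h2 ▸ mem_image_of_mem _ hx))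
    (J := {p | M.pin (I.f p.1) ∧ π (I.f p.1) = some p.2}) fun p hp =>
      ⟨.of_half (hπ.bd_subset (Sys.mem_bd_of hp.2)) hp.1 (hπ.adj _ _ hp.2),
        hπ'.bd_subset (Sys.mem_bd_of ((h3 _ hp.1).trans hp.2))⟩
  rw [h2] at k2
  refine ⟨Ψ, u, k1.trans (congrArg (W.φ c '' M.sys.U π ∪ ·) (Set.ext fun z => ⟨?_, ?_⟩)),
    k2.trans (congrArg (W'.φ c' '' M'.sys.U π' ∪ ·) (Set.ext fun z => ⟨?_, ?_⟩)), k3⟩
  · rintro ⟨_, ⟨p, hp, rfl⟩, e⟩; exact ⟨_, _, hp.1, hp.2, e⟩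
  · rintro ⟨a, b, k4, k5, e⟩
    obtain ⟨a, rfl⟩ := hb a (Sys.mem_bd_of k5) k4
    exact ⟨_, ⟨(a, b), ⟨k4, k5⟩, rfl⟩, e⟩
  · rintro ⟨_, ⟨p, hp, rfl⟩, e⟩; exact ⟨_, _, (I.pin _).2 hp.1, (h3 _ hp.1).trans hp.2, e⟩
  · rintro ⟨a, b, k4, k5, e⟩
    obtain ⟨a, rfl⟩ := hb' a (Sys.mem_bd_of k5) k4
    exact ⟨_, ⟨(a, b), ⟨(I.pin _).1 k4, (h3 _ ((I.pin _).1 k4)).symm.trans k5⟩, rfl⟩, e⟩

end id

/-! ### one world -/

theorem wId_refl (W : World M) (V : Set X.M) (u : ℝ) : WId W W (.refl M) V u u :=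
  fun t t' h x _ _ => by
    obtain rfl : t' = t := funext h.eq
    exact co_of_eq fun i => DFunLike.congr_fun (Dr59.mf_id (I := X.I) x) _

theorem cId_refl {V : Set X.M} (u : ℝ) : CId Λ Λ (.refl M) V N.p u u := fun t t' h => by
  obtain rfl : t' = t := funext h.eq
  exact ((Line51.Iso.refl isOpen_univ (Λ.ok0 (u, t'))).mono (subset_univ _)).of_eq (fun _ _ => rfl)
    (fun _ _ => rfl) (fun _ _ => rfl) fun x _ => congrFun (Dr59.pm_id _) x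

theorem rel_refl {t : A → ℝ} (ht : t ∈ M.sys.Par) (V : Set X.M) : (MId.refl M).Rel V t t :=
  ⟨ht, ht, fun _ => rfl, fun a h => (h ⟨a, rfl⟩).elim, fun a h => (h ⟨a, rfl⟩).elim⟩

theorem tw_refl {m m' c c' : M.Cl} (hx : x ∉ M.sys.cores c'.1) :
    tw m c m' c' id Λ Λ N.p x = Λ.v m' c' x * (Λ.v m c x)ᴴ := by
  rw [tw, id, ((Λ.uni m' c').iso x ((W.mem_src _).2 hx)).idem]

theorem Caps.dense (C : Caps M) (c : M.Cl) : Dense (C.φ c '' (M.sys.cores c.1)ᶜ) := fun z => by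
  refine cext_subset_closure C (J := {p | p.1 ∈ c.1 ∧ M.pin p.1}) (fun p hp =>
    ⟨hp.1, hp.2, 1, one_pos, fun y _ hr _ => half_not_mem hp.1 _ y hr⟩) ?_
  rcases caps_surj C z with ⟨x, k, rfl⟩ | ⟨a, ha, hp, b, rfl⟩
  exacts [.inl ⟨x, k, rfl⟩, .inr ⟨(a, b), ⟨ha, hp⟩, rfl⟩]

/-- the isometry between the lines of the layers `m`, `m'` -/
theorem Lns.exists_um (m m' c : M.Cl) : ∃ u : (W.Z c).M → Matrix lam lam ℂ,
    (∀ x ∉ M.sys.cores c.1, u (W.φ c x) = Λ.v m' c x * (Λ.v m c x)ᴴ) ∧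
    ∀ p ∈ M.Br c.1, Line51.Iso (W.Z c).I ((Λ.Λ m c).ln p) ((Λ.Λ m' c).ln p) u univ := by
  obtain ⟨u, u1, u2⟩ := exists_tw m Λ m' Λ (c := c) (c' := c) (LId.refl N) (subset_univ _) subset_rfl
    (fun _ h => h) (J := {p | p.1 ∈ c.1 ∧ M.pin p.1}) fun p hp =>
      ⟨⟨hp.1, hp.2, 1, one_pos, fun y _ hr _ => half_not_mem hp.1 _ y hr⟩, hp.1⟩
  refine ⟨u, fun x hx => (u2 x hx).trans (tw_refl Λ hx), fun p hp => ?_⟩
  refine iso_cl isOpen_univ (fun z _ => W.dense c z) ((Λ.Λ m c).ok p) ((Λ.Λ m' c).ok p)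
    (fun z _ => u1 z ?_) ?_
  · rcases caps_surj W.toCaps z with ⟨x, k, rfl⟩ | ⟨a, ha, hp, b, rfl⟩
    exacts [.inl ⟨x, k, rfl⟩, .inr ⟨_, ⟨(a, b), ⟨ha, hp⟩, rfl⟩, rfl⟩]
  · have := iso_tr (m := m) (m' := m') (ψ := id) (Ψ := id) Λ Λ hp hp
      (M.sys.isClosed_cores _).isOpen_compl subset_rfl (fun _ h => h) (fun _ _ => contMDiffAt_id)
      (fun _ _ => contMDiffAt_id) (fun _ _ => rfl) (cId_refl Λ p.1 _ _ (rel_refl hp.1 _)) u2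
    rwa [Line51.Ln.pull_id] at this

/-- the metrics of the layers `m`, `m'` agree -/
theorem World.co_m (W : World M) (m m' : M.Cl) (hp : p ∈ M.Br c.1) (ho : p ∈ M.O c.1)
    (z : (W.Z c).M) : Met55.Co (atx ((W.L m c).e p) z) (atx ((W.L m' c).e p) z) := by
  refine co_cl ((W.L m c).fAt (Mark.mem_Ω _ ho _)) ((W.L m' c).fAt (Mark.mem_Ω _ ho _)).sm
    ((mem_closure_iff_frequently.1 (W.dense c z)).mono ?_)
  rintro _ ⟨x, hx, rfl⟩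
  have h := Mark.inf_eq hp ho ▸ hx
  exact (W.co m c p hp x h).symm.trans (W.co m' c p hp x h)

/-- **independence of the layer** -/
theorem Lns.geq_m (m m' : M.Cl) (hp : p ∈ M.Br c.1) (ho : p ∈ M.O c.1)
    {u : (W.Z c).M → Matrix lam lam ℂ}
    (hu : Line51.Iso (W.Z c).I ((Λ.Λ m c).ln p) ((Λ.Λ m' c).ln p) u univ) :
    GEq (Λ.B m c) (Λ.G m c p) (Λ.B m' c) (Λ.G m' c p) (.refl _)
      (rotU (W.F m c p).toPre (W.F m' c p).toPre id) fun z => Line51.rl (u z) := by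
  refine (Λ.Λ m c).geq (Ψ := .refl _) (Λ.Λ m' c) (W.ori c) (W.ori c) (Mark.mem_Ω _ ho)
    (Mark.mem_Ω _ ho) contMDiffOn_id contMDiffOn_id (fun z _ => (co_of_eq fun i =>
      DFunLike.congr_fun (Dr59.mf_id (I := (W.Z c).I) z) _).trans (W.co_m m m' hp ho z)) ?_ ?_
  · exact (Dr59.pm_id (I := (W.Z c).I) (W.o c)).symm ▸ (W.ori c).same _
  · exact (Line51.Ln.pull_id (I := (W.Z c).I) ((Λ.Λ m' c).ln p)).symm ▸ hu

end Crest.Agent.X212.M
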