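import Crest.Agent.X212.M.Wall

/-!
# Row 212, layer M: parameters of a region, coefficients of elementary perturbations, chains
-/

set_option autoImplicit false
set_option linter.unusedSectionVars false
noncomputable section
open Set Function
open scoped ContDiff

namespace Crest.Agent.X212.M

variable {X : Type} [TopologicalSpace X] {A : Type}

namespace Sys
variable (S : Sys X A)

open Classical in
/-- the parameter seen by the region `π`: `t` inside, `1` on the boundary, `0` elsewhere -/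
def res (π : Reg A) (t : A → ℝ) : A → ℝ := fun a =>
  if a ∈ S.inn π then t a else if a ∈ bd π then 1 else 0

/-- the open parameter set of a region: all inner necks are finite -/
def OPar (π : Reg A) : Set (A → ℝ) := {t | t ∈ S.Par ∧ S.res π t = t ∧ ∀ a ∈ S.inn π, t a < 1}

variable {S}

theorem not_bd_of_inn {π : Reg A} {a : A} (h : a ∈ S.inn π) : a ∉ bd π := fun h' => h' h.1

theorem res_inn {π : Reg A} (t : A → ℝ) {a : A} (h : a ∈ S.inn π) : S.res π t a = t a := if_pos h

theorem res_bd {π : Reg A} (t : A → ℝ) {a : A} (h : a ∈ bd π) : S.res π t a = 1 := by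
  rw [res, if_neg fun h' => not_bd_of_inn h' h, if_pos h]

theorem res_out {π : Reg A} (t : A → ℝ) {a : A} (h : a ∉ S.inn π) (h' : a ∉ bd π) :
    S.res π t a = 0 := by rw [res, if_neg h, if_neg h']

theorem res_congr {π : Reg A} {t t' : A → ℝ} (h : ∀ a ∈ S.inn π, t a = t' a) :
    S.res π t = S.res π t' := funext fun a => by
  by_cases ha : a ∈ S.inn π
  · rw [res_inn _ ha, res_inn _ ha, h a ha]
  · simp only [res, if_neg ha]

theorem res_res (π : Reg A) (t : A → ℝ) : S.res π (S.res π t) = S.res π t :=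
  res_congr fun _ ha => res_inn _ ha

@[simp] theorem res_top (t : A → ℝ) : S.res (top A) t = t := funext fun _ => res_inn _ (by simp)

theorem Sub.res_res {ρ π : Reg A} (h : S.Sub ρ π) (t : A → ℝ) : S.res ρ (S.res π t) = S.res ρ t :=
  res_congr fun _ ha => res_inn _ (h.inn_sub ha)

theorem contDiff_res [Fintype A] (π : Reg A) : ContDiff ℝ ∞ (S.res π) := by
  refine contDiff_pi.2 fun a => ?_
  by_cases ha : a ∈ S.inn π
  · simp only [res, if_pos ha]; exact contDiff_apply ℝ ℝ a
  · simp only [res, if_neg ha]; exact contDiff_const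

theorem IsReg.res_mem {π : Reg A} (h : S.IsReg π) {t : A → ℝ} (ht : t ∈ S.Par) :
    S.res π t ∈ S.Par := by
  have hs : ∀ a ∈ support (S.res π t), (a ∈ S.inn π ∧ a ∈ support t) ∨ a ∈ bd π := fun a ha => by
    by_cases h1 : a ∈ S.inn π
    · exact .inl ⟨h1, by rwa [mem_support, res_inn _ h1] at ha⟩
    · by_contra hn
      exact ha (res_out _ h1 fun h2 => hn (.inr h2))
  refine ⟨fun a => ?_, fun a ha b hb hne => ?_⟩
  · unfold res; split_ifs
    exacts [ht.1 a, by simp, by simp]
  · rcases hs a ha with h1 | h1 <;> rcases hs b hb with h2 | h2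
    exacts [ht.2 h1.2 h2.2 hne, h1.1.2.2 b h2, (h2.1.2.2 a h1).symm, h.cell h1 h2 hne]

theorem cell_inf {t : A → ℝ} (ht : t ∈ S.Par) : S.Cell (inf t) := ht.2.mono (inf_subset t)

/-- the parameter of a piece of `t` is an open parameter of the piece -/
theorem Piece.res_mem {t : A → ℝ} (ht : t ∈ S.Par) {π : Reg A} (h : S.Piece (inf t) π) :
    S.res π t ∈ S.OPar π :=
  ⟨h.toIsReg.res_mem ht, res_res π t, fun a ha => by
    rw [res_inn _ ha]; exact lt_of_le_of_ne (ht.1 a).2 fun h1 => h.not_inn a h1 ha⟩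

theorem OPar.inf_eq {π : Reg A} {t : A → ℝ} (ht : t ∈ S.OPar π) : inf t = bd π := by
  ext a
  refine ⟨fun (h : t a = 1) => ?_, fun h => ?_⟩
  · by_contra hn
    by_cases h1 : a ∈ S.inn π
    · exact (ht.2.2 a h1).ne h
    · rw [← ht.2.1, res_out _ h1 hn] at h; exact zero_ne_one h
  · show t a = 1
    rw [← ht.2.1, res_bd _ h]

theorem IsReg.piece_bd {π : Reg A} (h : S.IsReg π) : S.Piece (bd π) π :=
  ⟨h, subset_rfl, fun _ ha hi => not_bd_of_inn hi ha⟩

theorem mem_oPar_top {t : A → ℝ} : t ∈ S.OPar (top A) ↔ t ∈ S.Par ∧ ∀ a, t a < 1 := by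
  simp [OPar]

/-- on a piece of `t`, a wall with `t a ≠ 0` whose band meets the piece is boundary or inner -/
theorem Piece.mem_of_meet [PreconnectedSpace X] {t : A → ℝ} (ht : t ∈ S.Par) {π : Reg A}
    (h : S.Piece (inf t) π) {a : A} (ha : t a ≠ 0) {x : X} (hx : x ∈ S.U π)
    (hb : x ∈ (S.w a).band) : a ∈ bd π ∨ a ∈ S.inn π := by
  by_contra hn
  rw [not_or] at hn
  refine disjoint_left.1 (h.toIsReg.outer (not_not.1 hn.1) (fun a' ha' => ?_) hn.2).1 hx hb
  exact ht.2 ha (inf_subset t (h.bd_subset ha')) (by rintro rfl; exact hn.1 ha')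

/-- on the piece `π` of `t`, the parameters `t` and `res π t` agree at every wall that matters -/
theorem Piece.res_eq [PreconnectedSpace X] {t : A → ℝ} (ht : t ∈ S.Par) {π : Reg A}
    (h : S.Piece (inf t) π) {a : A} {x : X} (hx : x ∈ S.U π) (hb : x ∈ (S.w a).band) :
    S.res π t a = t a := by
  by_cases h1 : a ∈ S.inn π
  · exact res_inn _ h1
  by_cases h2 : a ∈ bd π
  · rw [res_bd _ h2]; exact (h.bd_subset h2 : t a = 1).symm
  rw [res_out _ h1 h2]
  by_contra hn
  exact (h.mem_of_meet ht (Ne.symm hn) hx hb).elim h2 h1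

variable [Fintype A] (S)

open Classical in
/-- the coefficient of an elementary perturbation living in the region `ρ` -/
def cf (ρ : Reg A) (t : A → ℝ) : ℝ :=
  ∏ a, if a ∈ bd ρ then t a else if a ∈ S.inn ρ then expNegInvGlue (1 - t a) else 1

theorem contDiff_cf (ρ : Reg A) : ContDiff ℝ ∞ (S.cf ρ) := by
  refine contDiff_prod fun a _ => ?_
  by_cases h1 : a ∈ bd ρ
  · simp only [if_pos h1]; exact contDiff_apply ℝ ℝ a
  by_cases h2 : a ∈ S.inn ρ
  · simp only [if_neg h1, if_pos h2]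
    exact expNegInvGlue.contDiff.comp (contDiff_const.sub (contDiff_apply ℝ ℝ a))
  · simp only [if_neg h1, if_neg h2]; exact contDiff_const

variable {S}

theorem cf_ne_zero {ρ : Reg A} {t : A → ℝ} :
    S.cf ρ t ≠ 0 ↔ (∀ a ∈ bd ρ, t a ≠ 0) ∧ ∀ a ∈ S.inn ρ, t a < 1 := by
  rw [cf, Finset.prod_ne_zero_iff]
  refine ⟨fun h => ⟨fun a ha => ?_, fun a ha => ?_⟩, fun h a _ => ?_⟩
  · simpa only [if_pos ha] using h a (Finset.mem_univ a)
  · have := h a (Finset.mem_univ a)
    rw [if_neg (not_bd_of_inn ha), if_pos ha, Ne, expNegInvGlue.zero_iff_nonpos] at this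
    linarith
  · split_ifs with h1 h2
    · exact h.1 a h1
    · exact (expNegInvGlue.pos_of_pos (sub_pos.2 (h.2 a h2))).ne'
    · exact one_ne_zero

/-- the region itself is active at all its open parameters -/
theorem OPar.cf_ne_zero {π : Reg A} {t : A → ℝ} (ht : t ∈ S.OPar π) : S.cf π t ≠ 0 :=
  Sys.cf_ne_zero.2 ⟨fun a ha => by rw [← ht.2.1, res_bd _ ha]; exact one_ne_zero, ht.2.2⟩

theorem cf_congr {ρ : Reg A} {t t' : A → ℝ} (h1 : ∀ a ∈ bd ρ, t a = t' a)
    (h2 : ∀ a ∈ S.inn ρ, t a = t' a) : S.cf ρ t = S.cf ρ t' :=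
  Finset.prod_congr rfl fun a _ => by
    split_ifs with ha hb
    exacts [h1 a ha, by rw [h2 a hb], rfl]

/-- product structure: the coefficient of a subregion of `π` only sees the parameter of `π` -/
theorem Sub.cf_res {ρ π : Reg A} (h : S.Sub ρ π) {t : A → ℝ} (ht : bd π ⊆ inf t) :
    S.cf ρ (S.res π t) = S.cf ρ t := by
  refine cf_congr (fun a ha => ?_) fun a ha => res_inn _ (h.inn_sub ha)
  rcases h.bd_sub a ha with h1 | h1
  · have : a ∈ bd π := by rwa [bd, mem_setOf_eq, h1]
    rw [res_bd _ this]; exact (ht this : t a = 1).symm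
  · exact res_inn _ h1

/-- an active region that meets a piece of `t` is a subregion of it -/
theorem Piece.sub_of_cf [PreconnectedSpace X] {t : A → ℝ} (ht : t ∈ S.Par) {π ρ : Reg A}
    (h : S.Piece (inf t) π) (hρ : S.IsReg ρ) (hc : S.cf ρ t ≠ 0) {x : X} (hx : x ∈ S.U π)
    (hx' : x ∈ S.U ρ) : S.Sub ρ π := by
  obtain ⟨h1, h2⟩ := cf_ne_zero.1 hc
  exact h.sub hρ (ht.2.mono (union_subset (inf_subset t) h1)) (fun a ha hi => (h2 a hi).ne ha)
    hx hx'

/-- an active region is a subregion of exactly one piece of `t` -/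
theorem existsUnique_sub [PreconnectedSpace X] [Nonempty X] {t : A → ℝ} (ht : t ∈ S.Par)
    {ρ : Reg A} (hρ : S.IsReg ρ) (hc : S.cf ρ t ≠ 0) : ∃! π, S.Piece (inf t) π ∧ S.Sub ρ π := by
  obtain ⟨h1, h2⟩ := cf_ne_zero.1 hc
  obtain ⟨x, hx⟩ := hρ.nonempty
  have hxc : x ∉ S.cores (inf t) := fun h => by
    simp only [cores, mem_iUnion] at h
    obtain ⟨a, ha, h⟩ := h
    rcases h0 : ρ a with _ | b
    · refine disjoint_left.1 (hρ.outer h0 (fun a' ha' => ht.2 (inf_subset t ha) (h1 a' ha') ?_)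
        fun hi => (h2 a hi).ne ha).1 hx ((S.w a).core_subset h)
      rintro rfl; exact ha' h0
    · exact h b (hx a b h0)
  obtain ⟨π, h, hxπ⟩ := exists_piece (cell_inf ht) hxc
  exact ⟨π, ⟨h, h.sub_of_cf ht hρ hc hxπ hx⟩, fun π' h' =>
    h'.1.unique (cell_inf ht) h (h'.2.subset hx) hxπ⟩

theorem cf_nonneg (ρ : Reg A) {t : A → ℝ} (ht : ∀ a, 0 ≤ t a) : 0 ≤ S.cf ρ t :=
  Finset.prod_nonneg fun a _ => by
    split_ifs
    exacts [ht a, expNegInvGlue.nonneg _, zero_le_one]

theorem glue_le_one (x : ℝ) : expNegInvGlue x ≤ 1 := by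
  unfold expNegInvGlue
  split_ifs with h
  · exact zero_le_one
  · exact Real.exp_le_one_iff.2 (neg_nonpos.2 (inv_nonneg.2 (not_le.1 h).le))

/-- flatness at the inner necks -/
theorem cf_le {ρ : Reg A} {t : A → ℝ} (ht : ∀ a, t a ∈ Icc (0 : ℝ) 1) {a : A} (ha : a ∈ S.inn ρ) :
    S.cf ρ t ≤ expNegInvGlue (1 - t a) := by
  classical
  rw [cf, ← Finset.mul_prod_erase _ _ (Finset.mem_univ a), if_neg (not_bd_of_inn ha), if_pos ha]
  refine mul_le_of_le_one_right (expNegInvGlue.nonneg _) (Finset.prod_le_one (fun b _ => ?_) fun b _ => ?_)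
  · split_ifs
    exacts [(ht b).1, expNegInvGlue.nonneg _, zero_le_one]
  · split_ifs
    exacts [(ht b).2, glue_le_one _, le_rfl]

end Sys

/-! ### chains over `ZMod 2` -/

/-- chains and cochains of cells -/
abbrev Ch (A : Type) : Type := Finset A → ZMod 2

namespace Ch
variable [Fintype A] [DecidableEq A]

/-- pairing of a cochain with a chain -/
def pair (z c : Ch A) : ZMod 2 := ∑ σ, c σ * z σ

/-- the boundary (faces `t a = 0`) -/
def bdry (c : Ch A) : Ch A := fun τ => ∑ a ∈ τᶜ, c (insert a τ)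

/-- the coboundary -/
def cob (z : Ch A) : Ch A := fun σ => ∑ a ∈ σ, z (σ.erase a)

theorem pair_add (z c c' : Ch A) : pair z (c + c') = pair z c + pair z c' := by
  simp only [pair, Pi.add_apply, add_mul, Finset.sum_add_distrib]

theorem add_pair (z z' c : Ch A) : pair (z + z') c = pair z c + pair z' c := by
  simp only [pair, Pi.add_apply, mul_add, Finset.sum_add_distrib]

theorem pair_single (z : Ch A) (σ : Finset A) : pair z (Pi.single σ 1) = z σ := by
  rw [pair, Finset.sum_eq_single σ (fun τ _ h => by simp [h]) (by simp)]; simp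

theorem pair_congr {z z' c : Ch A} (h : ∀ σ, c σ ≠ 0 → z σ = z' σ) : pair z c = pair z' c :=
  Finset.sum_congr rfl fun σ _ => by
    by_cases h0 : c σ = 0
    · simp [h0]
    · rw [h σ h0]

theorem pair_bdry (z c : Ch A) : pair z (bdry c) = pair (cob z) c := by
  simp only [pair, bdry, cob, Finset.sum_mul, Finset.mul_sum]
  rw [Finset.sum_sigma', Finset.sum_sigma']
  refine Finset.sum_bij' (fun p _ => ⟨insert p.2 p.1, p.2⟩) (fun p _ => ⟨p.1.erase p.2, p.2⟩)
    ?_ ?_ ?_ ?_ ?_
  · simp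
  · simp
  · rintro ⟨τ, a⟩ h
    simp only [Finset.mem_sigma, Finset.mem_compl] at h
    simp [Finset.erase_insert h.2]
  · rintro ⟨τ, a⟩ h
    simp only [Finset.mem_sigma] at h
    simp [Finset.insert_erase h.2]
  · rintro ⟨τ, a⟩ h
    simp only [Finset.mem_sigma, Finset.mem_compl] at h
    simp [Finset.erase_insert h.2]

end Ch

end Crest.Agent.X212.M
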