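import Crest.Agent.X212.M.Trn
import Crest.Agent.X212.M.Lit
import Crest.Agent.X212.Met55.Wld
import Crest.Agent.X212.Cyl58.Tr
import Crest.Agent.X212.Pj41.Mid

/-!
# Row 212, layer M: normal worlds (rigid frames, literal breaking of cylindrical walls)
-/

set_option autoImplicit false
set_option linter.unusedSectionVars false
set_option linter.dupNamespace false
noncomputable section
open Set Function Filter Topology Module Matrix
open scoped ContDiff Manifold InnerProductSpace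
open Crest.Agent.R208.F (Ext pb)

namespace Crest.Agent.X212.M
open An Cyl58 Cyf70 Int54 Prm93
open Met55 (Sp VF VJ FAt fP atx rFr IsP pbv cF msk)
open Line51 (Ln Uni)
open Dr59 (mf)
open Pj41 (FRel cmF cmB cmG)

section rp
variable {Z : Mf 4} {o : Z.M → Ext Z.E} {T T' ι lam : Type} [NormedAddCommGroup T] [NormedSpace ℝ T]
  [NormedAddCommGroup T'] [NormedSpace ℝ T'] [Fintype ι] [Fintype lam] [DecidableEq lam]
  {Ω : Set (T × Z.M)} {Ω' : Set (T' × Z.M)} {g : T' → T} (hg : ContDiff ℝ ∞ g)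
  (h : ∀ t x, (t, x) ∈ Ω' → (g t, x) ∈ Ω)

/-- change of the parameter -/
def Lay.rp (L : Lay Z o T ι Ω) : Lay Z o T' ι Ω' where
  F0 := L.F0
  vol := L.vol
  e t := L.e (g t)
  sm t x k a := VJ.reparam (X := fun s => L.e s a) hg.contDiffAt (L.sm _ x (h t x k) a)
  sp t x k := L.sp _ x (h t x k)
  P t x k := L.P _ x (h t x k)
  ob t x k := L.ob _ x (h t x k)

/-- change of the parameter -/
def LLay.rp {L : Lay Z o T ι Ω} (Λ : LLay L lam) : LLay (L.rp hg h) lam where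
  p := Λ.p
  a t := Λ.a (g t)
  ok t := Λ.ok (g t)
  sm k t x := JAt.reparam (f := fun s y => Num57.e1 (Λ.a s y) (atx L.F0.e y k)) hg.contDiffAt
    (Λ.sm k (g t) x)

theorem Lay.re_e {ι' : Type} [Fintype ι'] [DecidableEq ι] [DecidableEq ι'] (L : Lay Z o T ι Ω)
    (L₁ : Lay Z o T' ι' Ω') {s : T'} (hs : ∀ x, (s, x) ∈ Ω') (t : T) :
    (L.re L₁ hs).e t = cF (L₁.e s) (L.e t) := by
  simp only [Lay.re]; congr <;> exact Subsingleton.elim _ _

end rp

variable {X : Mf 4} {A κ : Type} [Fintype A] [Fintype κ] {M : Mark X A κ}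

namespace Mark

variable (M) in
/-- `c'` is `c` with more cylindrical walls -/
def Up (c c' : M.Cl) : Prop := c.1 ⊆ c'.1 ∧ ∀ a ∈ c'.1, M.pin a → a ∈ c.1

theorem Up.refl (c : M.Cl) : M.Up c c := ⟨subset_rfl, fun _ h _ => h⟩

theorem Up.trans {c c' c'' : M.Cl} (h : M.Up c c') (h' : M.Up c' c'') : M.Up c c'' :=
  ⟨h.1.trans h'.1, fun a ha hp => h.2 a (h'.2 a ha hp) hp⟩

theorem cores_mono {σ σ' : Set A} (h : σ ⊆ σ') {x : X.M} (hx : x ∉ M.sys.cores σ') :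
    x ∉ M.sys.cores σ := fun k => hx (biUnion_subset_biUnion_left h k)

/-- the parameter seen on `Z c` -/
def mp (c : M.Cl) (p : Prm A) : Prm A := (p.1, msk M c.1 p.2)

theorem mp_br {c : M.Cl} {p : Prm A} (h : p ∈ M.Br c.1) : mp c p = p :=
  Prod.ext rfl (Met55.msk_br h)

theorem mp_mp {c c' : M.Cl} (h : c.1 ⊆ c'.1) (p : Prm A) : mp c (mp c' p) = mp c' p := by
  refine Prod.ext rfl (funext fun a => ?_)
  show msk M c.1 (msk M c'.1 p.2) a = msk M c'.1 p.2 a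
  by_cases h1 : a ∈ c.1
  · rw [Met55.msk_mem h1, Met55.msk_mem (h h1)]
  by_cases h2 : a ∈ M.sys.fr c.1
  · exact Met55.msk_fr h2
  rw [Met55.msk_out h1 h2, Met55.msk_out (fun k => h2 ⟨h1, fun a' ha' => c'.2 k (h ha') ?_⟩)
    fun k => h2 ⟨h1, fun a' ha' => k.2 a' (h ha')⟩]
  rintro rfl; exact h1 ha'

/-- the cell without its cylindrical walls in `m` -/
def red (m c : M.Cl) : M.Cl := ⟨{a ∈ c.1 | M.pin a ∨ a ∉ m.1}, c.2.mono fun _ h => h.1⟩

theorem up_red (m c : M.Cl) : M.Up (red m c) c := ⟨fun _ h => h.1, fun _ h k => ⟨h, .inl k⟩⟩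

theorem red_eq {m c c' : M.Cl} (h : M.Up c c') (hm : c'.1 \ c.1 ⊆ m.1) : red m c' = red m c :=
  Subtype.ext (Set.ext fun a => ⟨fun k => ⟨k.2.elim (h.2 a k.1)
    fun k' => by_contra fun k'' => k' (hm ⟨k.1, k''⟩), k.2⟩, fun k => ⟨h.1 k.1, k.2⟩⟩)

theorem Lit.red {m c : M.Cl} {a : A} {s : ℝ} (h : M.Lit m.1 c.1 a s) :
    M.Lit m.1 (red m c).1 a s := by
  refine ⟨h.1, h.2.elim (fun k => ?_) fun k => .inr ⟨k.1, fun k' => k.2.1 k'.1,
    fun a' ha' => k.2.2 a' ha'.1⟩⟩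
  by_cases h1 : a ∈ (Mark.red m c).1
  · exact .inl ⟨h1, k.2⟩
  · exact .inr ⟨by_contra fun h2 => h1 ⟨k.1, .inr h2⟩, h1,
      fun a' ha' => c.2 k.1 ha'.1 (by rintro rfl; exact h1 ha')⟩

open Classical in
/-- the reference parameter of the layers `m` -/
def p0 (m : M.Cl) : Prm A := (0, fun a => if a ∈ m.1 then 1 / 2 else 0)

theorem p0_mem (m : M.Cl) (σ : Set A) : p0 m ∈ M.O σ := fun a _ => by
  simp only [p0]; split_ifs <;> norm_num

theorem Lit.lt0 {m c : M.Cl} {a : A} {s : ℝ} (h : M.Lit m.1 c.1 a s) :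
    M.Lt c.1 (p0 m).2 a ∧ (tv c.1 (p0 m).2 a, s) ∈ Off := by
  rcases h.2 with h | h
  · exact ⟨.inl h.1, .inr h.2⟩
  · refine ⟨.inr ⟨h.2, ?_, fun a' _ e hc => if_neg fun k => hc (m.2 h.1 k e.symm)⟩, .inl ?_⟩
    · simp only [p0, if_pos h.1]; norm_num
    · rw [tv_fr h.2]; exact p0_mem m _ a h.2

end Mark

/-! ### breaking cylindrical walls -/

namespace Caps
variable (C : Caps M) {c c' c'' : M.Cl}

theorem exists_up (h : M.Up c c') :
    ∃ Ψ : PartialDiffeomorph (C.Z c').I (C.Z c).I (C.Z c').M (C.Z c).M ∞, Ψ.source = univ ∧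
      (∀ x ∉ M.sys.cores c'.1, Ψ (C.φ c' x) = C.φ c x) ∧
      (∀ a ∈ c'.1, M.pin a → ∀ b z, Ψ (C.β c' a b z) = C.β c a b z) ∧
      SameOn (C.o c') (Dr59.pm (C.Z c').I (C.Z c).I Ψ (C.o c)) univ := by
  obtain ⟨Ψ, k1, -, k3, k4, k5⟩ := tr C C (.refl M) (c := c') (c' := c)
    (M.sys.isClosed_cores _).isOpen_compl (subset_univ _) subset_rfl
    (fun x => Mark.cores_mono h.1) (J := {p | p.1 ∈ c'.1 ∧ M.pin p.1}) fun p hp =>
      ⟨⟨hp.1, hp.2, 1, one_pos, fun y _ hr _ => half_not_mem hp.1 _ y hr⟩, h.2 _ hp.1 hp.2⟩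
  have s1 : Ψ.source = univ := eq_univ_of_forall fun z => by
    rw [k1]
    rcases caps_surj C z with ⟨x, k, rfl⟩ | ⟨a, ha, hp, b, rfl⟩
    exacts [.inl ⟨x, k, rfl⟩, .inr ⟨_, ⟨(a, b), ⟨ha, hp⟩, rfl⟩, rfl⟩]
  exact ⟨Ψ, s1, k3, fun a ha hp b z => k4 (a, b) ⟨ha, hp⟩ z (s1 ▸ trivial),
    SameOn.symm (s1 ▸ k5)⟩

open Classical in
variable (c c') in
/-- `Z c'` as an open part of `Z c` -/
def up : (C.Z c').M → (C.Z c).M :=
  if h : M.Up c c' then (C.exists_up h).choose else fun z => C.φ c ((C.φ c').symm z)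

variable (h : M.Up c c')
include h

theorem up_oe : IsOE (C.Z c').I (C.Z c).I (C.up c c') := by
  rw [up, dif_pos h]
  have := eq_univ_iff_forall.1 (C.exists_up h).choose_spec.1
  exact ⟨fun z w e => (C.exists_up h).choose.injOn (this z) (this w) e,
    fun z => Orx52.ldp _ (this z)⟩

theorem up_φ {x : X.M} (hx : x ∉ M.sys.cores c'.1) : C.up c c' (C.φ c' x) = C.φ c x := by
  rw [up, dif_pos h]; exact (C.exists_up h).choose_spec.2.1 x hx

theorem up_β {a : A} (ha : a ∈ c'.1) (hp : M.pin a) (b : Bool) (z : V4) :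
    C.up c c' (C.β c' a b z) = C.β c a b z := by
  rw [up, dif_pos h]; exact (C.exists_up h).choose_spec.2.2.1 a ha hp b z

theorem up_same : SameOn (C.o c') (Dr59.pm (C.Z c').I (C.Z c).I (C.up c c') (C.o c)) univ := by
  rw [up, dif_pos h]; exact (C.exists_up h).choose_spec.2.2.2

theorem up_up (h' : M.Up c' c'') (z : (C.Z c'').M) : C.up c c' (C.up c' c'' z) = C.up c c'' z := by
  rcases caps_surj C z with ⟨x, k, rfl⟩ | ⟨a, ha, hp, b, rfl⟩
  · rw [C.up_φ h' k, C.up_φ h (Mark.cores_mono h'.1 k), C.up_φ (h.trans h') k]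
  · rw [C.up_β h' ha hp, C.up_β h (h'.2 a ha hp) hp, C.up_β (h.trans h') ha hp]

theorem eq_of_up {z : (C.Z c').M} {x : X.M} (hx : x ∉ M.sys.cores c.1) (e : C.φ c x = C.up c c' z) :
    x ∉ M.sys.cores c'.1 ∧ C.φ c' x = z := by
  rcases caps_surj C z with ⟨y, k, rfl⟩ | ⟨a, ha, hp, b, rfl⟩
  · rw [C.up_φ h k] at e
    obtain rfl := C.inj hx (Mark.cores_mono h.1 k) e
    exact ⟨k, rfl⟩
  · rw [C.up_β h ha hp] at e
    exact (caps_ne C hx (h.2 a ha hp) hp b e).elim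

theorem mem_range_up {z : (C.Z c).M} : z ∈ range (C.up c c') ↔
    ∀ x ∉ M.sys.cores c.1, C.φ c x = z → x ∉ M.sys.cores c'.1 := by
  refine ⟨fun ⟨w, e⟩ x hx k => (C.eq_of_up h hx (k.trans e.symm)).1, fun k => ?_⟩
  rcases caps_surj C z with ⟨y, hy, rfl⟩ | ⟨a, ha, hp, b, rfl⟩
  exacts [⟨_, C.up_φ h (k y hy rfl)⟩, ⟨_, C.up_β h (h.1 ha) hp b 0⟩]

theorem up_ev {x : X.M} (hx : x ∉ M.sys.cores c'.1) : C.up c c' ∘ C.φ c' =ᶠ[𝓝 x] C.φ c :=
  eventually_of_mem ((M.sys.isClosed_cores _).isOpen_compl.mem_nhds hx) fun _ => C.up_φ h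

theorem md_up (z : (C.Z c').M) : MDifferentiableAt (C.Z c').I (C.Z c).I (C.up c c') z :=
  ((C.up_oe h).loc z).mdifferentiableAt (by simp)

theorem mf_up {x : X.M} (hx : x ∉ M.sys.cores c'.1) (v : X.E) :
    mf (C.Z c').I (C.Z c).I (C.up c c') (C.φ c' x) (mf X.I (C.Z c').I (C.φ c') x v) =
      mf X.I (C.Z c).I (C.φ c) x v := by
  rw [← Dr59.mf_congr (C.up_ev h hx),
    Dr59.mf_comp (C.md_up h _) ((C.ld hx).mdifferentiableAt (by simp))]
  rfl

theorem mf_up_up (h' : M.Up c' c'') (z : (C.Z c'').M) (v : (C.Z c'').E) :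
    mf (C.Z c').I (C.Z c).I (C.up c c') (C.up c' c'' z)
      (mf (C.Z c'').I (C.Z c').I (C.up c' c'') z v) = mf (C.Z c'').I (C.Z c).I (C.up c c'') z v := by
  rw [← show C.up c c' ∘ C.up c' c'' = C.up c c'' from funext (C.up_up h h'),
    Dr59.mf_comp (C.md_up h _) (C.md_up h' _)]
  rfl

theorem up_mem_Ω {p : Prm A} {z : (C.Z c').M} (hz : (p, z) ∈ M.Ω c'.1 (C.φ c')) :
    (Mark.mp c' p, C.up c c' z) ∈ M.Ω c.1 (C.φ c) := fun a ha => by
  have k : ∀ x ∈ (M.sys.w a).core, C.φ c x = C.up c c' z → x ∉ M.sys.cores c'.1 ∧ C.φ c' x = z :=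
    fun x hx => C.eq_of_up h (Mark.fr_not_mem ha ((M.sys.w a).core_subset hx))
  by_cases h1 : a ∈ c'.1
  · exact .inr fun ⟨x, hx, e⟩ => (k x hx e).1 (mem_biUnion h1 hx)
  by_cases h2 : a ∈ M.sys.fr c'.1
  · exact (hz a h2).imp (fun h3 => (Met55.msk_fr h2).trans_lt h3)
      fun h3 ⟨x, hx, e⟩ => h3 ⟨x, hx, (k x hx e).2⟩
  · exact .inl ((Met55.msk_out h1 h2).trans_lt one_pos)

theorem up_loc {t t' : A → ℝ} {z : (C.Z c').M}
    (hz : ∀ a ∈ M.sys.fr c'.1, z ∈ C.φ c' '' (M.bn a).slab (Icc (-2) 2) → t a = t' a) :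
    ∀ a ∈ M.sys.fr c.1, C.up c c' z ∈ C.φ c '' (M.bn a).slab (Icc (-2) 2) →
      msk M c'.1 t a = msk M c'.1 t' a := fun a ha ⟨x, hx, e⟩ => Met55.msk_congr fun ha' =>
  hz a ha' ⟨x, hx, (C.eq_of_up h (Mark.fr_not_mem ha ((M.bn a).slab_subset _ hx)) e).2⟩

omit h in
theorem up_self (z : (C.Z c).M) : C.up c c z = z := (C.up_oe (.refl c)).inj (C.up_up (.refl c) (.refl c) z)

end Caps

/-! ### normal worlds -/

/-- rigid frames; breaking a cylindrical wall of `m` is literal -/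
structure World.Nrm (W : World M) : Prop where
  rig : ∀ m c p p' z, (p, z) ∈ M.Ω c.1 (W.φ c) → (p', z) ∈ M.Ω c.1 (W.φ c) →
    Met55.Co (atx ((W.L m c).e p) z) (atx ((W.L m c).e p') z) →
    atx ((W.L m c).e p) z = atx ((W.L m c).e p') z
  e : ∀ m c c', M.Up c c' → c'.1 \ c.1 ⊆ m.1 → ∀ p z i, mf (W.Z c').I (W.Z c).I (W.up c c') z
    (atx ((W.L m c').e p) z i) = atx ((W.L m c).e (Mark.mp c' p)) (W.up c c' z) i
  f0 : ∀ m c c', M.Up c c' → c'.1 \ c.1 ⊆ m.1 → FRel (W.L m c').F0 (W.L m c).F0 (W.up c c') univ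

variable {lam : Type} [Fintype lam] [DecidableEq lam] {N : ML M lam}

/-- breaking a cylindrical wall of `m` is literal -/
structure Lns.Nrm {W : World M} (Λ : Lns W N) : Prop where
  p : ∀ m c c', M.Up c c' → c'.1 \ c.1 ⊆ m.1 → ∀ z, (Λ.Λ m c').p z = (Λ.Λ m c).p (W.up c c' z)
  a : ∀ m c c', M.Up c c' → c'.1 \ c.1 ⊆ m.1 → ∀ p, (Λ.Λ m c').a p =
    Dr59.pm (W.Z c').I (W.Z c).I (W.up c c') ((Λ.Λ m c).a (Mark.mp c' p))
  v : ∀ m c c', M.Up c c' → c'.1 \ c.1 ⊆ m.1 → Λ.v m c' = Λ.v m c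

namespace World
variable (W : World M) (m c : M.Cl)

/-- the rigid layer -/
def rL : Lay (W.Z c) (W.o c) (Prm A) (Option κ) (M.Ω c.1 (W.φ c)) :=
  (W.L m c).re (W.L m c) (Mark.mem_Ω _ (Mark.p0_mem m _))

/-- the normal layer -/
def nL : Lay (W.Z c) (W.o c) (Prm A) (Option κ) (M.Ω c.1 (W.φ c)) :=
  ((W.rL m (Mark.red m c)).pull (W.up_oe (Mark.up_red m c)).loc (W.up_same (Mark.up_red m c))).rp
    (g := Mark.mp c) Met55.contDiff_msk fun _ _ => W.up_mem_Ω (Mark.up_red m c)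

variable {m c}

theorem rL_congr {p p' : Prm A} {z : (W.Z c).M}
    (h : Met55.Co (atx ((W.L m c).e p) z) (atx ((W.L m c).e p') z)) :
    atx ((W.rL m c).e p) z = atx ((W.rL m c).e p') z := by
  classical
  rw [rL, Lay.re_e, Lay.re_e]
  exact funext fun i => (Met55.cF_congr (fun _ => rfl) h i).symm

theorem rL_co {p : Prm A} {z : (W.Z c).M} (h : (p, z) ∈ M.Ω c.1 (W.φ c)) :
    Met55.Co (atx ((W.rL m c).e p) z) (atx ((W.L m c).e p) z) := Lay.re_co _ _ _ h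

theorem rL_lit {a : A} (ha : ¬M.pin a) {p : Prm A} (hp : p ∈ M.Br c.1) (ht : 1 / 2 ≤ p.2 a)
    {q : (M.bn a).Y.M × ℝ} (hq : M.Lit m.1 c.1 a q.2) (ho : (p.2 a, q.2) ∈ Off) (i : Option κ) :
    atx ((W.rL m c).e p) (W.nj c a q) i =
      mf (IC (M.bn a).Y.I) (W.Z c).I (W.nj c a) q (M.nf a (p.2 a) q i) := by
  classical
  rw [rL, Lay.re_e]
  refine Met55.cF_lit (C := W.toCaps) (w := (W.L m c).e p) ha ((W.mem_src c).2 hq.not_mem) hq.lt0.2 ho
    (W.lit' ha hq hq.lt0.1 hq.lt0.2 0) ?_ i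
  rw [show atx ((W.L m c).e p) _ = _ from funext (W.lit m c a ha p hp ht q hq ho)]
  exact .refl _

theorem nL_e {d : M.Cl} (hd : Mark.red m c = d) (p : Prm A) (z : (W.Z c).M) (i : Option κ) :
    mf (W.Z c).I (W.Z d).I (W.up d c) z (atx ((W.nL m c).e p) z i) =
      atx ((W.rL m d).e (Mark.mp c p)) (W.up d c z) i := by
  subst hd; exact Met55.pbv_rel ((W.up_oe (Mark.up_red m c)).loc z) _

theorem nL_f0 {d : M.Cl} (hd : Mark.red m c = d) (z : (W.Z c).M) (i : Option κ) :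
    mf (W.Z c).I (W.Z d).I (W.up d c) z (atx (W.nL m c).F0.e z i) =
      atx (W.L m d).F0.e (W.up d c z) i := by
  subst hd; exact Met55.pbv_rel ((W.up_oe (Mark.up_red m c)).loc z) _

theorem nL_congr {p p' : Prm A} {z : (W.Z c).M}
    (h : atx ((W.rL m (Mark.red m c)).e (Mark.mp c p)) (W.up _ c z) =
      atx ((W.rL m (Mark.red m c)).e (Mark.mp c p')) (W.up _ c z)) :
    atx ((W.nL m c).e p) z = atx ((W.nL m c).e p') z := funext fun i =>
  (Met55.ld_bij ((W.up_oe (Mark.up_red m c)).loc z)).1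
    (((W.nL_e rfl p z i).trans (congrFun h i)).trans (W.nL_e rfl p' z i).symm)

/-- **the normal form of a world** -/
def nm : World M where
  toCaps := W.toCaps
  k := W.k
  L := W.nL
  loc m c u t t' z h := W.nL_congr (W.rL_congr (by
    rw [show atx ((W.L m _).e (Mark.mp c (u, t))) _ = _ from
      W.loc m _ u _ _ _ (W.up_loc (Mark.up_red m c) h)]
    exact .refl _))
  co m c p hp x hx := by
    have hu := Mark.up_red m c
    have h1 : p ∈ M.Br (Mark.red m c).1 := ⟨hp.1, hu.1.trans hp.2⟩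
    have h2 := Mark.cores_mono hp.2 hx
    refine Met55.Co.of_map (A := Met55.dmp (W.Z c).I (W.Z (Mark.red m c)).I (W.up _ c) (W.φ c x))
      (show Bijective _ from Met55.ld_bij ((W.up_oe hu).loc (W.φ c x))) ?_
    have h3 := (W.co m _ p h1 x hx).trans (W.rL_co (W.mem_Ω_of_br h1 hx)).symm
    rw [← W.up_φ hu h2, ← show _ = fun i => mf X.I _ (W.φ (Mark.red m c)) x (W.k p x i) from
      funext fun i => W.mf_up hu h2 (W.k p x i)] at h3
    have h4 := funext (W.nL_e (m := m) rfl p (W.φ c x))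
    rw [Mark.mp_br hp] at h4
    rw [← h4] at h3
    exact h3
  neck := W.neck
  lit m c a ha p hp ht q hq ho i := by
    have hu := Mark.up_red m c
    refine (Met55.ld_bij ((W.up_oe hu).loc _)).1 ((W.nL_e rfl p _ i).trans ?_)
    rw [Mark.mp_br hp, W.up_φ hu hq.not_mem]
    refine (W.rL_lit ha ⟨hp.1, hu.1.trans hp.2⟩ ht hq.red ho i).trans ?_
    exact ((W.mf_nj hq.red.not_mem _).trans (W.mf_up hu hq.not_mem _).symm).trans
      (congrArg _ (W.mf_nj hq.not_mem _).symm)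

theorem nm_nrm : W.nm.Nrm where
  rig m c p p' z h h' hc := by
    have hu := Mark.up_red m c
    refine W.nL_congr (W.rL_congr (((W.rL_co (W.up_mem_Ω hu h)).symm.trans ?_).trans
      (W.rL_co (W.up_mem_Ω hu h'))))
    rw [← funext (W.nL_e rfl p z), ← funext (W.nL_e rfl p' z)]
    exact hc.map (Met55.dmp _ _ (W.up _ c) z)
  e m c c' h hm p z i := by
    have hu := Mark.up_red m c
    refine (Met55.ld_bij ((W.up_oe hu).loc _)).1 (((W.mf_up_up hu h z _).trans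
      (W.nL_e (Mark.red_eq h hm) p z i)).trans (Eq.trans ?_ (W.nL_e rfl _ _ i).symm))
    rw [Mark.mp_mp h.1, W.up_up hu h]
  f0 m c c' h hm := by
    have hu := Mark.up_red m c
    refine ⟨isOpen_univ, fun z _ => (W.up_oe h).loc z, fun i z _ => ?_⟩
    refine (Met55.ld_bij ((W.up_oe hu).loc _)).1 (((W.mf_up_up hu h z _).trans
      (W.nL_f0 (Mark.red_eq h hm) z i)).trans (Eq.trans ?_ (W.nL_f0 rfl _ i).symm))
    exact congrArg (fun y => atx (W.L m _).F0.e y i) (W.up_up hu h z).symm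

end World

namespace Lns
variable {W : World M} (Λ : Lns W N) (m c : M.Cl)

/-- the line on the rigid layer -/
def rΛ : LLay (W.rL m c) lam := ⟨(Λ.Λ m c).p, (Λ.Λ m c).a, (Λ.Λ m c).ok, (Λ.Λ m c).sm⟩

/-- the line on the normal layer -/
def nΛ : LLay (W.nL m c) lam := ((Λ.rΛ m (Mark.red m c)).pull _ _).rp _ _

variable {m c}

theorem nΛ_p {d : M.Cl} (hd : Mark.red m c = d) (z : (W.Z c).M) :
    (Λ.nΛ m c).p z = (Λ.Λ m d).p (W.up d c z) := by subst hd; rfl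

theorem nΛ_a {d : M.Cl} (hd : Mark.red m c = d) (p : Prm A) : (Λ.nΛ m c).a p =
    Dr59.pm (W.Z c).I (W.Z d).I (W.up d c) ((Λ.Λ m d).a (Mark.mp c p)) := by subst hd; rfl

/-- **the normal form of the lines** -/
def nm : Lns W.nm N where
  a0 := Λ.a0
  Λ := Λ.nΛ
  v m c := Λ.v m (Mark.red m c)
  ok0 := Λ.ok0
  loc m c u _ _ _ h := Dr59.pm_congr_right (Λ.loc m _ u _ _ _ (W.up_loc (Mark.up_red m c) h))
  iso m c p hp := by
    have hu := Mark.up_red m c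
    refine ((Λ.iso m _ p ⟨hp.1, hu.1.trans hp.2⟩).mono fun x hx => (W.mem_src _).2
      (Mark.cores_mono hu.1 ((W.mem_src c).1 hx))).of_eq (fun _ _ => rfl) (fun _ _ => rfl)
      (fun x hx => congrArg (Λ.Λ m _).p (W.up_φ hu ((W.mem_src c).1 hx))) fun x hx => ?_
    have h1 := (W.mem_src c).1 hx
    refine (Dr59.pm_comp (W.md_up hu _) ((W.ld h1).mdifferentiableAt (by simp))).trans ?_
    rw [Mark.mp_br hp]
    exact Dr59.pm_congr (W.up_ev hu h1) rfl
  neck := Λ.neck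
  lit m _ a q hq := Λ.lit m _ a q hq.red

theorem nm_nrm : Λ.nm.Nrm where
  p m c c' h hm z := (Λ.nΛ_p (Mark.red_eq h hm) z).trans
    (congrArg _ (W.up_up (Mark.up_red m c) h z).symm)
  a m c c' h hm p := by
    have hu := Mark.up_red m c
    refine (Λ.nΛ_a (Mark.red_eq h hm) p).trans (funext fun z => Eq.trans ?_
      (Dr59.pm_comp (W.md_up hu _) (W.md_up h z)).symm)
    rw [Mark.mp_mp h.1, show W.up _ c ∘ W.up c c' = _ from funext (W.up_up hu h)]
    rfl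
  v m _ _ h hm := congrArg (Λ.v m) (Mark.red_eq h hm)

end Lns

/-! ### consequences -/

section cons
variable {W : World M} {Λ : Lns W N} {m c c' : M.Cl} (hW : W.Nrm) (hΛ : Λ.Nrm) (h : M.Up c c')
  (hm : c'.1 \ c.1 ⊆ m.1)
include hW h hm

theorem World.Nrm.fRel {p : Prm A} (hp : p ∈ M.O c'.1) {F : Fr (W.Z c).I (W.Z c).M (Option κ)}
    {O : Set (W.Z c').M} (hO : IsOpen O)
    (hF : ∀ z ∈ O, atx F.e (W.up c c' z) = atx ((W.L m c).e (Mark.mp c' p)) (W.up c c' z)) :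
    FRel (W.F m c' p) F (W.up c c') O :=
  ⟨hO, fun z _ => (W.up_oe h).loc z, fun i z hz => by
    rw [World.F, Lay.F_e _ (Mark.mem_Ω _ hp)]
    exact (hW.e m c c' h hm p z i).trans (congrFun (hF z hz) i).symm⟩

include hΛ in
theorem Lns.Nrm.B : Λ.B m c' = cmB (W.up c c') (Λ.B m c) := by
  have k := hW.f0 m c c' h hm
  have e1 : (W.L m c').F0.P = fun a b x => (W.L m c).F0.P a b (W.up c c' x) := by
    funext a b x; exact k.P trivial a b
  have e2 : ov (W.o c') (W.L m c').F0.e =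
      fun a b d e x => ov (W.o c) (W.L m c).F0.e a b d e (W.up c c' x) := by
    funext a b d e x
    exact (cf_rel (W.Z c).dim (W.Z c').dim (fun i => k.e i x trivial) (Met55.pre_sp _ _)
      (Met55.pre_sp _ _) (W.up_same h x trivial) _).symm
  have e3 : ((Λ.Λ m c').ln 0).l = fun x => ((Λ.Λ m c).ln 0).l (W.up c c' x) :=
    funext fun x => congrArg Line51.rl (hΛ.p m c c' h hm x)
  show Base.mk _ _ _ _ = Base.mk _ _ _ _
  rw [e1, e2, e3]; rfl

omit hW in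
include hΛ in
theorem Lns.Nrm.ln (p : Prm A) :
    (Λ.Λ m c').ln p = ((Λ.Λ m c).ln (Mark.mp c' p)).pull (W.Z c').I (W.Z c).I (W.up c c') :=
  congrArg₂ Ln.mk (funext (hΛ.p m c c' h hm)) (hΛ.a m c c' h hm p)

end cons

end Crest.Agent.X212.M
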