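import Crest.Agent.X212.M.Trn
import Crest.Agent.X212.Loc66.Fcv

/-!
# Row 212, layer M: jointly smooth families converge smoothly; diagonal choices
-/

set_option autoImplicit false
set_option linter.unusedSectionVars false
set_option linter.dupNamespace false
noncomputable section
open Set Function Filter Topology Module
open scoped ContDiff Manifold

namespace Crest.Agent.X212.M
open An Prm93 Cmp73
open Pat85 (CB CBOn)
open Met55 (VF VJ atx)
open Loc66 (FCv)
open Crest.Agent.R208.F (Ext)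

variable {α : Type} {l : Filter α}

/-! ### diagonal choices -/

variable (l) in
/-- `R J` holds for the `J → ∞` that grow slowly enough -/
def Dgl (R : (α → ℕ) → Prop) : Prop := ∃ Q : ℕ → α → Prop, (∀ j, ∀ᶠ n in l, Q j n) ∧
  ∀ J, Tendsto J l atTop → (∀ᶠ n in l, Q (J n) n) → R J

namespace Dgl
variable {R R' : (α → ℕ) → Prop}

theorem mono (h : Dgl l R) (k : ∀ J, Tendsto J l atTop → R J → R' J) : Dgl l R' :=
  h.imp fun _ h => ⟨h.1, fun J a b => k J a (h.2 J a b)⟩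

theorem of_all (h : ∀ J, Tendsto J l atTop → R J) : Dgl l R :=
  ⟨fun _ _ => True, fun _ => .of_forall fun _ => trivial, fun J a _ => h J a⟩

theorem all {β : Type} [Finite β] {R : β → (α → ℕ) → Prop} (h : ∀ i, Dgl l (R i)) :
    Dgl l fun J => ∀ i, R i J := by
  choose Q h1 h2 using h
  exact ⟨fun j n => ∀ i, Q i j n, fun j => eventually_all.2 fun i => h1 i j,
    fun J a b i => h2 i J a (b.mono fun _ k => k i)⟩

theorem and (h : Dgl l R) (h' : Dgl l R') : Dgl l fun J => R J ∧ R' J :=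
  let ⟨Q, h1, h2⟩ := h
  let ⟨Q', h3, h4⟩ := h'
  ⟨fun j n => Q j n ∧ Q' j n, fun j => (h1 j).and (h3 j),
    fun J a b => ⟨h2 J a (b.mono fun _ k => k.1), h4 J a (b.mono fun _ k => k.2)⟩⟩

theorem ev {Q : ℕ → α → Prop} (h : ∀ j, ∀ᶠ n in l, Q j n) : Dgl l fun J => ∀ᶠ n in l, Q (J n) n :=
  ⟨Q, h, fun _ _ b => b⟩

theorem exists_seq (h : Dgl l R) {t : α → ℕ} (ht : Tendsto t l atTop) :
    ∃ J, Tendsto J l atTop ∧ R J := by
  classical
  obtain ⟨Q, h1, h2⟩ := h
  let J : α → ℕ := fun n => Nat.findGreatest (Q · n) (t n)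
  have k : Tendsto J l atTop := tendsto_atTop.2 fun j =>
    ((h1 j).and (ht.eventually_ge_atTop j)).mono fun n hn => Nat.le_findGreatest hn.2 hn.1
  exact ⟨J, k, h2 J k ((h1 0).mono fun n hn => Nat.findGreatest_spec (P := (Q · n)) (Nat.zero_le _) hn)⟩

end Dgl

theorem exists_rate {T : Type} [NormedAddCommGroup T] {p : α → T} {t : T} (hp : Tendsto p l (𝓝 t))
    (hn : ∀ᶠ n in l, p n ≠ t) : ∃ r : α → ℕ, Tendsto r l atTop :=
  ⟨fun n => ⌈‖p n - t‖⁻¹⌉₊, tendsto_nat_ceil_atTop.comp (tendsto_inv_nhdsGT_zero.comp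
    (tendsto_nhdsWithin_iff.2 ⟨tendsto_iff_norm_sub_tendsto_zero.1 hp,
      hn.mono fun _ k => norm_pos_iff.2 (sub_ne_zero.2 k)⟩))⟩

section flat
variable {E : Type} [NormedAddCommGroup E] [NormedSpace ℝ E] [FiniteDimensional ℝ E]

/-- the jets converge along moving points -/
theorem cb_iter [l.NeBot] {U : Set E} (hU : IsOpen U) {x : E} (hx : x ∈ U) :
    ∀ (k : ℕ) {G : Type} [NormedAddCommGroup G] [NormedSpace ℝ G] [FiniteDimensional ℝ G]
      {f : α → E → G} {g : E → G}, CBOn l U f → (∀ y ∈ U, Tendsto (fun i => f i y) l (𝓝 (g y))) →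
      Tendsto (fun q : α × E => ‖iteratedFDeriv ℝ k (f q.1) q.2‖) (l ×ˢ 𝓝 x)
        (𝓝 ‖iteratedFDeriv ℝ k g x‖)
  | 0, _, _, _, _, _, _, h, hp => by
    simpa only [norm_iteratedFDeriv_zero] using (cb_tendsto (h 1 x hx) (hp x hx)).norm
  | k + 1, _, _, _, _, _, _, h, hp => by
    simpa only [norm_iteratedFDeriv_fderiv] using cb_iter hU hx k
      (fun j y hy => (h (j + 1) y hy).fd) fun y hy => (cb_lim hU h hp hy).2

theorem dgl_cb [l.NeBot] {G : Type} [NormedAddCommGroup G] [NormedSpace ℝ G] [FiniteDimensional ℝ G]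
    {U : Set E} (hU : IsOpen U) {x : E} (hx : x ∈ U) {f : ℕ → α → E → G} {g : E → G}
    (h : ∀ j, CBOn l U (f j)) (hp : ∀ j, ∀ y ∈ U, Tendsto (fun i => f j i y) l (𝓝 (g y))) :
    Dgl l fun J => ∀ k, CB (l ×ˢ 𝓝 x) k fun n => f (J n) n := by
  have := FiniteDimensional.proper_real E
  obtain ⟨r, hr, hb⟩ := Metric.nhds_basis_closedBall.mem_iff.1 (hU.mem_nhds hx)
  have hc := isCompact_closedBall x r
  have h1 : ∀ k, ∃ C, ∀ y ∈ Metric.closedBall x r, ‖iteratedFDeriv ℝ k g y‖ ≤ C := fun k =>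
    hc.exists_bound_of_continuousOn fun y hy => (((cb_lim hU (h 0) (hp 0) (hb hy)).1.of_le
      (m := k) (by exact_mod_cast le_top)).continuousAt_iteratedFDeriv le_rfl).continuousWithinAt
  choose C hC using h1
  refine ⟨fun j n => ∀ y ∈ Metric.closedBall x r, ContDiffAt ℝ ∞ (f j n) y ∧
    ∀ k ≤ j, ‖iteratedFDeriv ℝ k (f j n) y‖ ≤ C k + 1, fun j => ev_compact hc fun y hy =>
      (h j 0 y (hb hy)).smooth.and ((eventually_all_finite (finite_le_nat j)).2 fun k _ =>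
        (cb_iter hU (hb hy) k (h j) (hp j)).eventually_le_const
          ((hC k y hy).trans_lt (lt_add_one _))), fun J hJ hQ k => ?_⟩
  obtain ⟨D, hD⟩ := ((finite_le_nat k).image fun i => C i + 1).bddAbove
  refine ⟨D, ((hQ.and (hJ.eventually_ge_atTop k)).prod_mk (Metric.closedBall_mem_nhds x hr)).mono
    fun q hq => ⟨(hq.1.1 _ hq.2).1, fun i hi =>
      ((hq.1.1 _ hq.2).2 i (hi.trans hq.1.2)).trans (hD ⟨i, hi, rfl⟩)⟩⟩

end flat

section mf
variable {E : Type} [NormedAddCommGroup E] [NormedSpace ℝ E] [FiniteDimensional ℝ E]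
  [MeasurableSpace E] [BorelSpace E]
  {H : Type} [TopologicalSpace H] {I : ModelWithCorners ℝ E H} [I.Boundaryless]
  {M : Type} [TopologicalSpace M] [ChartedSpace H M] [IsManifold I ∞ M] [MeasurableSpace M]
  {G : Type} [NormedAddCommGroup G] [NormedSpace ℝ G] [FiniteDimensional ℝ G]
  {T : Type} [NormedAddCommGroup T] [NormedSpace ℝ T] [FiniteDimensional ℝ T]
  {p : α → T} {t : T} {x : M} {U : Set M}

theorem dgl_mb [l.NeBot] (hU : IsOpen U) (hx : x ∈ U) {f : ℕ → α → M → G} {g : M → G}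
    (h : ∀ j, Cv I l U (f j) g) : Dgl l fun J => ∀ k, MB I l x k fun n => f (J n) n :=
  dgl_cb (g := fun y => g ((extChartAt I x).symm y)) (isOpen_chart_pre hU x)
    ⟨mem_extChartAt_target x, by simpa using hx⟩ (fun j => (h j).mb.chart x)
    fun j _ hy => (h j).pt _ hy.2

/-- **diagonal choice**: off the finite set `P` the families are eventually constant in `j` -/
theorem dgl_cv [l.NeBot] {P : Set M} (hP : P.Finite) {f : ℕ → α → M → G} {g : M → G}
    (h : ∀ j, Cv I l univ (f j) g)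
    (h1 : ∀ x ∉ P, ∃ i, ∀ᶠ y in 𝓝 x, ∀ j ≥ i, ∀ n, f j n y = f i n y)
    (h2 : ∀ x ∈ P, ∀ j n, f j n x = f 0 n x) :
    Dgl l fun J => Cv I l univ (fun n => f (J n) n) g := by
  have := hP.to_subtype
  refine (Dgl.all fun x : P => dgl_mb isOpen_univ (mem_univ x.1) h).mono fun J hJ k => ?_
  refine .of_local fun x _ => ⟨{x}, rfl, ?_⟩
  by_cases hx : x ∈ P
  · exact ⟨fun j y hy => hy ▸ k ⟨x, hx⟩ j, fun y hy => hy ▸ by
      simpa only [h2 x hx (J _)] using (h 0).pt x trivial⟩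
  · obtain ⟨i, hi⟩ := h1 x hx
    exact ((h i).mono le_rfl (subset_univ _)).congr (fun y hy => hy ▸
      ((hJ.eventually_ge_atTop i).prod_mk hi).mono fun q hq => hq.2 _ hq.1 _) fun _ _ => rfl

theorem dgl_vcv [l.NeBot] {P : Set M} (hP : P.Finite) {f : ℕ → α → VF I M} {g : VF I M}
    (h : ∀ j, Loc66.VCv l univ (f j) g)
    (h1 : ∀ x ∉ P, ∃ i, ∀ᶠ y in 𝓝 x, ∀ j ≥ i, ∀ n, f j n y = f i n y)
    (h2 : ∀ x ∈ P, ∀ j n, f j n x = f 0 n x) :
    Dgl l fun J => Loc66.VCv l univ (fun n => f (J n) n) g := by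
  have := hP.to_subtype
  refine (Dgl.all fun x : P => dgl_mb (Loc66.op_src isOpen_univ x.1) ⟨trivial, mem_chart_source H x.1⟩
    fun j => (h j).chart isOpen_univ x.1).mono fun J hJ k => ?_
  have key : ∀ x, (∀ k, MB I l x k fun n => Sob92.dv I (f (J n) n) (extChartAt I x)) ∧ Tendsto
      (fun n => Sob92.dv I (f (J n) n) (extChartAt I x) x) l
        (𝓝 (Sob92.dv I g (extChartAt I x) x)) := fun x => by
    by_cases hx : x ∈ P
    · exact ⟨k ⟨x, hx⟩, ((h 0).pt x trivial).congr fun n => by simp only [Sob92.dv, h2 x hx (J n)]⟩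
    · obtain ⟨i, hi⟩ := h1 x hx
      exact ⟨fun j => ((h i).mb j x trivial).congr (((hJ.eventually_ge_atTop i).prod_mk hi).mono
        fun q hq => by simp only [Sob92.dv, hq.2 _ hq.1]), ((h i).pt x trivial).congr'
          ((hJ.eventually_ge_atTop i).mono fun n hn => by
            simp only [Sob92.dv, hi.self_of_nhds _ hn])⟩
  exact ⟨fun j x _ => (key x).1 j, fun x _ => (key x).2⟩

/-! ### jointly smooth families -/

theorem mb_of_jAt {f : T → M → G} (h : ∀ᶠ q in 𝓝 (t, x), JAt I f q.1 q.2) (hp : Tendsto p l (𝓝 t))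
    (k : ℕ) : MB I l x k fun n => f (p n) := by
  have hs := mem_chart_source H x
  have h1 : MB I l x k fun n y => (p n, extChartAt I x y) :=
    (MB.consts ⟨‖t‖ + 1, (hp.norm.eventually (gt_mem_nhds (lt_add_one _))).mono
      fun _ hi => hi.le⟩).prodMk (MB.fixed (ev_chart_smooth hs))
  refine (h1.post_at (Φ := fun z : T × E => f z.1 ((extChartAt I x).symm z.2))
    (c := (t, extChartAt I x x)) ?_ ((hp.comp tendsto_fst).prodMk_nhds
      ((tend_chart hs).comp tendsto_snd))).congr ?_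
  · filter_upwards [(tendsto_id.prodMap_nhds (tend_symm (I := I) hs)).eventually h,
      (continuousAt_snd (p := (t, extChartAt I x x))).eventually (ev_target (I := I) hs)] with z h2 h3
    exact (ContMDiffAt.comp (g := fun z : T × M => f z.1 z.2)
      (f := fun z : T × E => (z.1, (extChartAt I x).symm z.2)) z h2
      (contDiffAt_fst.contMDiffAt.prodMk ((Dr59.contMDiffAt_chart_symm h3).comp z
        contDiffAt_snd.contMDiffAt))).contDiffAt
  · filter_upwards [tendsto_snd.eventually (extChartAt_source_mem_nhds (I := I) x)] with q hq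
    rw [(extChartAt I x).left_inv hq]

theorem cv_of_jAt {f : T → M → G} (h : ∀ x ∈ U, ∀ᶠ q in 𝓝 (t, x), JAt I f q.1 q.2)
    (hp : Tendsto p l (𝓝 t)) : Cv I l U (fun n => f (p n)) (f t) :=
  ⟨fun k x hx => mb_of_jAt (h x hx) hp k,
    fun x hx => (h x hx).self_of_nhds.left.continuousAt.tendsto.comp hp⟩

theorem vcv_of_vJ {X : T → VF I M} (h : ∀ x ∈ U, ∀ᶠ q in 𝓝 (t, x), VJ I X q.1 q.2)
    (hp : Tendsto p l (𝓝 t)) : Loc66.VCv l U (fun n => X (p n)) (X t) := by
  have k := fun x (hx : x ∈ U) => cv_of_jAt (I := I) (U := {x})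
    (f := fun s => Sob92.dv I (X s) (extChartAt I x)) (by
      rintro _ rfl
      exact ((h _ hx).and (Met55.ev_snd (chart_source_mem_nhds H _))).mono
        fun _ hq => (Met55.vJ_iff hq.2).1 hq.1) hp
  exact ⟨fun j x hx => (k x hx).mb j x rfl, fun x hx => (k x hx).pt x rfl⟩

end mf

/-! ### layers -/

variable {Z : Mf 4} {o : Z.M → Ext Z.E} {T ι lam : Type} [NormedAddCommGroup T] [NormedSpace ℝ T]
  [FiniteDimensional ℝ T] [Fintype ι] [Fintype lam] [DecidableEq lam] {Ω : Set (T × Z.M)}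
  {L : Lay Z o T ι Ω} (Λ : LLay L lam) {p : α → T} {t : T} {x : Z.M}

omit [FiniteDimensional ℝ T] in
theorem LLay.jAt_A (h : (t, x) ∈ Ω) (a : ι) : JAt Z.I (fun s => (Λ.ln s).A Z.I (L.e s) a) t x := by
  let K : Line51.Ln Z.E Z.M lam := ⟨Λ.p, 0⟩
  have hK : K.On Z.I univ :=
    ⟨(Λ.ok 0).sm, (Λ.ok 0).prj, (Λ.ok 0).tr, fun _ _ => Dr59.cAt_zero, Dr59.Dg.zero⟩
  refine JAt.congr (f := fun s y => ∑ b, L.S s y a b • K.A Z.I L.F0.e b y +
    Num57.e1 (Λ.a s y) (L.e s a y) • (Line51.iL lam ∘L K.l y))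
    ((Pj41.FSm.sum' fun b _ => (L.jAt_S h a b).smul (JAt.of_fixed
      (hK.sm_A isOpen_univ trivial (L.F0.sm b x)))).add ((Λ.jAt_a (L.sm t x h a)).smul
        (JAt.of_fixed (contMDiffAt_const.clm_comp (Line51.fsm_rl (hK.sm x trivial))))))
    (.of_forall fun z => ?_)
  rw [show Λ.ln z.1 = K.shift (Λ.a z.1) from congrArg (Line51.Ln.mk _) (zero_add _).symm]
  exact (Line51.A_shift _ a).trans (congrArg (· + _) ((Line51.A_comb _).trans
    (congrArg (fun v => Line51.rl (K.cm Z.I z.2 v)) (L.sum_S z.1 z.2 a))).symm)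

variable (hp : Tendsto p l (𝓝 t)) (h : ∀ x, Ω ∈ 𝓝 (t, x)) (h' : ∀ᶠ n in l, ∀ x, (p n, x) ∈ Ω)
include hp h h'

variable (L) in
theorem Lay.fcv : FCv l univ (fun n => L.F (p n)) (L.F t) := fun a => by
  have k := vcv_of_vJ (U := univ) (X := fun s => L.e s a)
    (fun x _ => eventually_of_mem (h x) fun q hq => L.sm _ _ hq a) hp
  rw [L.F_e fun x => mem_of_mem_nhds (h x)]
  exact ⟨fun j x hx => (k.mb j x hx).congr ((h'.prod_inl _).mono fun q hq => by rw [L.F_e hq]),
    fun x hx => (k.pt x hx).congr' (h'.mono fun n hn => by simp only [L.F_e hn])⟩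

theorem LLay.cv_a (a : ι) : Cv Z.I l univ (fun n => (Λ.G (p n)).a a) ((Λ.G t).a a) :=
  (cv_of_jAt (fun x _ => eventually_of_mem (h x) fun _ hq => Λ.jAt_A hq a) hp).congr' isOpen_univ
    (h'.mono fun n hn x _ => congrArg (fun e => (Λ.ln (p n)).A Z.I e a x) (L.F_e hn))
    fun x _ => congrArg (fun e => (Λ.ln t).A Z.I e a x) (L.F_e fun x => mem_of_mem_nhds (h x))

end Crest.Agent.X212.M
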