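import Crest.Agent.X212.Cmp73.Top
import Crest.Agent.X212.Pat85.Cor
import Crest.Agent.X212.Eqv71.Job

/-!
# Row 212, layer M: scenes exist
-/

set_option autoImplicit false
set_option linter.unusedSectionVars false
noncomputable section
open Set Function Filter Topology MeasureTheory
open scoped ContDiff Manifold Classical

namespace Crest.Agent.X212.M
open An An.Job Nd18 Cmp73 Eqv71 Shi84 Cyl58

variable {Wi : Type} {X : Mf 4} {A κ lam : Type} [Fintype A] [Fintype κ] [Fintype lam]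
  [DecidableEq lam] {M : Mark X A κ} {W : World M} {N : ML M lam} {Λ : Lns W N} {A' h : Type}
  [Fintype A'] [DecidableEq A'] [Fintype h] {r n : ℕ} {J : Job Wi Λ A' h r n}
  {Adm : (Wi →₀ ℝ) → Prop} {α : Type} {c c' c₀ : M.Cl} {F : Fam J α c c₀} (k : F.OK Adm)
include k

theorem fam_ov : J.Ov F.σ c₀ F.s₀ := ⟨J.cl_dom k.cell, k.inf⟩

theorem fam_lh (i : α) : Abel74.Lh (F.y i).x (J.B c) (J.G c (F.y i).s) :=
  let ⟨_, _, b⟩ := k.bd; (b i).g.lh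

variable (hJ : J.OK)
include hJ

theorem fam_tend : Tendsto F.p F.l (𝓝 F.p₀) := (hJ.sm.continuous.tendsto _).comp k.s

theorem fam_O (i : α) : F.p i ∈ M.O c.1 := hJ.memO k.mem (k.sol i).ov

theorem fam_O₀ : F.p₀ ∈ M.O c₀.1 := hJ.memO k.mem (fam_ov k)

theorem fam_Br₀ : F.p₀ ∈ M.Br c₀.1 := hJ.memBr k.mem (fam_ov k)

theorem fam_diff (h' : M.Up c' c₀) : c₀.1 \ c'.1 ⊆ J.m.1 := fun a ha =>
  let ⟨_, e⟩ := hJ.sub_hw k.mem (fam_ov k) ha.1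
  hJ.mem _ a e fun p => ha.2 (h'.2 a ha.1 p)

theorem sc_ok {S : F.Sc} (src : F.Src S) (ok : S.g.OK)
    (pb : ∀ i, PB S.B (S.G i) (J.B c) (J.G c (F.y i).s) (range S.j) S.j S.j' (S.U i) S.v (S.x i)
      (F.y i).x (S.u i)) (ad : ∀ i, Ad0 (S.x i) S.B (S.G i)) (oe : IsOE S.Y.I (W.Z c).I S.j)
    (jf : JF (C := W.toCaps) S.j S.f S.P)
    (tk : TK S.g (fun _ => S.t) (J.tp c₀) (M.sys.cores c₀.1)ᶜ) (rel : Rel2 S.t (J.tp c) univ S.j S.v)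
    (pt : ∀ x ∉ M.sys.cores c₀.1, S.t.p x = S.f (W.φ c₀ x))
    (nk : ∀ a e i ha, HN (C := W.toCaps) a (J.g a) (S.K a e i ha) S.j ((F.p i).2 a) (e.getD false) ∧
      NkR univ univ S.j (S.K a e i ha) (J.K c a e _ ha) 0 ∧ (J.K c a e _ ha).ψ.target ⊆ range S.j ∧
      ∀ f, SR univ S.j S.v ((S.K a e i ha).ext f) ((J.K c a e _ ha).ext f)) : S.OK := by
  obtain ⟨_, C, b⟩ := k.bd
  have bk : S.g.Bk S.x := ok.bk (Pat85.gaP (E' := EuclideanSpace ℝ (Fin 4))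
    (W.cvxOn c₀ (by simp)) (by simp) ok _) (hJ.tame k.mem (fam_ov k))
    (fun i => ⟨(ad i).ok, (ad i).conn, (ad i).sm, (ad i).pos, (pb i).z ▸ (b i).g.z⟩)
    ⟨√C, .of_forall fun i x => (pb i).nΦ x ▸ Real.le_sqrt_of_sq_le ((b i).g.le.Φ _)⟩
  refine ⟨src, ⟨bk, pb, fam_lh k⟩, oe, jf, tk, rel, pt, fun a e i ha => (nk a e i ha).1,
    fun a e ha => ?_, Job.wr hJ (fam_Br₀ k hJ) (fam_O₀ k hJ) jf k.sub (fam_tend k hJ)
      oe.continuous ok.fin⟩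
  have T := jf.nkS (H := S.H) (O := S.O) (fam_tend k hJ) ha k.sub (fam_Br₀ k hJ) (fam_O₀ k hJ)
    (fun i => (nk a e i (ha i)).1) (hJ.nk c₀ a · _)
  obtain ⟨O, h1, h2, h3⟩ := T.sep
  exact ⟨O, ⟨bk, pb, fam_lh k, h1⟩, fun i => (nk a e i _).2.1, fun i => (nk a e i _).2.2.1,
    fun i => (nk a e i _).2.2.2, T, h2, h3⟩

variable (hW : W.Nrm) (hΛ : Λ.Nrm)
include hW hΛ

theorem cy_ok (h' : M.Up c c₀) : (F.cy h').OK := by
  have hB := Λ.B_ok J.m c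
  have e : ∀ x v, trn ((J.B c).l x) v = trn ((J.B c).l x) ((J.B c).l x v) := fun x v => by
    rw [trn_of_sym (hB.lsym x), ← mul_apply_eq_comp, hB.lidem]
  have a := fun i => ad0 (k.sol i).sol.toAdm
  refine sc_ok k hJ (.cy h') (hΛ.cs_ok h' (fam_diff k hJ h') hW (fam_tend k hJ) (fam_O k hJ)
    (fam_Br₀ k hJ) (fam_O₀ k hJ)) (fun i => ?_) a .id (World.jf_up h')
    (hΛ.tk_cs h' (fam_diff k hJ h')) ⟨fun _ _ _ => rfl, fun _ _ _ => e _ _⟩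
    (fun x hx => (W.up_φ h' hx).symm) fun a b i ha => ⟨(hJ.nk ..).hn ha,
      nkR_refl _ fun _ k => (k trivial).elim, fun z _ => ⟨z, rfl⟩, fun _ _ _ => e _ _⟩
  have hG := Λ.G_ok J.m (fam_O k hJ i)
  exact pb_of_ceq (range_id.symm ▸ kg_refl hB hG isOpen_univ) denseRange_id (a i) (a i)
    (ceq_refl hB hG (a i) isOpen_univ)

theorem pn_ok (h : c.1 ⊆ c'.1) (h' : M.Up c' c₀) (hc : ∀ a ∈ c'.1, a ∉ c.1 → M.pin a) :
    ∃ e H O, (F.pn hJ h h' e H O).OK := by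
  have o := fam_O k hJ
  have e := fun a b i ha => act_fr (fam_tend k hJ) (k.act a b i ha) hc
    ⟨(fam_Br₀ k hJ).1, h'.1.trans (fam_Br₀ k hJ).2⟩
  obtain ⟨H, O, ok⟩ := Λ.exists_gs h h' hW hΛ (fam_diff k hJ h') F.l (fam_tend k hJ) o
    (fam_Br₀ k hJ) (fam_O₀ k hJ)
  have a := fun i => ad0 (k.sol i).sol.toAdm
  exact ⟨e, H, O, sc_ok k hJ (.pn hJ h h' e H O hc) ok
    (fun i => pb_pull (Λ.x_geq h J.m (o i)) (Λ.xB_ok J.m) (Λ.xG_ok h J.m (o i)) (Λ.B_ok J.m c)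
      (Λ.G_ok J.m (o i)) rfl (W.dense_xd h) (a i))
    (fun i => (pullC_spec (Λ.x_geq h J.m (o i)) (Λ.xB_ok J.m) (Λ.xG_ok h J.m (o i)) (Λ.B_ok J.m c)
      (Λ.G_ok J.m (o i)) rfl (a i)).1) (W.xd_oe h) (World.jf_xd h h')
    (hΛ.tk_gs h' (fam_diff k hJ h') h) (Λ.rel2_xt J.m h)
    (fun x hx => (Λ.xt_p J.m (Mark.cores_mono h'.1 hx)).trans (World.xf_φ h' hx).symm)
    fun a b i ha => have e := e a b i ha; have v := (hJ.xs a).1.vol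
      ⟨(hJ.nk ..).hn_xK h ha e v, (hJ.nk ..).nkR_xK h ha e v, (hJ.nk ..).sub_xd h ha e,
        (hJ.nk ..).sr_xK h ha e v⟩⟩

omit k in
/-- **SCN** -/
theorem scn : SCN J Adm := fun _ c c₀ _ k => ⟨cy_ok k hJ hW hΛ,
  let ⟨_, _, _, s⟩ := pn_ok (c' := ⟨{a ∈ c₀.1 | a ∈ c.1 ∨ M.pin a}, c₀.2.mono fun _ h => h.1⟩)
    k hJ hW hΛ (fun _ e => ⟨k.sub e, .inl e⟩) ⟨fun _ e => e.1, fun _ e p => ⟨e, .inr p⟩⟩
    fun _ e e' => e.2.resolve_left e'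
  ⟨_, s⟩⟩

end Crest.Agent.X212.M
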