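import Crest.Agent.X212.M.Wgw
import Crest.Agent.X212.Fin37.Defs

/-!
# Row 212, layer M: uniform weights of a job
-/

set_option autoImplicit false
set_option linter.unusedSectionVars false
set_option linter.dupNamespace false
noncomputable section
open Set Function Filter Topology MeasureTheory Real
open scoped ContDiff Manifold Classical ENNReal

namespace Crest.Agent.X212.An.Job
open M Nd18 Mp86 Fin37
open Dgr80 (LB)

variable {Wi : Type} {X : Mf 4} {A κ lam : Type} [Fintype A] [Fintype κ] [Fintype lam]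
  [DecidableEq lam] {M : Mark X A κ} {W : World M} {N : ML M lam} {Λ : Lns W N} {A' h : Type}
  [Fintype A'] [DecidableEq A'] [Fintype h] {r n : ℕ} {J : Job Wi Λ A' h r n} {c : M.Cl}
  {s : A' → ℝ}

variable (J c) in
/-- the weights centred at a point -/
def wx (s : A' → ℝ) (x y : (W.Z c).M) : ℝ := exp (-(dW A κ * (J.ux c (J.Θ s) x y + 0)))

theorem wx_le {x y : (W.Z c).M} : J.wx c s x y ≤ J.wt c (J.Θ s) x y :=
  le_add_of_nonneg_right (exp_pos _).le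

theorem off_eq : J.off c (J.Θ s) = core J c s 0 := Set.ext fun _ =>
  ⟨fun k i e => k _ _ i.2 (by rw [Nk.tgt]; exact Nka63.Dq_sub le_rfl e), fun k a b e e' =>
    k ⟨(a, b), e⟩ (by rw [Nk.tgt, ← Nka63.Dq_zero] at e'; exact e')⟩

variable (hJ : J.OK)
include hJ

theorem of_pm (h : Pm J c s) : J.Θ s ∈ M.Br c.1 ∧ J.Θ s ∈ M.O c.1 :=
  let ⟨σ, hσ, hs, e⟩ := h
  have k := hJ.par σ hσ s ⟨hs.1, fun a _ => (hs.2 a).2⟩
  ⟨⟨k, e.ge⟩, fun a ha => (k.1 a).2.lt_of_ne fun e' => ha.1 (e ▸ e')⟩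

theorem wc_wx {x : (W.Z c).M} : Wc (J.G c s).F (dW A κ * cW A κ) (J.wx c s x) :=
  (lb_sN hJ fun _ _ _ => c2_sa.shift _).exp dW_pos.le 0

theorem lb_wt (hV : VOL J) : ∃ v, ∀ c s, Pm J c s → ∀ x,
    LB (J.G c s).F.μ (J.wt c (J.Θ s) x) v := by
  obtain ⟨v, hv⟩ := hV
  refine ⟨2 * v + (J.cV (dW A κ)).toReal, fun c s h x => ?_⟩
  obtain ⟨hb, ho⟩ := of_pm hJ h
  have m := (wc_wt' (p := J.Θ s) hJ (x := x) (dW_pos (A := A) (κ := κ)).le).sm.continuous
    |>.aestronglyMeasurable (μ := (J.G c s).F.μ)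
  have p : 0 ≤ᵐ[(J.G c s).F.μ] J.wt c (J.Θ s) x := .of_forall fun _ => wt_pos.le
  have k := lint_wt' (J := J) (p := J.Θ s) (x := x) (dW_pos (A := A) (κ := κ)).le
  have f1 := ENNReal.mul_ne_top (a := 2) (by simp) (off_lt hJ hb ho).ne
  have f2 := (cV_lt (J := J) (dW_pos (A := A) (κ := κ))).ne
  have f := ENNReal.add_ne_top.2 ⟨f1, f2⟩
  refine ⟨⟨m, (hasFiniteIntegral_iff_ofReal p).2 (k.trans_lt f.lt_top)⟩, ?_⟩
  rw [integral_eq_lintegral_of_nonneg_ae p m]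
  refine (ENNReal.toReal_mono f k).trans ?_
  rw [ENNReal.toReal_add f1 f2, ENNReal.toReal_mul, off_eq]
  simpa [Measure.real] using hv c s h

/-- **WU** -/
theorem wu (hV : VOL J) {S : ℝ} (h0 : 0 < S) (hS : ∀ c s, Pm J c s → L4 (J.G c s).F.toPre S) :
    ∃ v, WU J J.wx S v := by
  obtain ⟨v, hv⟩ := lb_wt hJ hV
  have d := dW_pos (A := A) (κ := κ)
  refine ⟨v, fun c s h => ?_, fun c s x z => exp_le_one_iff.2 (neg_nonpos.2
    (mul_nonneg d.le (add_nonneg ux_nonneg le_rfl))), fun c s h x => (hv c s h x).mono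
      (wc_wx hJ).sm.continuous.aestronglyMeasurable (fun _ => (exp_pos _).le) fun _ => wx_le,
    fun L => ⟨_, exp_pos (-(dW A κ * (nN A * |L| + 0))), fun c s x z k => ?_⟩⟩
  · obtain ⟨hb, ho⟩ := of_pm hJ h
    refine ⟨(wts hJ hb ho (hS c s h) h0.le).bp, hS c s h, h0.le, fun x => (wc_wx hJ).wt
      (mul_nonneg d.le cW_nonneg) (by
        simpa using dW_le (A := A) (κ := κ) (s := 1) (le_add_of_nonneg_left (Nat.cast_nonneg _)))
      (squeeze_zero (fun _ => (exp_pos _).le) (fun _ => wx_le) (tend_wt' hJ hb ho d)),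
      fun x => by simp [wx, ux, sN, sa]⟩
  · exact exp_le_exp.2 (neg_le_neg (mul_le_mul_of_nonneg_left (add_le_add_left (sN_le (abs_nonneg _)
      fun a b e => (sa_le _).trans ((k ⟨(a, b), e⟩).trans (le_abs_self _))) _) d.le))

/-- the inputs of the weighted curvature bound for `J.wt / 2` -/
theorem half (hV : VOL J) : ∃ a, ∀ c s, Pm J c s → ∀ x,
    Sm (W.Z c).I (fun z => 2⁻¹ * J.wt c (J.Θ s) x z) ∧ (∀ z, |2⁻¹ * J.wt c (J.Θ s) x z| ≤ 1) ∧
    LB (J.G c s).F.μ (fun z => (2⁻¹ * J.wt c (J.Θ s) x z) ^ 2) a ∧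
    LB (J.G c s).F.μ (fun z => ∑ i, (J.G c s).F.D i (fun z => 2⁻¹ * J.wt c (J.Θ s) x z) z ^ 2) a := by
  obtain ⟨v, hv⟩ := lb_wt hJ hV
  refine ⟨v, fun c s h x => ?_⟩
  have w := wc_wt' (p := J.Θ s) hJ (x := x) (dW_pos (A := A) (κ := κ)).le
  have m : Sm (W.Z c).I fun z => 2⁻¹ * J.wt c (J.Θ s) x z := contMDiff_const.mul w.sm
  have b : ∀ z, 0 < J.wt c (J.Θ s) x z ∧ J.wt c (J.Θ s) x z ≤ 2 := fun z => ⟨wt_pos, wt_le⟩
  refine ⟨m, fun z => abs_le.2 ⟨by linarith [b z], by linarith [b z]⟩, (hv c s h x).mono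
    (m.continuous.pow 2).aestronglyMeasurable (fun _ => sq_nonneg _) fun z => by nlinarith [b z],
    (hv c s h x).mono (continuous_finsetSum _ fun i _ => (((J.G c s).F.sm_D m i).continuous.pow
      2)).aestronglyMeasurable (fun _ => Finset.sum_nonneg fun _ _ => sq_nonneg _) fun z => ?_⟩
  have g := w.gr (mul_nonneg dW_pos.le cW_nonneg) (by
    simpa using dW_le (A := A) (κ := κ) (s := 1) (le_add_of_nonneg_left (Nat.cast_nonneg _))) z
  have e : ∀ i, (J.G c s).F.D i (fun z => 2⁻¹ * J.wt c (J.Θ s) x z) z =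
      (J.G c s).F.D i (J.wt c (J.Θ s) x) z * (2⁻¹ * 1) := fun i =>
    D_comp w.sm ((hasDerivAt_id _).const_mul 2⁻¹) i
  simp only [e, mul_pow, ← Finset.sum_mul]
  change 16 * ∑ i, (J.G c s).F.D i (J.wt c (J.Θ s) x) z ^ 2 ≤ J.wt c (J.Θ s) x z ^ 2 at g
  nlinarith [b z]

end Crest.Agent.X212.An.Job
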