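import Crest.Agent.X212.M.Lxv

/-!
# Row 212, RF-LIX (helper20): solutions are anti-self-dual inside a broken lens wall
-/

set_option autoImplicit false
set_option linter.unusedSectionVars false
noncomputable section
open scoped Manifold ContDiff Topology
open Set Function Filter MeasureTheory

namespace Crest.Agent.X212.Lxv20
open An M G75 Lns95 Rf65 Ins26
open An.Job (Sol)

section job
variable {Wi : Type} {X : Mf 4} {A κ lam : Type} [Fintype A] [Fintype κ] [Fintype lam]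
  [DecidableEq lam] {M : Mark X A κ} {W : World M} {N : ML M lam} {Λ : Lns W N}
  {A' h : Type} [Fintype A'] [DecidableEq A'] [Fintype h] {r n : ℕ}
  {J : Job Wi Λ A' h r n} {c : M.Cl} {y : J.Obc c} {π : Reg A}

/-- anti-self-dual pieces -/
theorem ea_asd (hO : J.Θ y.s ∈ M.O c.1) (a : y.x.Adm (J.B c) (J.G c y.s)) (hπ : M.sys.Piece c.1 π)
    (i : IntegrableOn y.kd (W.pc c π) (J.G c y.s).F.μ)
    (e : ∀ z ∈ W.pc c π, y.x.m.p2 (J.B c) z (y.x.m.Fg (J.G c y.s).F y.x.W z) = 0) :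
    EA 0 y π ∧ 0 ≤ y.kap (W.pc c π) ∧ (y.kap (W.pc c π) = 0 → Fl y π) := by
  have o := (Cyl58.isClopen_pc W.toCaps hπ).isOpen
  have hG := Λ.G_ok J.m hO
  have k : EqOn (fun z => ‖y.x.m.Fg (J.G c y.s).F y.x.W z‖ ^ 2)
      (fun z => 128 * Real.pi ^ 2 * y.kd z) (W.pc c π) := fun z hz => by
    beta_reduce
    rw [Wz78.norm_Fg_sq hG a.conn (Λ.B_ok _ _), e z hz]
    simp
  have i1 := (integrableOn_congr_fun k o.measurableSet).2 (i.const_mul _)
  have a0 : 0 ≤ ∫ z in W.pc c π, ‖y.x.m.Fg (J.G c y.s).F y.x.W z‖ ^ 2 ∂(J.G c y.s).F.μ :=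
    integral_nonneg fun _ => sq_nonneg _
  have a1 := (setIntegral_congr_fun (μ := (J.G c y.s).F.μ) o.measurableSet k).trans
    (integral_const_mul _ _)
  refine ⟨⟨i1, ?_⟩, nonneg_of_mul_nonneg_right (a := 128 * Real.pi ^ 2) (a1 ▸ a0) (by positivity),
    fun k0 z hz => ?_⟩
  · rw [setIntegral_eq_zero_of_forall_eq_zero fun z hz => by simp [e z hz]]
    simp
  · have := Cht98.openPos (J.G c y.s).F.toPre
    have f := ((Mp86.sm_Fg (Λ.B_ok _ _) hG a.ok a.conn).continuous.norm.pow 2).continuousOn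
      (s := W.pc c π)
    simpa using Measure.eqOn_open_of_ae_eq ((integral_eq_zero_iff_of_nonneg (fun _ => sq_nonneg _)
      i1).1 (a1.trans (mul_eq_zero_of_right _ k0))) o f continuousOn_const hz

end job

variable {κ lam : Type} [Fintype κ] [Fintype lam] [DecidableEq lam] {Lm : LM κ lam}
  {S : Scene Lm} {D : S.Dat} {i : S.L} {Wi : Type} {r n : ℕ}
  {J : Job Wi (D.Λ i) (S.A ⊕ Unit) S.ls r n} {X : Finset S.A} {a₀ : Option S.A} {j : ℕ} {n₀ : ℤ}
  {T : ℝ} (G : GX J X a₀ j n₀ T) {c : S.M.Cl} {l : S.ls} (hl : l.1 ∈ c.1)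
  {σ : Cel (S.A ⊕ Unit)} (hσ : σ ∈ J.𝒦) (hL : ∃ K : LOK Lm 4, ∀ σ, |K.k σ| ≤ 4)
  {q : Wi →₀ ℝ} {y : J.Obc c} (h : Sol σ q y)
include G hl hσ hL h

theorem asd : ∀ z ∈ D.W.pc c (hp l.1 false),
    y.x.m.p2 (J.B c) z (y.x.m.Fg (J.G c y.s).F y.x.W z) = 0 := fun z hz => by
  have e := h.sol.C z
  rw [Cfg.eC, (qt G hl hσ h.cell h.ov q _ z hz).2, sub_zero, show y.x.Φ z = 0 from
    by_contra fun k => van G hl hσ hL h ⟨z, hz, k⟩, sub_eq_zero] at e
  rw [e]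
  simp [Md.mu, Md.q, rk1, ← Pi.zero_def]

/-- **EPS inside a broken lens wall** -/
theorem ea : EA 0 y (hp l.1 false) ∧ 0 ≤ y.kap (D.W.pc c (hp l.1 false)) ∧
    (y.kap (D.W.pc c (hp l.1 false)) = 0 → Fl y (hp l.1 false)) :=
  ea_asd (G.ok.memO hσ h.ov) h.sol.toAdm (Lix26.piece G.sc l hl) h.int.integrableOn
    (asd G hl hσ hL h)

end Crest.Agent.X212.Lxv20
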