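import Crest.Agent.X212.M.Nkc
import Crest.Agent.X212.Mp86.Bd
import Crest.Agent.X212.Dgr80.Win

/-!
# Row 212, layer M: exponential weights on manifolds with necks
-/

set_option autoImplicit false
set_option linter.unusedSectionVars false
set_option linter.dupNamespace false
noncomputable section
open Set Function Filter Topology MeasureTheory Real
open scoped ContDiff Manifold ENNReal

namespace Crest.Agent.X212.M
open An Cmp73 Nd18 Mp86

/-! ### functions of one variable -/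

/-- smooth with first and second derivative bounded by one -/
def C2 (f : ℝ → ℝ) : Prop := ContDiff ℝ ∞ f ∧ ∃ f' f'' : ℝ → ℝ, ∀ t, HasDerivAt f (f' t) t ∧
  HasDerivAt f' (f'' t) t ∧ |f' t| ≤ 1 ∧ |f'' t| ≤ 1

theorem C2.shift {f : ℝ → ℝ} (h : C2 f) (a : ℝ) : C2 fun t => f (t - a) :=
  let ⟨h1, f', f'', h2⟩ := h
  ⟨h1.comp (contDiff_id.sub contDiff_const), fun t => f' (t - a), fun t => f'' (t - a), fun t =>
    ⟨(h2 _).1.comp_sub_const t a, (h2 _).2.1.comp_sub_const t a, (h2 _).2.2⟩⟩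

theorem C2.sub {f : ℝ → ℝ} (h : C2 f) (a : ℝ) : C2 fun t => a - f t :=
  let ⟨h1, f', f'', h2⟩ := h
  ⟨contDiff_const.sub h1, fun t => -f' t, fun t => -f'' t, fun t =>
    ⟨(h2 t).1.const_sub a, (h2 t).2.1.neg, by simpa using (h2 t).2.2⟩⟩

/-- a smooth absolute value -/
def sa (s : ℝ) : ℝ := √(1 + s ^ 2) - 1

theorem one_le_sq (s : ℝ) : 1 ≤ √(1 + s ^ 2) := one_le_sqrt.2 (by linarith [sq_nonneg s])

theorem sa_nonneg (s : ℝ) : 0 ≤ sa s := sub_nonneg.2 (one_le_sq s)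

theorem le_sa (s : ℝ) : |s| - 1 ≤ sa s := sub_le_sub_right (abs_le_sqrt (by linarith)) 1

theorem sa_sub {s t : ℝ} (h : |s| ≤ t) : 0 ≤ sa t - sa s ∧ sa t - sa s ≤ t - |s| := by
  have h0 := abs_nonneg s
  have h1 := abs_le_sqrt (x := s) (y := 1 + s ^ 2) (by linarith)
  have h2 := sq_sqrt (show 0 ≤ 1 + s ^ 2 by positivity)
  have h3 := sq_abs s
  refine ⟨sub_nonneg.2 (sub_le_sub_right (sqrt_le_sqrt (by nlinarith)) 1), ?_⟩
  have : √(1 + t ^ 2) ≤ √(1 + s ^ 2) + (t - |s|) := sqrt_le_iff.2 ⟨by linarith, by nlinarith⟩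
  simp only [sa]; linarith

theorem sa_le (s : ℝ) : sa s ≤ |s| := by
  simpa [sa] using (sa_sub (s := 0) (t := |s|) (by simp)).2

theorem c2_sa : C2 sa := by
  have p : ∀ s : ℝ, 1 + s ^ 2 ≠ 0 := fun s => by positivity
  have d : ∀ s : ℝ, HasDerivAt (fun s => √(1 + s ^ 2)) (s / √(1 + s ^ 2)) s := fun s => by
    convert ((hasDerivAt_pow 2 s).const_add 1).sqrt (p s) using 1
    have := one_le_sq s
    field_simp; simp [mul_comm]
  refine ⟨(ContDiff.sqrt (by fun_prop) p).sub contDiff_const, fun s => s / √(1 + s ^ 2),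
    fun s => (√(1 + s ^ 2) ^ 3)⁻¹, fun s => ?_⟩
  have h1 := one_le_sq s
  have h2 := sq_sqrt (show 0 ≤ 1 + s ^ 2 by positivity)
  refine ⟨(d s).sub_const 1, ?_, ?_, ?_⟩
  · refine ((hasDerivAt_id' s).fun_div (d s) (by linarith)).congr_deriv ?_
    field_simp; linarith
  · rw [abs_div, abs_of_pos (a := √_) (by linarith), div_le_one (by linarith)]
    exact abs_le_sqrt (by linarith)
  · rw [abs_of_pos (by positivity)]; exact inv_le_one_of_one_le₀ (one_le_pow₀ h1)

/-- the depth -/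
def dpf : Option ℝ → Option ℝ → ℝ → ℝ
  | some a, some b => fun t => sa ((b - a) / 2) - sa (t - (a + b) / 2)
  | some a, none => fun t => sa (t - a)
  | none, o => fun t => sa (t - o.getD 0)

section time
variable {p q : Option ℝ} {t : ℝ}

theorem c2_dpf : C2 (dpf p q) := by
  rcases p with _ | a <;> rcases q with _ | b
  exacts [c2_sa.shift _, c2_sa.shift _, c2_sa.shift _, (c2_sa.shift _).sub _]

theorem dpf_bd (h : t ∈ Dp p q 0) : 0 ≤ dpf p q t ∧ (∀ a ∈ p, dpf p q t ≤ t - a) ∧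
    (∀ b ∈ q, dpf p q t ≤ b - t) ∧
      (|t - p.getD 0| - 1 ≤ dpf p q t ∨ |t - q.getD 0| - 1 ≤ dpf p q t) := by
  rcases p with _ | a <;> rcases q with _ | b
  · exact ⟨sa_nonneg _, nofun, nofun, .inl (le_sa _)⟩
  · refine ⟨sa_nonneg _, nofun, fun _ e => ?_, .inr (le_sa _)⟩
    cases e
    exact (sa_le _).trans_eq ((abs_of_nonpos (by linarith [h.2 b rfl, show (some b).getD 0 = b
      from rfl])).trans (neg_sub _ _))
  · refine ⟨sa_nonneg _, fun _ e => ?_, nofun, .inl (le_sa _)⟩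
    cases e
    exact (sa_le _).trans_eq (abs_of_nonneg (by linarith [h.1 a rfl]))
  · have h1 := h.1 a rfl
    have h2 := h.2 b rfl
    have k := sa_sub (s := t - (a + b) / 2) (t := (b - a) / 2) (abs_le.2 ⟨by linarith, by linarith⟩)
    have k1 := le_sa ((b - a) / 2)
    have k2 := sa_le (t - (a + b) / 2)
    rw [abs_of_nonneg (by linarith)] at k1
    simp only [dpf, Option.getD_some, Option.mem_def, Option.some.injEq, forall_eq']
    rw [abs_of_nonneg (a := t - a) (by linarith), abs_of_nonpos (a := t - b) (by linarith)]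
    rcases abs_cases (t - (a + b) / 2) with e | e <;> rw [e.1] at k k2 <;>
      refine ⟨k.1, by linarith, by linarith, ?_⟩
    exacts [.inr (by linarith), .inl (by linarith)]

theorem fl_bd (x : ℝ) : (0 ≤ x - fl x ∨ 1 ≤ x) ∧ (x < 1 → x - fl x ≤ 1) ∧ (0 ≤ x → |fl x| ≤ 1) := by
  have h1 := smoothTransition.nonneg (2 * x - 1)
  have h2 := smoothTransition.le_one (2 * x - 1)
  rcases le_total x (1 / 2) with h | h
  · rw [fl_le h]
    exact ⟨.inl (by linarith), fun _ => by linarith, fun k => by rw [abs_of_nonneg k]; linarith⟩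
  rcases le_total 1 x with k | k
  · rw [fl_ge k]; exact ⟨.inr k, fun e => by linarith, fun _ => by simp⟩
  · rw [fl]
    exact ⟨.inl (by nlinarith), fun _ => by nlinarith, fun _ => abs_le.2 ⟨by nlinarith, by nlinarith⟩⟩

theorem tf_bd (hl : ∀ a ∈ p, ∀ b ∈ q, a + 2 ≤ b) (s : ℝ) : tf p q s ∈ Dp p q 0 ∧
    (s ∈ Jv p q → |tf p q s - s| ≤ 1) ∧ (s ∉ Jv p q → tf p q s ∈ p ∨ tf p q s ∈ q) := by
  by_cases h : s ∈ Dp p q 1
  · rw [tf_eq h]
    exact ⟨Dp_mono zero_le_one h, fun _ => by simp, fun k => (k (Dp_sub one_pos h)).elim⟩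
  rcases not_Dp h with ⟨a, rfl, k⟩ | ⟨b, rfl, k⟩
  · have h2 : (q.elim 0 fun b => fl (b - s)) = 0 := by
      cases q with
      | none => rfl
      | some b => exact fl_ge (by linarith [hl a rfl b rfl])
    obtain ⟨k1, k2, k3⟩ := fl_bd (s - a)
    rw [tf, h2, Option.elim_some, add_zero]
    refine ⟨⟨fun _ e => by cases e; linarith [k1.resolve_right (by linarith)], fun b e => by
      linarith [hl a rfl b e, k2 (by linarith)]⟩, fun e => by
        simpa using k3 (by linarith [e.1 a rfl]), fun e => .inl ?_⟩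
    rw [fl_le (by_contra fun e' => e ⟨fun _ e => by cases e; linarith, fun b e => by
      linarith [hl a rfl b e]⟩)]
    simp
  · have h2 : (p.elim 0 fun a => fl (s - a)) = 0 := by
      cases p with
      | none => rfl
      | some a => exact fl_ge (by linarith [hl a rfl b rfl])
    obtain ⟨k1, k2, k3⟩ := fl_bd (b - s)
    rw [tf, h2, Option.elim_some, sub_zero]
    refine ⟨⟨fun a e => by linarith [hl a e b rfl, k2 (by linarith)], fun _ e => by
      cases e; linarith [k1.resolve_right (by linarith)]⟩, fun e => by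
        simpa using k3 (by linarith [e.2 b rfl]), fun e => .inr ?_⟩
    rw [fl_le (by_contra fun e' => e ⟨fun a e => by linarith [hl a e b rfl], fun _ e => by
      cases e; linarith⟩)]
    simp

end time

/-- the integral of `exp (-δ |t|)` -/
def eI (δ : ℝ) : ℝ≥0∞ := ∫⁻ t, ENNReal.ofReal (exp (-(δ * |t|)))

theorem eI_lt {δ : ℝ} (hδ : 0 < δ) : eI δ < ⊤ :=
  (lintegral_mono fun t => ENNReal.ofReal_le_ofReal (by
    have := Dgr80.b_ge hδ t
    rw [div_mul_eq_mul_div, div_le_iff₀ four_pos] at this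
    rw [le_div_iff₀' hδ]; linarith : _ ≤ Dgr80.b δ t * 4 / δ)).trans_lt
    (((Dgr80.integrable_b hδ).mul_const 4).div_const δ).lintegral_lt_top

variable {E : Type} [NormedAddCommGroup E] [NormedSpace ℝ E] [FiniteDimensional ℝ E]
  [MeasurableSpace E] [BorelSpace E]
  {HM : Type} [TopologicalSpace HM] {I : ModelWithCorners ℝ E HM} [I.Boundaryless]
  {M : Type} [TopologicalSpace M] [ChartedSpace HM M] [IsManifold I ∞ M] [MeasurableSpace M]
  [BorelSpace M] [T2Space M] [SecondCountableTopology M] {lam : Type} [Fintype lam]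

/-! ### weights -/

section wt
variable {ι : Type} [Fintype ι] {F : Fr I M ι} {C α δ : ℝ} {u w w' : M → ℝ}

variable (F C u) in
/-- bounded gradient and Laplacian -/
structure Lb : Prop where
  sm : Sm I u
  D : ∀ a x, |F.D a u x| ≤ C
  L : ∀ x, |Lop I F.e F.dv u x| ≤ C

theorem Lb.mono (h : Lb F C u) {C' : ℝ} (e : C ≤ C') : Lb F C' u :=
  ⟨h.sm, fun a x => (h.D a x).trans e, fun x => (h.L x).trans e⟩

theorem Lb.zero (h : 0 ≤ C) : Lb F C fun _ => 0 :=
  ⟨contMDiff_const, fun a x => by simpa [Pre.D] using h, fun x => by simpa [Lop_const] using h⟩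

theorem Lb.sum {J : Type} [Fintype J] {u : J → M → ℝ} (h : ∀ j, Lb F C (u j)) :
    Lb F (Fintype.card J * C) fun x => ∑ j, u j x := by
  have k : ∀ {f : J → ℝ}, (∀ j, |f j| ≤ C) → |∑ j, f j| ≤ Fintype.card J * C := fun hf =>
    (Finset.abs_sum_le_sum_abs _ _).trans ((Finset.sum_le_card_nsmul _ _ _ fun j _ =>
      hf j).trans_eq (nsmul_eq_mul _ _))
  refine ⟨contMDiff_finsetSum fun j _ => (h j).sm, fun a x => ?_, fun x => ?_⟩
  · exact (congrArg abs (Mp86.dv_sum _ fun j _ => (cm1 (h j).sm x).md le_rfl)).trans_le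
      (k fun j => (h j).D a x)
  · rw [Lop_sum _ (vf F.toPre x) fun j _ => cm2 (h j).sm x]; exact k fun j => (h j).L x

theorem Lb.sq (h : Lb F C u) (x : M) : ∑ a, F.D a u x ^ 2 ≤ Fintype.card ι * C ^ 2 :=
  (Finset.sum_le_card_nsmul _ _ _ fun a _ => sq_le_sq' (abs_le.1 (h.D a x)).1
    (abs_le.1 (h.D a x)).2).trans_eq (nsmul_eq_mul _ _)

theorem D_comp (h : Sm I u) {f : ℝ → ℝ} {f' : ℝ} {x : M} (hf : HasDerivAt f f' (u x)) (a : ι) :
    F.D a (fun y => f (u y)) x = F.D a u x * f' :=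
  Mp86.dv_comp hf.hasFDerivAt ((cm1 h x).md le_rfl)

theorem Lb.comp (h : Lb F C u) {f : ℝ → ℝ} (hf : C2 f) :
    Lb F (Fintype.card ι * C ^ 2 + |C|) fun x => f (u x) := by
  obtain ⟨h1, f', f'', h2⟩ := hf
  have p : 0 ≤ Fintype.card ι * C ^ 2 := by positivity
  refine ⟨h1.contMDiff.comp h.sm, fun a x => ?_, fun x => ?_⟩
  · rw [D_comp h.sm (h2 _).1, abs_mul]
    linarith [mul_le_mul ((h.D a x).trans (le_abs_self C)) (h2 (u x)).2.2.1 (abs_nonneg _)
      (abs_nonneg _)]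
  · rw [Lop_comp (vf F.toPre x) (cm2 h.sm x) (.of_forall fun t => (h2 t).1) (h2 _).2.1]
    refine (abs_add_le _ _).trans (add_le_add ?_ ?_) <;> rw [abs_mul]
    · rw [abs_of_nonneg (a := ∑ _, _) (Finset.sum_nonneg fun _ _ => sq_nonneg _)]
      exact (mul_le_of_le_one_left (Finset.sum_nonneg fun _ _ => sq_nonneg _)
        (h2 _).2.2.2).trans (h.sq x)
    · exact (mul_le_of_le_one_left (abs_nonneg _) (h2 _).2.2.1).trans
        ((h.L x).trans (le_abs_self C))

variable (F α w) in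
/-- small logarithmic derivatives -/
structure Wc : Prop where
  sm : Sm I w
  pos : ∀ x, 0 < w x
  D : ∀ a x, |F.D a w x| ≤ α * w x
  L : ∀ x, -(α * w x) ≤ Lop I F.e F.dv w x

theorem Lb.exp (h : Lb F C u) (hδ : 0 ≤ δ) (c : ℝ) :
    Wc F (δ * C) fun x => exp (-(δ * (u x + c))) := by
  have d : ∀ t, HasDerivAt (fun t => Real.exp (-(δ * (t + c)))) (Real.exp (-(δ * (t + c))) * -δ) t :=
    fun t => by simpa using (((hasDerivAt_id t).add_const c).const_mul δ).neg.exp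
  refine ⟨(show ContDiff ℝ ∞ fun t => Real.exp (-(δ * (t + c))) by fun_prop).contMDiff.comp h.sm,
    fun _ => exp_pos _, fun a x => ?_, fun x => ?_⟩
  · rw [D_comp h.sm (d _), abs_mul, abs_mul, abs_neg, abs_of_nonneg hδ, abs_of_pos (exp_pos _)]
    nlinarith [mul_le_mul_of_nonneg_right (h.D a x) (mul_nonneg (exp_pos (-(δ * (u x + c)))).le hδ)]
  · rw [Lop_comp (vf F.toPre x) (cm2 h.sm x) (.of_forall d) ((d _).mul_const _)]
    have e := mul_nonneg (exp_pos (-(δ * (u x + c)))).le hδ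
    nlinarith [mul_le_mul_of_nonneg_right (abs_le.1 (h.L x)).2 e, mul_nonneg (mul_nonneg e hδ)
      (Finset.sum_nonneg fun a (_ : a ∈ Finset.univ) => sq_nonneg (Sob92.dv I (F.e a) u x))]

theorem Wc.add (h : Wc F α w) (h' : Wc F α w') : Wc F α fun x => w x + w' x := by
  refine ⟨h.sm.add h'.sm, fun x => add_pos (h.pos x) (h'.pos x), fun a x => ?_, fun x => ?_⟩
  · refine (congrArg abs (Mp86.dv_add ((cm1 h.sm x).md le_rfl) ((cm1 h'.sm x).md le_rfl))).trans_le
      ((abs_add_le _ _).trans ?_)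
    rw [mul_add]; exact add_le_add (h.D a x) (h'.D a x)
  · rw [Lop_add (vf F.toPre x) (cm2 h.sm x) (cm2 h'.sm x)]; linarith [h.L x, h'.L x]

variable (h : Wc F α w) (h0 : 0 ≤ α) (hα : 4 * (Fintype.card ι + 1) * α ≤ 1)
include h h0 hα

theorem Wc.gr (x : M) : 16 * ∑ a, F.D a w x ^ 2 ≤ w x ^ 2 := by
  have k := (Finset.sum_le_card_nsmul _ _ _ fun a (_ : a ∈ Finset.univ) => sq_le_sq'
    (abs_le.1 (h.D a x)).1 (abs_le.1 (h.D a x)).2).trans_eq (nsmul_eq_mul _ _)
  have n : (0 : ℝ) ≤ Fintype.card ι := Nat.cast_nonneg _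
  have k1 : 16 * Fintype.card ι * α ^ 2 ≤ 1 := by
    nlinarith [pow_le_one₀ (n := 2) (by positivity) hα, mul_nonneg n (sq_nonneg α), sq_nonneg α,
      mul_nonneg (mul_nonneg n n) (sq_nonneg α)]
  rw [Finset.card_univ] at k
  nlinarith [mul_le_mul_of_nonneg_right k1 (sq_nonneg (w x))]

theorem Wc.wt (hl : Tendsto w (cocompact M) (𝓝 0)) : Wt F w :=
  ⟨h.sm, h.pos, hl, h.gr h0 hα, fun x => le_trans (by
    have n : (0 : ℝ) ≤ Fintype.card ι := Nat.cast_nonneg _
    nlinarith [h.pos x, mul_nonneg n h0]) (h.L x)⟩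

theorem Wc.wg (h1 : ∀ x, w x ≤ 1) (hi : ∫⁻ x, ENNReal.ofReal (w x) ∂F.μ < ⊤) : Wg F w :=
  ⟨h.sm, h.pos, h.gr h0 hα, (lintegral_mono fun x => by
    rw [Real.enorm_eq_ofReal (h.pos x).le, ← ENNReal.ofReal_pow (h.pos x).le]
    exact ENNReal.ofReal_le_ofReal (pow_le_of_le_one (h.pos x).le (h1 x) (by norm_num))).trans_lt hi⟩

end wt

/-! ### necks -/

variable {E3 : Type} [NormedAddCommGroup E3] [NormedSpace ℝ E3] [FiniteDimensional ℝ E3]
  [MeasurableSpace E3] [BorelSpace E3]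
  {H3 : Type} [TopologicalSpace H3] {I3 : ModelWithCorners ℝ E3 H3} [I3.Boundaryless]
  {Y : Type} [TopologicalSpace Y] [ChartedSpace H3 Y] [IsManifold I3 ∞ Y] [T2Space Y]
  [MeasurableSpace Y] [BorelSpace Y] [SecondCountableTopology Y] [CompactSpace Y]
  {κ : Type} [Fintype κ] {D : YD I3 Y κ lam} {B : Base M (Option κ) lam}
  {G : Geo I M (Option κ) lam} (K : Nk D B G) {x : M}

/-- the constant of the time functions -/
def cτ : ℝ := |bd_dtf.choose 1|

theorem lb_τ (hD : D.Z.IsVol) (hG : G.F.IsVol) : Lb G.F cτ K.τ := by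
  have h := bd_dtf.choose_spec K.p K.q
  have k : G.F.CB 1 (G.F.D none K.τ) cτ := by
    rw [K.D_τ_none, ← K.push_time one_half_pos fun _ => dtf_zero K]
    exact (K.CBs_push one_half_pos (h.cyl D.F.toPre) fun _ => dtf_zero K).2 1
  refine ⟨K.sm_τ, fun a x => ?_, fun x => ?_⟩
  · cases a
    · exact k [] zero_le_one x
    · rw [K.D_τ_some]; simp [cτ]
  · have e : G.F.dv none x • G.F.D none K.τ x = 0 := by
      by_cases hx : x ∈ K.ψ.target
      · rw [K.rel'.dv hx hG hD]; exact zero_smul _ _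
      · rw [K.D_τ_none]
        exact smul_eq_zero_of_right _ (dtf_zero K fun e => hx (K.dp_sub one_half_pos e))
    have e' : ∀ a, G.F.D (some a) (G.F.D (some a) K.τ) x + G.F.dv (some a) x •
        G.F.D (some a) K.τ x = 0 := fun a => by
      rw [K.D_τ_some]; simp [Pre.D, Sob92.dv_zero]
    refine (congrArg abs ((Fintype.sum_option _).trans ((congrArg₂ (· + ·) (congrArg₂ (· + ·) rfl e)
      (Finset.sum_eq_zero fun a _ => e' a)).trans (by rw [add_zero, add_zero]; rfl)))).trans_le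
      (k [none] le_rfl x)

/-- the depth of a point in the neck -/
def dep (x : M) : ℝ := dpf K.p K.q (K.τ x)

theorem dep_nonneg (x : M) : 0 ≤ dep K x := (dpf_bd (tf_bd K.len _).1).1

theorem dep_off (hx : x ∉ K.ψ.target) : dep K x ≤ 0 := by
  have k := dpf_bd (tf_bd K.len (K.tm x)).1
  rw [K.tgt] at hx
  exact ((tf_bd K.len _).2.2 hx).elim (fun e => (k.2.1 _ e).trans_eq (sub_self _))
    fun e => (k.2.2.1 _ e).trans_eq (sub_self _)

theorem dep_le_len {a b : ℝ} (ha : a ∈ K.p) (hb : b ∈ K.q) (x : M) : dep K x ≤ b - a :=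
  have k := (tf_bd K.len (K.tm x)).1
  ((dpf_bd k).2.1 a ha).trans (by linarith [k.2 b hb])

theorem abs_τ_sub (hx : x ∈ K.ψ.target) : |K.τ x - K.tm x| ≤ 1 :=
  (tf_bd K.len _).2.1 (by rwa [K.tgt] at hx)

theorem dep_le (hx : x ∈ K.ψ.target) : (∀ a ∈ K.p, dep K x ≤ K.tm x - a + 1) ∧
    (∀ b ∈ K.q, dep K x ≤ b - K.tm x + 1) ∧
      (|K.tm x - K.p.getD 0| - 2 ≤ dep K x ∨ |K.tm x - K.q.getD 0| - 2 ≤ dep K x) := by
  have k := dpf_bd (tf_bd K.len (K.tm x)).1
  have e := abs_τ_sub K hx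
  have e' : ∀ a, |K.tm x - a| - 1 ≤ |K.τ x - a| := fun a => by
    linarith [abs_sub_le (K.tm x) (K.τ x) a, abs_sub_comm (K.tm x) (K.τ x)]
  change _ ∧ (∀ a ∈ K.p, dep K x ≤ K.τ x - a) ∧ (∀ b ∈ K.q, dep K x ≤ b - K.τ x) ∧
    (|K.τ x - K.p.getD 0| - 1 ≤ dep K x ∨ |K.τ x - K.q.getD 0| - 1 ≤ dep K x) at k
  exact ⟨fun a ha => by linarith [(abs_le.1 e).2, k.2.1 a ha],
    fun a ha => by linarith [(abs_le.1 e).1, k.2.2.1 a ha], k.2.2.2.imp
      (fun h => by linarith [e' (K.p.getD 0)]) fun h => by linarith [e' (K.q.getD 0)]⟩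

/-- integrals of functions of the time -/
theorem lint_tm {f : ℝ → ℝ≥0∞} (hf : Measurable f) :
    ∫⁻ x in K.ψ.target, f (K.tm x) ∂G.F.μ ≤ D.F.μ univ * ∫⁻ t, f t := by
  have m := K.ψ.open_source.measurableSet
  rw [← K.iso.μ, lintegral_map' (f := fun x => f (K.tm x)) (hf.comp K.cont.measurable).aemeasurable
    (K.ψ.continuousOn.aemeasurable m), setLIntegral_congr_fun m fun z hz => by rw [K.tm_ψ z hz]]
  refine (setLIntegral_le_lintegral _ _).trans_eq ?_
  have := D.F.fin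
  exact (lintegral_prod _ (hf.comp measurable_snd).aemeasurable).trans (by
    simp only [comp_apply, lintegral_const, mul_comm])

/-- the majorant of the weights on a neck -/
def maj (δ t₀ t : ℝ) : ℝ := exp (2 * δ) * (exp (-(δ * |t - t₀|)) +
  exp (-(δ * |t - K.p.getD 0|)) + exp (-(δ * |t - K.q.getD 0|)))

theorem le_maj {δ : ℝ} (hδ : 0 ≤ δ) (hx : x ∈ K.ψ.target) (t₀ : ℝ) :
    exp (-(δ * sa (K.τ x - t₀))) + exp (-(δ * dep K x)) ≤ maj K δ t₀ (K.tm x) := by
  have k : ∀ {u v : ℝ}, v - 2 ≤ u → exp (-(δ * u)) ≤ exp (2 * δ) * exp (-(δ * v)) := fun h => by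
    rw [← exp_add]; exact exp_le_exp.2 (by nlinarith)
  have p : ∀ v, 0 ≤ exp (2 * δ) * exp (-(δ * v)) := fun _ => by positivity
  have k1 := k (u := sa (K.τ x - t₀)) (v := |K.tm x - t₀|) (by
    linarith [le_sa (K.τ x - t₀), abs_sub_le (K.tm x) (K.τ x) t₀, abs_sub_comm (K.tm x) (K.τ x),
      abs_τ_sub K hx])
  rw [maj, mul_add, mul_add]
  rcases (dep_le K hx).2.2 with e | e <;>
    linarith [k e, p |K.tm x - K.p.getD 0|, p |K.tm x - K.q.getD 0|]

theorem lint_maj (δ t₀ : ℝ) : ∫⁻ x in K.ψ.target, ENNReal.ofReal (maj K δ t₀ (K.tm x)) ∂G.F.μ ≤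
    D.F.μ univ * (ENNReal.ofReal (exp (2 * δ)) * (3 * eI δ)) := by
  have m : ∀ a, Measurable fun t => ENNReal.ofReal (exp (-(δ * |t - a|))) := fun a => by fun_prop
  have e : ∀ a, ∫⁻ t, ENNReal.ofReal (exp (-(δ * |t - a|))) = eI δ := fun a =>
    lintegral_sub_right_eq_self (fun t => ENNReal.ofReal (exp (-(δ * |t|)))) a
  refine (lint_tm K (f := fun t => ENNReal.ofReal (maj K δ t₀ t)) (by unfold maj; fun_prop)).trans_eq
    (congrArg _ ?_)
  simp only [maj, ENNReal.ofReal_mul (exp_pos _).le, ENNReal.ofReal_add (add_pos (exp_pos _)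
    (exp_pos _)).le (exp_pos _).le, ENNReal.ofReal_add (exp_pos _).le (exp_pos _).le]
  rw [lintegral_const_mul _ (by fun_prop), lintegral_add_right _ (m _),
    lintegral_add_right _ (m _), e, e, e]
  ring

theorem tend_maj {δ : ℝ} (hδ : 0 < δ) (t₀ : ℝ) : Tendsto (maj K δ t₀) (cocompact ℝ) (𝓝 0) := by
  have k : ∀ a, Tendsto (fun t => exp (-(δ * |t - a|))) (cocompact ℝ) (𝓝 0) := fun a =>
    tendsto_exp_neg_atTop_nhds_zero.comp ((tendsto_norm_cocompact_atTop.comp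
      (Homeomorph.subRight a).toCocompactMap.cocompact_tendsto').const_mul_atTop hδ)
  exact ((((k t₀).add (k _)).add (k _)).const_mul _).mono_right (by simp)

end Crest.Agent.X212.M
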