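import Crest.Agent.X212.M.Geq

/-!
# Row 212, layer M: the layers of `Z c` seen on `Z c'` off the centres, `c ⊆ c'`
-/

set_option autoImplicit false
set_option linter.unusedSectionVars false
set_option linter.dupNamespace false
noncomputable section
open Set Function Filter Topology Module Matrix
open scoped ContDiff Manifold InnerProductSpace
open Crest.Agent.R208.F (Ext pb)

namespace Crest.Agent.X212.M
open An Cyl58 Cyf70 Int54 Prm93
open Met55 (Sp VF VJ FAt fP atx rFr IsP pbv cF msk rotU)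
open Line51 (Ln Uni)
open Dr59 (mf Mp)
open Pj41 (FRel MSm cmB cmG)

variable {X : Mf 4} {A κ : Type} [Fintype A] [Fintype κ] {M : Mark X A κ}

namespace Caps
variable (C : Caps M) (c c' : M.Cl)

/-- `Z c` without the centres of the caps -/
def tg : TopologicalSpace.Opens (C.Z c).M := ⟨(C.φ c).target, (C.φ c).open_target⟩

/-- `Z c` without the centres of the caps -/
def Zo : Mf 4 := (C.Z c).op (C.tg c)

/-- the inclusion -/
def vl : (C.Zo c).M → (C.Z c).M := Subtype.val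

/-- the point of `X` -/
def bk : (C.Zo c).M → X.M := (C.φ c).symm ∘ C.vl c

/-- the orientation -/
def oo : (C.Zo c).M → Ext (C.Zo c).E := Dr59.pm (C.Zo c).I (C.Z c).I (C.vl c) (C.o c)

/-- the map to the less broken manifold -/
def dn : (C.Zo c').M → (C.Z c).M := C.φ c ∘ C.bk c'

theorem vl_oe : IsOE (C.Zo c).I (C.Z c).I (C.vl c) := isOE_val (IA := (C.Z c).I) (C.tg c)

theorem bk_oe : IsOE (C.Zo c).I X.I (C.bk c) := .of_pd (C.φ c).symm (C.vl_oe c) fun z => z.2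

theorem val_ld : IsLocalDiffeomorph (C.Zo c).I (C.Z c).I ∞ (C.vl c) := (C.vl_oe c).loc

theorem ori_oo : Ori (C.Zo c).I (C.oo c) := (C.ori c).pm (C.val_ld c)

variable {c c'}

theorem bk_not_mem (z : (C.Zo c).M) : C.bk c z ∉ M.sys.cores c.1 :=
  (C.mem_src c).1 ((C.φ c).map_target z.2)

theorem φ_bk (z : (C.Zo c).M) : C.φ c (C.bk c z) = C.vl c z := (C.φ c).right_inv z.2

/-- the point over `x` -/
def pt {x : X.M} (hx : x ∉ M.sys.cores c.1) : (C.Zo c).M :=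
  ⟨C.φ c x, (C.φ c).map_source ((C.mem_src c).2 hx)⟩

theorem bk_pt {x : X.M} (hx : x ∉ M.sys.cores c.1) : C.bk c (C.pt hx) = x :=
  (C.φ c).left_inv ((C.mem_src c).2 hx)

instance : Nonempty (C.Zo c).M := (nonempty_U (M := M) (c := c)).elim fun _ hx => ⟨C.pt hx⟩

theorem dn_self (z : (C.Zo c).M) : C.dn c c z = C.vl c z := C.φ_bk z

theorem up_eq (h : M.Up c c') (z : (C.Zo c').M) : C.up c c' (C.vl c' z) = C.dn c c' z := by
  rw [← C.φ_bk z, C.up_φ h (C.bk_not_mem z)]; rfl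

theorem up_eq' (h : M.Up c c') (h0 : ∀ a ∈ c'.1, ¬M.pin a) (z : (C.Z c').M) :
    C.up c c' z = C.φ c ((C.φ c').symm z) :=
  C.up_eq h ⟨z, (C.tgt c').superset fun a ha hp => (h0 a ha hp).elim⟩

variable (h : c.1 ⊆ c'.1)
include h

theorem dn_oe : IsOE (C.Zo c').I (C.Z c).I (C.dn c c') :=
  .of_pd (C.φ c) (C.bk_oe c') fun z => (C.mem_src c).2 (Mark.cores_mono h (C.bk_not_mem z))

theorem range_dn : range (C.dn c c') = C.φ c '' (M.sys.cores c'.1)ᶜ := by
  ext z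
  exact ⟨fun ⟨w, e⟩ => ⟨_, C.bk_not_mem w, e⟩, fun ⟨x, hx, e⟩ => ⟨C.pt hx, by
    rw [← e, dn, Function.comp_apply, C.bk_pt]⟩⟩

theorem mf_dn (z : (C.Zo c').M) (v : (C.Zo c').E) : mf (C.Zo c').I (C.Z c).I (C.dn c c') z v =
    mf X.I (C.Z c).I (C.φ c) (C.bk c' z) (mf (C.Zo c').I X.I (C.bk c') z v) :=
  DFunLike.congr_fun (Dr59.mf_comp ((C.ld (Mark.cores_mono h (C.bk_not_mem z))).mdifferentiableAt
    (by simp)) (((C.bk_oe c').loc z).mdifferentiableAt (by simp))) v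

theorem pm_dn (b : (C.Z c).M → Ext (C.Z c).E) (z : (C.Zo c').M) :
    Dr59.pm (C.Zo c').I (C.Z c).I (C.dn c c') b z =
      Dr59.pm (C.Zo c').I X.I (C.bk c') (Dr59.pm X.I (C.Z c).I (C.φ c) b) z :=
  (Dr59.pm_comp ((C.ld (Mark.cores_mono h (C.bk_not_mem z))).mdifferentiableAt
    (by simp)) (((C.bk_oe c').loc z).mdifferentiableAt (by simp))).symm

theorem same_bk : SameOn (Dr59.pm (C.Zo c').I X.I (C.bk c') M.o)
    (Dr59.pm (C.Zo c').I (C.Z c).I (C.dn c c') (C.o c)) univ := fun z _ => by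
  rw [C.pm_dn h]
  exact (C.oφ c).pm (s := univ) (fun y _ => (C.bk_oe c').loc y)
    (fun y _ => (C.mem_src c).2 (Mark.cores_mono h (C.bk_not_mem y))) z trivial

theorem same_dn : SameOn (C.oo c') (Dr59.pm (C.Zo c').I (C.Z c).I (C.dn c c') (C.o c)) univ := by
  have := (C.same_bk (c := c') subset_rfl).symm.trans (C.same_bk h)
  rwa [show C.dn c' c' = C.vl c' from funext C.dn_self] at this

theorem dn_mem_Ω {p : Prm A} (hp : ∀ a ∉ c'.1, p.2 a < 1) (z : (C.Zo c').M) :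
    (p, C.dn c c' z) ∈ M.Ω c.1 (C.φ c) :=
  (C.mem_Ω (Mark.cores_mono h (C.bk_not_mem z))).2 fun a _ => (em (a ∈ c'.1)).elim
    (fun k => .inr fun k' => C.bk_not_mem z (mem_biUnion k k')) fun k => .inl (hp a k)

end Caps

theorem Mark.lt_one {c : M.Cl} {p : Prm A} (h : p ∈ M.Br c.1) (h' : p ∈ M.O c.1) :
    ∀ a ∉ c.1, p.2 a < 1 := fun a ha =>
  (h.1.1 a).2.lt_of_ne fun e => ha (Mark.inf_eq h h' ▸ e)

theorem Mark.ev_lt_one {c : M.Cl} {p : Prm A} (h : p ∈ M.Br c.1) (h' : p ∈ M.O c.1) :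
    ∀ᶠ s in 𝓝 p, ∀ a ∉ c.1, s.2 a < 1 := eventually_all.2 fun a => eventually_imp_distrib_left.2
  fun ha => (isOpen_lt ((continuous_apply a).comp continuous_snd) continuous_const).mem_nhds
    (Mark.lt_one h h' a ha)

variable {lam : Type} [Fintype lam] [DecidableEq lam] {N : ML M lam} {c c' : M.Cl}
  (h : c.1 ⊆ c'.1) {p' : Prm A} (ho : p' ∈ M.O c'.1)

namespace World
variable (W : World M) (m m' : M.Cl)

variable (c') in
/-- the restriction of the layer `(m', c')` -/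
abbrev oL := (W.L m' c').pull (W.val_ld c') ((W.ori_oo c').same _)

/-- the pull-back of the layer `(m, c)` -/
abbrev dL := (W.L m c).pull (W.dn_oe h).loc (W.same_dn h)

/-- the metrics of `(m, c)` in the frame of `(m', c')` at `p'` -/
def cv : Lay (W.Zo c') (W.oo c') (Prm A) (Option κ)
    {q | (q.1, W.dn c c' q.2) ∈ M.Ω c.1 (W.φ c)} :=
  (W.dL h m).re (W.oL c' m') (s := p') fun _ => Mark.mem_Ω _ ho _

theorem co_dL {p : Prm A} (hp : p ∈ M.Br c.1) {z : (W.Zo c').M}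
    (hz : W.bk c' z ∉ M.sys.cores (Sys.inf p.2)) :
    Met55.Co (W.k p (W.bk c' z))
      fun i => mf (W.Zo c').I X.I (W.bk c') z (atx ((W.dL h m).e p) z i) := by
  refine Met55.Co.of_map (A := Met55.dmp X.I (W.Z c).I (W.φ c) (W.bk c' z))
    (show Bijective _ from Met55.ld_bij (W.ld (Mark.cores_mono hp.2 hz))) ?_
  exact (W.co m c p hp _ hz).trans (co_of_eq fun i =>
    (Met55.pbv_rel ((W.dn_oe h).loc z) _).symm.trans (W.mf_dn h z _))

theorem oL_e (p : Prm A) : (W.oL c' m').e p = (W.dL (subset_refl c'.1) m').e p := by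
  funext i
  exact congrArg (fun f => pbv (W.Zo c').I (W.Z c').I f ((W.L m' c').e p i))
    (funext W.dn_self).symm

/-- at a parameter broken along `c'` the two metrics agree -/
theorem co_cv (hp : p' ∈ M.Br c'.1) (ho : p' ∈ M.O c'.1) (z : (W.Zo c').M) :
    Met55.Co (atx ((W.oL c' m').e p') z) (atx ((W.dL h m).e p') z) := by
  have hz := Mark.inf_eq hp ho ▸ W.bk_not_mem z
  rw [oL_e]
  exact Met55.Co.of_map (A := Met55.dmp (W.Zo c').I X.I (W.bk c') z)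
    (show Bijective _ from Met55.ld_bij ((W.bk_oe c').loc z))
    ((W.co_dL subset_rfl m' hp hz).symm.trans (W.co_dL h m ⟨hp.1, h.trans hp.2⟩ hz))

theorem cv_co {p : Prm A} {z : (W.Zo c').M} (hz : (p, W.dn c c' z) ∈ M.Ω c.1 (W.φ c)) :
    Met55.Co (fun i => mf (W.Zo c').I (W.Z c).I (W.dn c c') z (atx ((W.cv h ho m m').e p) z i))
      (atx ((W.L m c).e p) (W.dn c c' z)) :=
  ((Lay.re_co (W.dL h m) (W.oL c' m') _ (t := p) (x := z) hz).map (Met55.dmp (W.Zo c').I (W.Z c).I (W.dn c c') z)).trans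
    (co_of_eq fun _ => Met55.pbv_rel ((W.dn_oe h).loc z) _)

theorem cv_e (hp : p' ∈ M.Br c'.1) (z : (W.Zo c').M) (i : Option κ) :
    (W.cv h ho m m').e p' i z = (W.oL c' m').e p' i z := Lay.re_eq _ _ _ (W.co_cv h m m' hp ho z) i

variable {m m'}

/-- on necks that are literal for both layers the frames correspond -/
theorem cv_lit {a : A} {q : (M.bn a).Y.M × ℝ} (hn : ¬M.pin a) (hl : M.Lit m.1 c.1 a q.2)
    (hl' : M.Lit m'.1 c'.1 a q.2) {p : Prm A} (h1 : M.Lt c.1 p.2 a) (h1' : M.Lt c'.1 p'.2 a)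
    (h2 : (Mark.tv c.1 p.2 a, q.2) ∈ Off) (h2' : (Mark.tv c'.1 p'.2 a, q.2) ∈ Off) (i : Option κ) :
    mf (W.Zo c').I (W.Z c).I (W.dn c c') (W.pt hl'.not_mem)
      (atx ((W.cv h ho m m').e p) (W.pt hl'.not_mem) i) = atx ((W.L m c).e p) (W.nj c a q) i := by
  classical
  have hz := (W.dn_oe h).loc (W.pt hl'.not_mem)
  have e0 : W.dn c c' (W.pt hl'.not_mem) = W.nj c a q := congrArg (W.φ c) (W.bk_pt _)
  let r : Option κ → VF (W.Z c).I (W.Z c).M := fun i =>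
    Met55.pfv (W.Zo c').I (W.Z c).I (W.dn c c') ((W.oL c' m').e p' i)
  have hr := fun i => Met55.pfv_rel (I := (W.Zo c').I) (I' := (W.Z c).I) (W.dn_oe h).inj
    ((W.oL c' m').e p' i) (W.pt hl'.not_mem)
  rw [cv, Lay.re_e]
  refine (Met55.cF_rel hz (r' := r) (w' := (W.L m c).e p)
    ((W.oL c' m').sp _ _ (Mark.mem_Ω _ ho _)) hr
    (co_of_eq fun _ => Met55.pbv_rel hz _) i).trans ?_
  rw [W.lit' hn hl h1 h2 p.1]
  refine (congrArg (fun y => atx (cF r ((W.L m c).e p)) y i) e0).trans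
    (Met55.cF_lit (C := W.toCaps) hn ((W.mem_src c).2 hl.not_mem) h2' h2 (fun k => ?_)
      (co_of_eq (W.lit' hn hl h1 h2 p.1)) i)
  refine (congrArg (fun y => atx r y k) e0).symm.trans ((hr k).symm.trans ?_)
  refine (W.mf_dn h _ _).trans (Eq.trans ?_ (W.mf_nj hl.not_mem _).symm)
  rw [oL_e]
  have e1 := (Met55.pbv_rel ((W.dn_oe (subset_refl c'.1)).loc (W.pt hl'.not_mem))
    ((W.L m' c').e p' k)).symm.trans (W.mf_dn subset_rfl _ _)
  have e2 := (W.lit' hn hl' h1' h2' p'.1 k).trans (W.mf_nj hl'.not_mem _)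
  have e3 := (congrArg (fun y => atx ((W.L m' c').e p') y k) (W.dn_self (W.pt hl'.not_mem)))
  have e4 := (e1.symm.trans e3).trans e2
  rw [W.bk_pt] at e4 ⊢
  exact congrArg _ ((Met55.ld_bij (W.ld hl'.not_mem)).1 e4)

end World

namespace Lns
variable {W : World M} (Λ : Lns W N) (m m' : M.Cl)

variable (c c') in
/-- the isometry from the line of `(m', c')` to the line of `(m, c)` -/
def cu (z : (W.Zo c').M) : Matrix lam lam ℂ := Λ.v m c (W.bk c' z) * (Λ.v m' c' (W.bk c' z))ᴴ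

include h in
theorem mp_bk : Mp (W.Zo c').I X.I univ (W.φ c).source (W.bk c') :=
  ⟨fun z _ => (W.bk_oe c').contMDiff z,
    fun z _ => (W.mem_src c).2 (Mark.cores_mono h (W.bk_not_mem z))⟩

theorem uni_cu : Uni (W.Zo c').I ((Λ.Λ m' c').pull (W.val_ld c') ((W.ori_oo c').same _)).p
    ((Λ.Λ m c).pull (W.dn_oe h).loc (W.same_dn h)).p (Λ.cu c c' m m') univ := by
  have := ((Λ.uni m' c').comp (mp_bk subset_rfl)).symm.trans ((Λ.uni m c).comp (mp_bk h))
  simp only [W.φ_bk] at this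
  exact this

/-- the connections of `(m, c)` on the line of `(m', c')` -/
def cv : LLay (W.cv h ho m m') lam :=
  ((Λ.Λ m c).pull (W.dn_oe h).loc (W.same_dn h)).re _ _ (Λ.uni_cu h m m')

include h in
theorem cu_v (z : (W.Zo c').M) :
    Λ.cu c c' m m' z * Λ.v m' c' (W.bk c' z) = Λ.v m c (W.bk c' z) := by
  rw [cu, Matrix.mul_assoc, ((Λ.uni m' c').iso _ ((mp_bk subset_rfl).maps trivial)).src,
    ((Λ.uni m c).iso _ ((mp_bk h).maps trivial)).idem]

theorem cu_lit {a : A} {q : (M.bn a).Y.M × ℝ} (hl : M.Lit m.1 c.1 a q.2)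
    (hl' : M.Lit m'.1 c'.1 a q.2) :
    Λ.cu c c' m m' (W.pt hl'.not_mem) = (Λ.Λ m c).p (W.nj c a q) := by
  rw [cu, W.bk_pt, Λ.lit m c a q hl, Λ.lit m' c' a q hl',
    ((N.um a).iso q (hl.1.trans (by norm_num))).tgt, Λ.p_lit hl]

theorem cv_B : (Λ.cv h ho m m').B = cmB (W.vl c') (Λ.B m' c') :=
  LLay.pull_B (W.val_ld c') ((W.ori_oo c').same _) (Λ.Λ m' c')

theorem cv_iso (p : Prm A) : Line51.Iso (W.Zo c').I ((Λ.cv h ho m m').ln p)
    (((Λ.Λ m c).ln p).pull (W.Zo c').I (W.Z c).I (W.dn c c')) (Λ.cu c c' m m') univ :=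
  LLay.re_iso _ _ _ _ p

include h in
theorem iso_cu (hp : p' ∈ M.Br c'.1) : Line51.Iso (W.Zo c').I
    (((Λ.Λ m' c').ln p').pull (W.Zo c').I (W.Z c').I (W.vl c'))
    (((Λ.Λ m c).ln p').pull (W.Zo c').I (W.Z c).I (W.dn c c')) (Λ.cu c c' m m') univ := by
  refine (((Λ.iso m' c' p' hp).pull (mp_bk subset_rfl)).symm.trans
    ((Λ.iso m c p' ⟨hp.1, h.trans hp.2⟩).pull (mp_bk h))).of_eq
    (fun z _ => congrArg (Λ.Λ m' c').p (W.φ_bk z).symm) (fun z _ => ?_) (fun _ _ => rfl)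
    fun z _ => W.pm_dn h _ z
  rw [← show W.dn c' c' = W.vl c' from funext W.dn_self]
  exact W.pm_dn subset_rfl _ z

/-- the limit geometry is the restriction of the geometry of `Z c'` -/
theorem cv_G (hp : p' ∈ M.Br c'.1) : (Λ.cv h ho m m').G p' = cmG (W.val_ld c') (Λ.G m' c' p') :=
  (LLay.re_G _ ((Λ.Λ m c).pull (W.dn_oe h).loc (W.same_dn h))
    ((Λ.Λ m' c').pull (W.val_ld c') ((W.ori_oo c').same _)) (Λ.uni_cu h m m')
    (W.dn_mem_Ω h (Mark.lt_one hp ho)) (W.co_cv h m m' hp ho)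
    (Λ.iso_cu h m m' hp)).trans (LLay.pull_G _ _ _ (Mark.mem_Ω _ ho))

/-- the nearby geometries are those of `Z c` -/
theorem cv_geq {p : Prm A} (hp : p ∈ M.O c.1) :
    GEq (cmB (W.vl c') (Λ.B m' c')) ((Λ.cv h ho m m').G p) (Λ.B m c) (Λ.G m c p)
      (W.dn_oe h).pd.toOpenPartialHomeomorph
      (rotU ((W.cv h ho m m').F p).toPre (W.F m c p).toPre (W.dn c c'))
      fun z => Line51.rl (Λ.cu c c' m m' z) := by
  rw [← Λ.cv_B h ho]
  exact (Λ.cv h ho m m').geq (Ψ := (W.dn_oe h).pd.toOpenPartialHomeomorph) (Λ.Λ m c) (W.ori_oo c')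
    (W.ori c) (fun _ => Mark.mem_Ω _ hp _) (Mark.mem_Ω _ hp) (W.dn_oe h).pd.contMDiffOn_toFun
    (W.dn_oe h).pd.contMDiffOn_invFun (fun z _ => W.cv_co h ho m m' (Mark.mem_Ω _ hp _))
    (W.same_dn h) (Λ.cv_iso h ho m m' p)

end Lns

end Crest.Agent.X212.M
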