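import Crest.Agent.X212.M.Lvj
import Crest.Agent.X212.Bnd52.Main
import Crest.Agent.X212.Png64.Main
import Crest.Agent.X212.Pfm51.Main

/-!
# Row 212, layer M: PINCH from the energy estimate
-/

set_option autoImplicit false
noncomputable section

namespace Crest.Agent.X212.M
open An

variable {Wi : Type} {X : Mf 4} {A κ lam : Type} [Fintype A] [Fintype κ] [Fintype lam]
  [DecidableEq lam] {M : Mark X A κ} {W : World M} {N : ML M lam} {Λ : Lns W N} {A' h : Type}
  [Fintype A'] [DecidableEq A'] [Fintype h] {r n : ℕ} {J : Job Wi Λ A' h r n}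
  {Adm : (Wi →₀ ℝ) → Prop}

theorem pinch_of (he : EstStmt J Adm) : Cmp73.PINCH J Adm :=
  pinch (Bnd52.band _ _) (Pfm51.flat _ _) (Pfm51.mod _ _) he (Png64.geo _ _)

end Crest.Agent.X212.M
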