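import Crest.Agent.X212.M.Jcv
import Crest.Agent.X212.M.Geq
import Crest.Agent.X212.Line51.Exl
import Crest.Agent.X212.Cmp73.Lim

/-!
# Row 212, layer M: cutting off a layer near finitely many points; converging backgrounds
-/

set_option autoImplicit false
set_option linter.unusedSectionVars false
set_option linter.dupNamespace false
noncomputable section
open Set Function Filter Topology Module Matrix
open scoped ContDiff Manifold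

namespace Crest.Agent.X212.M
open An Cyl58 Prm93 Cmp73 Int54
open Met55 (Sp VF VJ atx pbv cF eF EOk rotU)
open Line51 (Ln Uni J1)
open Loc66 (FCv)
open Dr59 (mf)
open Pj41 (FRel cmB cmG)
open TopologicalSpace (Opens)
open Crest.Agent.R208.F (Ext pb)

variable {Z Z' : Mf 4}

/-- a cut-off function supported in `U` -/
structure Cf (U : Set Z.M) (χ : Z.M → ℝ) : Prop where
  sm : ContMDiff Z.I 𝓘(ℝ, ℝ) ∞ χ
  mem : ∀ x, 0 ≤ χ x ∧ χ x ≤ 1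
  sub : tsupport χ ⊆ U

theorem Cf.src {U : Set Z.M} {χ : Z.M → ℝ} (h : Cf U χ) {x : Z.M} (hx : χ x ≠ 0) : x ∈ U :=
  h.sub (subset_tsupport _ hx)

theorem Cf.cases {U : Set Z.M} {χ : Z.M → ℝ} (h : Cf U χ) (x : Z.M) :
    x ∈ U ∨ ∀ᶠ y in 𝓝 x, χ y = 0 :=
  (em (x ∈ tsupport χ)).imp (@h.sub x) notMem_tsupport_iff_eventuallyEq.1

/-- cut-off functions that exhaust the complement of a finite set -/
theorem exists_cf {P : Set Z.M} (hP : P.Finite) {x₀ : Z.M} (h0 : x₀ ∉ P) :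
    ∃ (χ : ℕ → Z.M → ℝ) (S : ℕ → Opens Z.M), (∀ j, Cf Pᶜ (χ j)) ∧ (∀ j, x₀ ∈ S j) ∧
      (∀ j, ∀ x ∈ S j, χ j x = 1) ∧ ∀ x ∉ P, ∃ i, ∀ᶠ y in 𝓝 x, ∀ j ≥ i, y ∈ S j := by
  have := Manifold.locallyCompact_of_finiteDimensional (M := Z.M) Z.I
  let := TopologicalSpace.metrizableSpaceMetric Z.M
  choose η h1 _ h3 h4 h5 using fun j : ℕ => Met55.exists_cut (I := Z.I) hP.isCompact
    ((Metric.isOpen_thickening (δ := 1 / (j + 1 : ℝ)) (E := P)).inter (isOpen_compl_singleton (x := x₀)))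
    (subset_inter (Metric.self_subset_thickening Nat.one_div_pos_of_nat P)
      fun _ hx e => h0 (mem_singleton_iff.1 e ▸ hx))
  refine ⟨fun j x => 1 - η j x, fun j => ⟨(tsupport (η j))ᶜ, (isClosed_tsupport _).isOpen_compl⟩,
    fun j => ⟨contMDiff_const.sub (h1 j), fun x => ⟨sub_nonneg.2 (h4 j x).2, sub_le_self _ (h4 j x).1⟩,
      fun x hx hx' => (notMem_tsupport_iff_eventuallyEq.2 ((h5 j x hx').mono fun y hy => by
        simp [hy])) hx⟩, fun j k => (h3 j k).2 rfl,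
    fun j x hx => by simp only [image_eq_zero_of_notMem_tsupport hx, sub_zero], fun x hx => ?_⟩
  rw [← hP.isClosed.closure_eq, Metric.closure_eq_iInter_cthickening] at hx
  simp only [mem_iInter, not_forall] at hx
  obtain ⟨δ, hδ, hx⟩ := hx
  obtain ⟨i, hi⟩ := exists_nat_one_div_lt hδ
  refine ⟨i, eventually_of_mem (Metric.isClosed_cthickening.isOpen_compl.mem_nhds hx)
    fun y hy j hj k => hy (Metric.thickening_subset_cthickening_of_le ?_ P (h3 j k).1)⟩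
  exact (Nat.one_div_le_one_div hj).trans hi.le

theorem cf_one {U : Set Z.M} (h : U = univ) : Cf U fun _ => 1 :=
  ⟨contMDiff_const, fun _ => ⟨zero_le_one, le_rfl⟩, h ▸ subset_univ _⟩

theorem pbv_fac {Y : Mf 4} {f : Y.M → Z.M} {g : Z.M → Z'.M} {h : Y.M → Z'.M} {y : Y.M}
    (hf : IsLocalDiffeomorphAt Y.I Z.I ∞ f y) (hg : IsLocalDiffeomorphAt Z.I Z'.I ∞ g (f y))
    (hh : IsLocalDiffeomorphAt Y.I Z'.I ∞ h y) (e : h =ᶠ[𝓝 y] g ∘ f) (X : VF Z'.I Z'.M) :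
    mf Y.I Z.I f y (pbv Y.I Z'.I h X y) = pbv Z.I Z'.I g X (f y) := by
  refine (Met55.ld_bij hg).1 (Eq.trans ?_ (Met55.pbv_rel hg X).symm)
  refine (DFunLike.congr_fun (Dr59.mf_comp (hg.mdifferentiableAt (by simp))
    (hf.mdifferentiableAt (by simp))) _).symm.trans
      ((DFunLike.congr_fun (Dr59.mf_congr e) _).symm.trans ((Met55.pbv_rel hh X).trans ?_))
  exact congrArg (fun z => (X z : Z'.E)) e.self_of_nhds

variable {o : Z.M → Ext Z.E} {o' : Z'.M → Ext Z'.E} {T ι : Type} [NormedAddCommGroup T]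
  [NormedSpace ℝ T] [Fintype ι] [DecidableEq ι] {Ω₀ : Set (T × Z.M)} {Ω' : Set (T × Z'.M)}
  {lam lam' : Type} [Fintype lam] [DecidableEq lam] [Fintype lam'] [DecidableEq lam']
  {Ψ : PartialDiffeomorph Z.I Z'.I Z.M Z'.M ∞} (L₀ : Lay Z o T ι Ω₀) (L' : Lay Z' o' T ι Ω')
  {χ χ' : Z.M → ℝ} (hχ : Cf Ψ.source χ) {t : T} {x : Z.M}

variable (Ψ) in
/-- the pulled back frames -/
abbrev Lay.pe (t : T) : ι → VF Z.I Z.M := fun a => pbv Z.I Z'.I Ψ (L'.e t a)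

variable (Ω₀ Ω' Ψ) in
/-- the domain of a cut-off layer -/
def cΩ : Set (T × Z.M) := {q | q ∈ Ω₀ ∧ (q.2 ∈ Ψ.source → (q.1, Ψ q.2) ∈ Ω')}

include hχ in
theorem cut_ok (h : (t, x) ∈ cΩ Ω₀ Ω' Ψ) : EOk (L₀.e t) (fun _ => 1)
    (fun b y => cond b (χ y) (1 - χ y)) (fun b => cond b (L'.pe Ψ t) (L₀.e t)) x where
  sp := L₀.sp _ _ h.1
  adm := Met55.Adm.one
  nn b := by cases b; exacts [sub_nonneg.2 (hχ.mem x).2, (hχ.mem x).1]
  ne := by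
    by_cases k : χ x = 0
    exacts [⟨false, by simp [k]⟩, ⟨true, k⟩]
  spw b k := by
    cases b
    exacts [L₀.sp _ _ h.1, ((L'.fAt (h.2 (hχ.src k))).pbv (Met55.pd_ld (hχ.src k))).sp]

/-- the metrics of `L'`, cut off to the metrics of `L₀`, in the frames of `L₀` -/
def Lay.cut : Lay Z o T ι (cΩ Ω₀ Ω' Ψ) where
  F0 := L₀.F0
  vol := L₀.vol
  e t := eF (L₀.e t) (fun _ => 1) (fun b y => cond b (χ y) (1 - χ y))
    fun b => cond b (L'.pe Ψ t) (L₀.e t)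
  sm t x h k := by
    refine Met55.vJ_eF (r := L₀.e) (S := fun _ _ => 1)
      (l := fun _ b y => cond b (χ y) (1 - χ y)) (w := fun t b => cond b (L'.pe Ψ t) (L₀.e t))
      (cut_ok L₀ L' hχ h) (L₀.sm t x h.1) (Pj41.MSm.const 1) (.of_forall fun _ => transpose_one)
      (fun b => ?_) k
    cases b
    · exact .inr ⟨.of_fixed (contMDiffAt_const.sub (hχ.sm x)), L₀.sm t x h.1⟩
    · exact (hχ.cases x).symm.imp Met55.ev_snd fun k =>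
        ⟨.of_fixed (hχ.sm x), fun a => (L'.sm t _ (h.2 k) a).pbv (Met55.pd_ld k)⟩
  sp t x h := (cut_ok L₀ L' hχ h).sp_eF
  P t x h := (cut_ok L₀ L' hχ h).fP_eF.trans (L₀.P _ _ h.1)
  ob t x h a b c d := ((cut_ok L₀ L' hχ h).oc_eF Z.dim o a b c d).trans (L₀.ob _ _ h.1 a b c d)

theorem Lay.cut_congr (hχ' : Cf Ψ.source χ') (h : χ' x = χ x) (a : ι) :
    (L₀.cut L' hχ').e t a x = (L₀.cut L' hχ).e t a x :=
  Met55.eF_congr (fun _ => rfl) rfl (fun b => by cases b <;> simp [h]) (fun _ _ => .refl _) a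

theorem Lay.cut_eq (h : (t, x) ∈ cΩ Ω₀ Ω' Ψ) (h' : χ x ≠ 0 →
    Met55.Co (fun a => mf Z.I Z'.I Ψ x (atx (L₀.e t) x a)) (atx (L'.e t) (Ψ x))) (a : ι) :
    (L₀.cut L' hχ).e t a x = L₀.e t a x := by
  refine (cut_ok L₀ L' hχ h).eF_eq (fun b k => ?_) (by simp) rfl a
  cases b
  · exact .refl _
  · have h1 := Met55.pd_ld (hχ.src k)
    exact .of_map (A := Met55.dmp Z.I Z'.I Ψ x) (show Bijective _ from Met55.ld_bij h1)
      ((h' k).trans (by rw [Met55.atx_rel fun i => Met55.pbv_rel h1 (L'.e t i)]; exact .refl _))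

theorem Lay.cut_one (h : χ x = 1) (a : ι) :
    (L₀.cut L' hχ).e t a x = cF (L₀.e t) (L'.pe Ψ t) a x := by
  simp [Lay.cut, eF, cF, Met55.dfm, Met55.mixF, Met55.eH, h]

theorem Lay.cut_co (h : χ x = 1) (h' : (t, x) ∈ cΩ Ω₀ Ω' Ψ) : Met55.Co
    (fun a => mf Z.I Z'.I Ψ x (atx ((L₀.cut L' hχ).e t) x a)) (atx (L'.e t) (Ψ x)) := by
  have h0 := hχ.src (h ▸ one_ne_zero)
  have h1 := Met55.pd_ld h0
  rw [show atx ((L₀.cut L' hχ).e t) x = atx (cF (L₀.e t) (L'.pe Ψ t)) x from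
    funext (L₀.cut_one L' hχ h), Met55.atx_rel fun i => Met55.pbv_rel h1 (L'.e t i)]
  exact (Met55.co_cF (L₀.sp _ _ h'.1) ((L'.fAt (h'.2 h0)).pbv h1).sp).map (Met55.dmp Z.I Z'.I Ψ x)

variable {L₀ L'} (Λ₀ : LLay L₀ lam) (Λ' : LLay L' lam') {u : Z.M → Matrix lam' lam ℂ}
  (hu : Uni Z.I Λ₀.p (fun x => Λ'.p (Ψ x)) u Ψ.source)

/-- the connections of `Λ'`, cut off to the connections of `Λ₀` -/
def LLay.cut : LLay (L₀.cut L' hχ) lam where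
  p := Λ₀.p
  a t := Λ₀.a t + χ • (Line51.th Z.I u + Dr59.pm Z.I Z'.I Ψ (Λ'.a t) - Λ₀.a t)
  ok t := ⟨(Λ₀.ok 0).sm, (Λ₀.ok 0).prj, (Λ₀.ok 0).tr, fun x _ => (hχ.cases x).elim
    (fun k => ((Λ₀.ok t).sa x trivial).add (Dr59.CAt.fsmul le_rfl (hχ.sm x) (((hu.sm_th x k).add
      (Dr59.SmAt.pm (Met55.pd_ld k).contMDiffAt ((Λ'.ok t).sa _ trivial))).sub
        ((Λ₀.ok t).sa x trivial))))
    (fun k => ((Λ₀.ok t).sa x trivial).congr (k.mono fun y hy => by simp [hy])),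
    (Λ₀.ok t).dg.add ((((Line51.dg_th u).add ((Λ'.ok t).dg.pm (mapsTo_univ _ _))).sub
      (Λ₀.ok t).dg).fsmul χ)⟩
  sm k t x := by
    have h0 : J1 Z.I Λ₀.a t x := fun _ he => Λ₀.jAt_a (.of_fixed he)
    refine ((hχ.cases x).elim (fun k => h0.add (J1.smul (.of_fixed (hχ.sm x)) (((Line51.j1_fixed
      (hu.sm_th x k) (.of_forall fun _ => Dr59.isDeg_io _)).add (J1.pm Ψ k fun _ he =>
        Λ'.jAt_a (.of_fixed he))).sub h0))) fun k => h0.congr ((Met55.ev_snd k).mono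
          fun y hy => by simp [hy]) : J1 Z.I _ t x) _ (L₀.F0.sm k x)

theorem LLay.cut_B : (Λ₀.cut hχ Λ' hu).B = Λ₀.B := rfl

theorem LLay.cut_a_one (h : χ x = 1) : (Λ₀.cut hχ Λ' hu).a t x =
    Line51.th Z.I u x + Dr59.pm Z.I Z'.I Ψ (Λ'.a t) x := by simp [LLay.cut, h]

theorem LLay.cut_iso (t : T) {S : Set Z.M} (h : ∀ x ∈ S, χ x = 1) :
    Line51.Iso Z.I ((Λ₀.cut hχ Λ' hu).ln t) ((Λ'.ln t).pull Z.I Z'.I Ψ) u S :=
  ⟨hu.mono fun x hx => hχ.src (h x hx ▸ one_ne_zero), fun x hx =>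
    (Λ₀.cut_a_one hχ Λ' hu (h x hx)).symm⟩

theorem LLay.cut_a (h : χ x ≠ 0 → Line51.th Z.I u x + Dr59.pm Z.I Z'.I Ψ (Λ'.a t) x = Λ₀.a t x) :
    (Λ₀.cut hχ Λ' hu).a t x = Λ₀.a t x := by
  by_cases k : χ x = 0
  · simp [LLay.cut, k]
  · simp [LLay.cut, h k]

theorem geo_a_congr {L K : Ln Z.E Z.M lam} {F F' : Fr Z.I Z.M ι} {a : ι} (hp : K.p = L.p)
    (ha : K.a x = L.a x) (he : F'.e a x = F.e a x) : (K.geo F').a a x = (L.geo F).a a x := by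
  change Line51.rl (K.cm Z.I x (F'.e a x)) = _
  rw [he]
  exact Line51.A_congr (.of_eq hp) ha a

theorem LLay.cut_G (h : ∀ x, (t, x) ∈ cΩ Ω₀ Ω' Ψ) (h1 : ∀ x ∈ Ψ.source,
    Met55.Co (fun a => mf Z.I Z'.I Ψ x (atx (L₀.e t) x a)) (atx (L'.e t) (Ψ x)))
    (h2 : Line51.Iso Z.I (Λ₀.ln t) ((Λ'.ln t).pull Z.I Z'.I Ψ) u Ψ.source) :
    (Λ₀.cut hχ Λ' hu).G t = Λ₀.G t := by
  have e1 : (L₀.cut L' hχ).F t = L₀.F t := Met55.vol_ext (Lay.F_vol _ _) (Lay.F_vol _ _) (by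
    rw [Lay.F_e _ h, L₀.F_e fun x => (h x).1]
    funext a x
    exact L₀.cut_eq L' hχ (h x) (fun k => h1 x (hχ.src k)) a)
  have e2 : (Λ₀.cut hχ Λ' hu).ln t = Λ₀.ln t := congrArg (Ln.mk _)
    (funext fun x => Λ₀.cut_a hχ Λ' hu fun k => h2.par x (hχ.src k))
  rw [LLay.G, e1, e2]; rfl

theorem LLay.cut_G_congr (hχ' : Cf Ψ.source χ') (h1 : ∀ x, (t, x) ∈ cΩ Ω₀ Ω' Ψ) (h : χ' x = χ x)
    (a : ι) : ((Λ₀.cut hχ' Λ' hu).G t).F.e a x = ((Λ₀.cut hχ Λ' hu).G t).F.e a x ∧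
      ((Λ₀.cut hχ' Λ' hu).G t).a a x = ((Λ₀.cut hχ Λ' hu).G t).a a x := by
  have e : ((L₀.cut L' hχ').F t).e a x = ((L₀.cut L' hχ).F t).e a x := by
    rw [(L₀.cut L' hχ').F_e h1, (L₀.cut L' hχ).F_e h1]
    exact L₀.cut_congr L' _ _ h a
  exact ⟨e, geo_a_congr (L := (Λ₀.cut hχ Λ' hu).ln t) (K := (Λ₀.cut hχ' Λ' hu).ln t)
    (Eq.refl Λ₀.p) (by simp [LLay.cut, LLay.ln, h]) e⟩

/-- without cut-off the background is that of `Λ'` -/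
theorem LLay.cut_geq (ho : Ori Z.I o) (ho' : Ori Z'.I o')
    (hso : SameOn o (Dr59.pm Z.I Z'.I Ψ o') Ψ.source) (h : ∀ x ∈ Ψ.source, χ x = 1)
    (h0 : ∀ x, (t, x) ∈ Ω₀) (h' : ∀ x, (t, x) ∈ Ω') :
    GEq Λ₀.B ((Λ₀.cut hχ Λ' hu).G t) Λ'.B (Λ'.G t) Ψ.toOpenPartialHomeomorph
      (rotU ((L₀.cut L' hχ).F t).toPre (L'.F t).toPre Ψ) fun x => Line51.rl (u x) :=
  (Λ₀.cut hχ Λ' hu).geq (Ψ := Ψ.toOpenPartialHomeomorph) Λ' ho ho' (fun x => ⟨h0 x, fun _ => h' _⟩)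
    h' Ψ.contMDiffOn_toFun Ψ.contMDiffOn_invFun
    (fun x hx => L₀.cut_co L' hχ (h x hx) ⟨h0 x, fun _ => h' _⟩) hso (Λ₀.cut_iso hχ Λ' hu t h)

section nat
variable {Y : Mf 4} {oY : Y.M → Ext Y.E} {Ω₁ : Set (T × Y.M)}
  {Φ : PartialDiffeomorph Y.I Z'.I Y.M Z'.M ∞} {K₀ : Lay Y oY T ι Ω₁} (Γ₀ : LLay K₀ lam)
  {η : Y.M → ℝ} (hη : Cf Φ.source η) {w : Y.M → Matrix lam' lam ℂ}
  (hw : Uni Y.I Γ₀.p (fun x => Λ'.p (Φ x)) w Φ.source) {f : Y.M → Z.M} {y : Y.M}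

theorem geo_a_nat {L : Ln Z.E Z.M lam} {K : Ln Y.E Y.M lam} {F : Fr Z.I Z.M ι} {F' : Fr Y.I Y.M ι}
    {a : ι} (hL : Pj41.MSm Z.I L.p (f y)) (hf : MDifferentiableAt Y.I Z.I f y)
    (hp : K.p =ᶠ[𝓝 y] fun x => L.p (f x)) (ha : K.a y = Dr59.pm Y.I Z.I f L.a y)
    (he : mf Y.I Z.I f y (F'.e a y) = F.e a (f y)) : (L.geo F).a a (f y) = (K.geo F').a a y := by
  change Line51.rl (L.cm Z.I (f y) (F.e a (f y))) = Line51.rl (K.cm Y.I y (F'.e a y))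
  rw [← he, ← Line51.cm_pull hL hf, Line51.cm_congr (L := L.pull Y.I Z.I f) hp ha]

/-- two cut-off layers correspond where both cut-off functions are `1` -/
theorem LLay.cut_nat (hf : IsLocalDiffeomorphAt Y.I Z.I ∞ f y) (h1 : η y = 1) (h2 : χ (f y) = 1)
    (k1 : ∀ x, (t, x) ∈ cΩ Ω₁ Ω' Φ) (k2 : ∀ x, (t, x) ∈ cΩ Ω₀ Ω' Ψ)
    (hr : ∀ a, mf Y.I Z.I f y (K₀.e t a y) = L₀.e t a (f y)) (hΦ : Φ =ᶠ[𝓝 y] Ψ ∘ f)
    (hp : Γ₀.p =ᶠ[𝓝 y] fun x => Λ₀.p (f x)) (hw' : w =ᶠ[𝓝 y] fun x => u (f x)) (a : ι) :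
    mf Y.I Z.I f y (((Γ₀.cut hη Λ' hw).G t).F.e a y) = ((Λ₀.cut hχ Λ' hu).G t).F.e a (f y) ∧
      ((Λ₀.cut hχ Λ' hu).G t).a a (f y) = ((Γ₀.cut hη Λ' hw).G t).a a y := by
  have s1 := hη.src (h1 ▸ one_ne_zero)
  have s2 := hχ.src (h2 ▸ one_ne_zero)
  have md := hf.mdifferentiableAt (by simp)
  have e : mf Y.I Z.I f y (((K₀.cut L' hη).F t).e a y) = ((L₀.cut L' hχ).F t).e a (f y) := by
    rw [(K₀.cut L' hη).F_e k1, (L₀.cut L' hχ).F_e k2, K₀.cut_one L' hη h1, L₀.cut_one L' hχ h2]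
    exact Met55.cF_rel hf (K₀.sp _ _ (k1 y).1) hr
      (co_of_eq fun i => pbv_fac hf (Met55.pd_ld s2) (Met55.pd_ld s1) hΦ _) a
  refine ⟨e, geo_a_nat (L := (Λ₀.cut hχ Λ' hu).ln t) (K := (Γ₀.cut hη Λ' hw).ln t)
    ((Λ₀.ok t).sm _ trivial) md hp ?_ e⟩
  refine (Γ₀.cut_a_one hη Λ' hw h1).trans ?_
  rw [Line51.th_congr hw', ← Line51.pm_th (hu.sm _ s2) md, Dr59.pm_congr hΦ rfl,
    ← Dr59.pm_comp ((Met55.pd_ld s2).mdifferentiableAt (by simp)) md]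
  exact (map_add _ _ _).symm.trans (congrArg (pb (mf Y.I Z.I f y).toLinearMap)
    (Λ₀.cut_a_one hχ Λ' hu h2).symm)

end nat

section cv
variable [FiniteDimensional ℝ T] {α : Type} {l : Filter α} [l.NeBot] {p : α → T}
  (hp : Tendsto p l (𝓝 t)) (h0 : ∀ᶠ r in 𝓝 t, ∀ x, (r, x) ∈ cΩ Ω₀ Ω' Ψ)
  (h1 : ∀ n x, (p n, x) ∈ cΩ Ω₀ Ω' Ψ) (h2 : ∀ x ∈ Ψ.source,
    Met55.Co (fun a => mf Z.I Z'.I Ψ x (atx (L₀.e t) x a)) (atx (L'.e t) (Ψ x)))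
  (h3 : Line51.Iso Z.I (Λ₀.ln t) ((Λ'.ln t).pull Z.I Z'.I Ψ) u Ψ.source)

include hp h0 h1 h2 h3

theorem LLay.cut_cv : FCv l univ (fun n => ((Λ₀.cut hχ Λ' hu).G (p n)).F) (Λ₀.G t).F ∧
    ∀ a, Cv Z.I l univ (fun n => ((Λ₀.cut hχ Λ' hu).G (p n)).a a) ((Λ₀.G t).a a) := by
  have k0 : ∀ x, cΩ Ω₀ Ω' Ψ ∈ 𝓝 (t, x) := fun x =>
    ((continuousAt_fst (p := (t, x))).eventually h0).mono fun q hq => hq q.2
  rw [← Λ₀.cut_G hχ Λ' hu h0.self_of_nhds h2 h3]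
  exact ⟨Lay.fcv _ hp k0 (.of_forall h1), LLay.cv_a _ hp k0 (.of_forall h1)⟩

/-- **cut-off families converge on all of `Z`** -/
theorem LLay.exists_cut {P : Set Z.M} (hP : P.Finite) (hΨ : Ψ.source = Pᶜ)
    {x₀ : Z.M} (hx : x₀ ∉ P) (hn : P.Nonempty → ∀ᶠ n in l, p n ≠ t) :
    ∃ (χ : α → Z.M → ℝ) (hχ : ∀ n, Cf Ψ.source (χ n)) (S : α → Opens Z.M),
      (∀ n, ∀ x ∈ S n, χ n x = 1) ∧ (∀ x ∉ P, ∀ᶠ q in l ×ˢ 𝓝 x, q.2 ∈ S q.1) ∧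
      FCv l univ (fun n => ((Λ₀.cut (hχ n) Λ' hu).G (p n)).F) (Λ₀.G t).F ∧
      ∀ a, Cv Z.I l univ (fun n => ((Λ₀.cut (hχ n) Λ' hu).G (p n)).a a) ((Λ₀.G t).a a) := by
  have k1 := fun {χ} (hχ : Cf Ψ.source χ) => Λ₀.cut_cv hχ Λ' hu hp h0 h1 h2 h3
  rcases P.eq_empty_or_nonempty with rfl | hne
  · have hχ := cf_one (hΨ.trans compl_empty)
    exact ⟨_, fun _ => hχ, fun _ => ⊤, fun _ _ _ => rfl, fun _ _ => .of_forall fun _ => trivial,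
      k1 hχ⟩
  obtain ⟨χ, S, c1, -, c3, c4⟩ := exists_cf hP hx
  rw [← hΨ] at c1
  have c5 : ∀ x ∉ P, ∃ i, ∀ᶠ y in 𝓝 x, ∀ j ≥ i, χ j y = χ i y := fun x hx => (c4 x hx).imp
    fun i hi => hi.mono fun y hy j hj => (c3 j y (hy j hj)).trans (c3 i y (hy i le_rfl)).symm
  have c6 : ∀ x ∈ P, ∀ j, χ j x = 0 := fun x hx j => by_contra fun k => (hΨ ▸ (c1 j).src k) hx
  have f1 := fun j i n y e => Λ₀.cut_G_congr (c1 i) Λ' hu (x := y) (c1 j) (h1 n) e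
  have f2 := fun x hx j n => f1 j 0 n x ((c6 x hx j).trans (c6 x hx 0).symm)
  obtain ⟨r, hr⟩ := exists_rate hp (hn hne)
  obtain ⟨J, hJ, j1, j2⟩ := ((Dgl.all fun a => dgl_vcv hP (fun j => (k1 (c1 j)).1 a)
    (fun x hx => (c5 x hx).imp fun i hi => hi.mono fun y hy j hj n => (f1 j i n y (hy j hj) a).1)
      fun x hx j n => (f2 x hx j n a).1).and (Dgl.all fun a => dgl_cv hP (fun j => (k1 (c1 j)).2 a)
    (fun x hx => (c5 x hx).imp fun i hi => hi.mono fun y hy j hj n => (f1 j i n y (hy j hj) a).2)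
      fun x hx j n => (f2 x hx j n a).2)).exists_seq hr
  exact ⟨_, fun n => c1 (J n), fun n => S (J n), fun n => c3 _, fun x hx => (c4 x hx).elim
    fun i hi => ((hJ.eventually_ge_atTop i).prod_mk hi).mono fun q hq => hq.2 _ hq.1, j1, j2⟩

end cv

/-! ### converging backgrounds -/

section gs
variable {Y : Mf 4} {α lam : Type} [Fintype lam] (l : Ultrafilter α) (B : Base Y.M ι lam)
  (G : α → Geo Y.I Y.M ι lam) (B₀ : Base Z.M ι lam) (G₀ : Geo Z.I Z.M ι lam)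
  (H : α → Geo Z.I Z.M ι lam) (f : PartialDiffeomorph Z.I Y.I Z.M Y.M ∞) (S : α → Opens Z.M)
  (P : Set Z.M)

/-- a family on `Y` that is seen on `Z` through `f`, over the open sets `S n` -/
def rGs : Gs Y.I Z.I Z.M ι lam fun _ : α => Y.M where
  l := l
  B _ := B
  G := G
  B₀ := B₀
  G₀ := G₀
  H := H
  ψ n := f.toOpenPartialHomeomorph.restrOpen (S n) (S n).2
  P := P

variable {l B G B₀ G₀ H f S P}

theorem rGs_src (n : α) : ((rGs l B G B₀ G₀ H f S P).ψ n).source = f.source ∩ S n := rfl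

theorem rGs_ψ (n : α) (z : Z.M) : (rGs l B G B₀ G₀ H f S P).ψ n z = f z := rfl

theorem rGs_ok (hB : B.OK Y.I) (hG : ∀ n, (G n).OK B) (hB₀ : B₀.OK Z.I) (hG₀ : G₀.OK B₀)
    (hH : ∀ n, (H n).OK B₀) (hP : P.Finite) (hf : Pᶜ ⊆ f.source)
    (hS : ∀ x ∉ P, ∀ᶠ q in (l : Filter α) ×ˢ 𝓝 x, q.2 ∈ S q.1)
    (bo : ∀ x ∈ f.source, ∀ a b c d, B.o a b c d (f x) = B₀.o a b c d x)
    (bl : ∀ x ∈ f.source, B.l (f x) = B₀.l x) (il : B.il = B₀.il)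
    (hr : ∀ n, ∀ x ∈ f.source, x ∈ S n → ∀ a,
      mf Z.I Y.I f x ((H n).F.e a x) = (G n).F.e a (f x) ∧ (G n).a a (f x) = (H n).a a x)
    (he : FCv l univ (fun n => (H n).F) G₀.F) (ha : ∀ a, Cv Z.I l univ (fun n => (H n).a a) (G₀.a a)) :
    (rGs l B G B₀ G₀ H f S P).OK where
  h4 := Z.dim
  B _ := hB
  G := hG
  B₀ := hB₀
  G₀ := hG₀
  H := hH
  fin := hP
  src x hx := ((hS x hx).and (tendsto_snd.eventually (f.open_source.mem_nhds (hf hx)))).mono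
    fun _ hq => ⟨hq.2, hq.1⟩
  rel n := ⟨OpenPartialHomeomorph.open_source _, fun _ hx => Met55.pd_ld hx.1,
    fun a x hx => (hr n x hx.1 hx.2 a).1⟩
  bo _ x hx := bo x hx.1
  bl _ x hx := bl x hx.1
  il _ := il
  la n x hx a := (hr n x hx.1 hx.2 a).2
  e a := ⟨fun k x => (he a).mb k x trivial, fun x => (he a).pt x trivial⟩
  c := he.c isOpen_univ
  a := ha

end gs

end Crest.Agent.X212.M
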