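import Crest.Agent.X212.M.Scn
import Crest.Agent.X212.Cqn41.Q2
import Crest.Agent.X212.Mon62.NkI

/-!
# Row 212, layer M: the perturbations of a job converge along scenes
-/

set_option autoImplicit false
set_option linter.unusedSectionVars false
noncomputable section
open Set Function Filter Topology MeasureTheory
open scoped ContDiff Manifold Classical

namespace Crest.Agent.X212.M
open An An.Job Nd18 Cmp73 Eqv71 Shi84 Cyl58 Wrd81
open Cqn41 (psum)

/-- every index is the limit of exactly one index -/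
theorem sum_lim {A V : Type} [Fintype A] [AddCommMonoid V] {P Q : A → Option Bool → Prop}
    (f : ∀ i : A × Option Bool, P i.1 i.2 → V) (hu : ∀ a b, Q a none → ¬Q a (some b))
    (he : ∀ a b h, f (a, b) h = 0 ∨ ∃ e, Q a e ∧ (e = none ∨ b = e)) :
    ∑ i, (if h : P i.1 i.2 then f i h else 0) = ∑ i : A × Option Bool, if Q i.1 i.2 then
      ∑ b : {b // P i.1 b ∧ (i.2 = none ∨ b = i.2)}, f (i.1, b.1) b.2.1 else 0 := by
  rw [Fintype.sum_prod_type, Fintype.sum_prod_type]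
  refine Finset.sum_congr rfl fun a _ => ?_
  have e : ∀ e, (if Q a e then ∑ b : {b // P a b ∧ (e = none ∨ b = e)}, f (a, b.1) b.2.1 else 0) =
      ∑ b, if Q a e ∧ (e = none ∨ b = e) then (if h : P a b then f (a, b) h else 0) else 0 :=
    fun e => by
    by_cases q : Q a e
    · rw [if_pos q, Finset.sum_congr rfl fun b _ => (dif_pos (t := f (a, b.1)) (e := fun _ => 0)
        b.2.1).symm, ← Finset.sum_subtype {b | P a b ∧ (e = none ∨ b = e)} (by simp)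
        fun b => if h : P a b then f (a, b) h else 0, Finset.sum_filter]
      exact Finset.sum_congr rfl fun b _ => by by_cases p : P a b <;> simp [p, q]
    · simp [q]
  simp only [e]
  rw [Finset.sum_comm]
  refine Finset.sum_congr rfl fun b _ => ?_
  by_cases p : P a b
  · rcases he a b p with z | ⟨e, q⟩
    · simp [p, z]
    · rw [Finset.sum_eq_single e (fun e' _ ne => if_neg fun q' => ?_) (by simp), if_pos q]
      rcases q with ⟨q1, rfl | rfl⟩ <;> rcases q' with ⟨q2, rfl | rfl⟩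
      · exact ne rfl
      · cases b; exacts [ne rfl, hu a _ q1 q2]
      · cases b; exacts [ne rfl, hu a _ q2 q1]
      · exact ne rfl
  · simp [p]

section qt
variable {E : Type} [NormedAddCommGroup E] [NormedSpace ℝ E] [FiniteDimensional ℝ E]
  [MeasurableSpace E] [BorelSpace E]
  {HM : Type} [TopologicalSpace HM] {I : ModelWithCorners ℝ E HM} [I.Boundaryless]
  {E' : Type} [NormedAddCommGroup E'] [NormedSpace ℝ E'] [FiniteDimensional ℝ E']
  [MeasurableSpace E'] [BorelSpace E']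
  {H' : Type} [TopologicalSpace H'] {I' : ModelWithCorners ℝ E' H'} [I'.Boundaryless]
  {E₀ : Type} [NormedAddCommGroup E₀] [NormedSpace ℝ E₀] [FiniteDimensional ℝ E₀]
  [MeasurableSpace E₀] [BorelSpace E₀]
  {H₀ : Type} [TopologicalSpace H₀] {I₀ : ModelWithCorners ℝ E₀ H₀} [I₀.Boundaryless]
  {M : Type} [TopologicalSpace M] [ChartedSpace H₀ M] [IsManifold I₀ ∞ M] [MeasurableSpace M]
  [T2Space M] [BorelSpace M] [SecondCountableTopology M]
  {ι lam : Type} [Fintype ι] [Fintype lam] {α : Type}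
  {X : α → Type} [∀ n, TopologicalSpace (X n)] [∀ n, ChartedSpace HM (X n)]
  [∀ n, IsManifold I ∞ (X n)] [∀ n, MeasurableSpace (X n)] [∀ n, T2Space (X n)]
  [∀ n, BorelSpace (X n)] [∀ n, SecondCountableTopology (X n)]
  {Z : α → Type} [∀ n, TopologicalSpace (Z n)] [∀ n, ChartedSpace H' (Z n)]
  [∀ n, IsManifold I' ∞ (Z n)] [∀ n, MeasurableSpace (Z n)] [∀ n, T2Space (Z n)]
  [∀ n, BorelSpace (Z n)] [∀ n, SecondCountableTopology (Z n)] {r m : ℕ}
  {g : Gs I I₀ M ι lam X} {h : Up I' Z g r} {K : Type}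

/-- only the values at the limit configurations matter -/
theorem qt_congr {τ : ∀ n, Pt (Z n) ι lam r m} {τ' σ' : Pt M ι lam r m} (a : h.QT τ τ')
    (e : ∀ b u, g.LB h.x b u → (∀ z, σ'.D b z = τ'.D b z) ∧ (∀ z, σ'.C b z = τ'.C b z) ∧
      ∀ i, σ'.S b i = τ'.S b i) : h.QT τ σ' :=
  ⟨Cqn41.qv_congr' a.D (fun _ _ => rfl) fun b u l => (e b u l).1,
    fun s b u l => by simpa only [(e b u l).2.1] using a.L s b u l, a.C,
    fun i b u l => by simpa only [(e b u l).2.2] using a.S i b u l⟩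

/-- sums over active indices -/
theorem qt_dsum (k : h.OK) {A : Type} [Fintype A] {P : α → A × Option Bool → Prop}
    {P₀ : A → Option Bool → Prop} {ρ : ∀ n i, P n i → Pt (Z n) ι lam r m}
    {ρ₀ : ∀ i : A × Option Bool, P₀ i.1 i.2 → Pt M ι lam r m} (act : ∀ n i, P n i → ∀ n', P n' i)
    (hu : ∀ a b, (∀ n, P n (a, none)) → ¬∀ n, P n (a, some b))
    (h1 : ∀ a e (ha : ∀ n, P n (a, e)), h.QT (fun n => ρ n (a, e) (ha n))
      (psum fun b : {b // P₀ a b ∧ (e = none ∨ b = e)} => ρ₀ (a, b.1) b.2.1))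
    (h0 : ∀ b u, g.LB h.x b u → ∀ a e he, ((∀ z, (ρ₀ (a, e) he).D b z = 0) ∧
      (∀ z, (ρ₀ (a, e) he).C b z = 0) ∧ ∀ j, (ρ₀ (a, e) he).S b j = 0) ∨
      ∃ e', (∀ n, P n (a, e')) ∧ (e' = none ∨ e = e')) :
    h.QT (fun n => Pt.dsum _ (ρ n)) (Pt.dsum _ ρ₀) := by
  refine qt_congr ((Up.QT.sum k (τ := fun n j => if e : P n j then ρ n j e else
    ⟨fun _ => 0, fun _ => 0, fun _ => 0⟩) (τ' := fun j => if ∀ n, P n j then
      psum fun b : {b // P₀ j.1 b ∧ (j.2 = none ∨ b = j.2)} => ρ₀ (j.1, b.1) b.2.1 else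
      ⟨fun _ => 0, fun _ => 0, fun _ => 0⟩) fun j => ?_).congr (fun i => ⟨fun _ => ?_, fun _ => ?_,
      fun _ => ?_⟩) fun _ => ⟨fun _ => rfl, fun _ => rfl, fun _ => rfl⟩)
    fun b u l => ⟨fun z => ?_, fun z => ?_, fun z => ?_⟩
  · by_cases ha : ∀ n, P n j
    · rw [if_pos ha, funext fun i => dif_pos (ha i)]
      exact h1 j.1 j.2 ha
    · rw [if_neg ha, funext fun i => dif_neg fun e => ha (act i _ e)]
      exact Up.QT.zero k
  iterate 3 exact Finset.sum_congr rfl fun j _ => by split_ifs <;> rfl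
  · exact (sum_lim (fun i hi => (ρ₀ i hi).D b z) hu fun a e he => (h0 b u l a e he).imp_left
      (·.1 z)).trans (Finset.sum_congr rfl fun j _ => by split_ifs <;> rfl)
  · exact (sum_lim (fun i hi => (ρ₀ i hi).C b z) hu fun a e he => (h0 b u l a e he).imp_left
      (·.2.1 z)).trans (Finset.sum_congr rfl fun j _ => by split_ifs <;> rfl)
  · exact (sum_lim (fun i hi => (ρ₀ i hi).S b z) hu fun a e he => (h0 b u l a e he).imp_left
      (·.2.2 z)).trans (Finset.sum_congr rfl fun j _ => by split_ifs <;> rfl)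

variable (k : h.OK) {τ : ∀ n, K → Pt (Z n) ι lam r m} {q : α → K →₀ ℝ} {q₀ : K →₀ ℝ}
  (hq : St.Cv (g.l : Filter α) q q₀)
include k hq

theorem qt_fsum {τ' : K → Pt M ι lam r m} {T : Finset K} (h0 : ∀ w ∉ T, q₀ w = 0 ∧ ∀ n, q n w = 0)
    (a : ∀ w ∈ T, h.QT (τ · w) (τ' w)) : h.QT (fun n => fsum (τ n) (q n)) (fsum τ' q₀) := by
  have e : ∀ n, ∀ w ∈ (q n).support, w ∈ T := fun n w hw => by_contra fun k =>
    Finsupp.mem_support_iff.1 hw ((h0 w k).2 n)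
  have e' : ∀ w ∈ q₀.support, w ∈ T := fun w hw => by_contra fun k =>
    Finsupp.mem_support_iff.1 hw (h0 w k).1
  refine (Up.QT.fsum k hq (τ := fun n w => if w ∈ T then τ n w else ⟨fun _ => 0, fun _ => 0, fun _ => 0⟩)
    (τ' := fun w => if w ∈ T then τ' w else ⟨fun _ => 0, fun _ => 0, fun _ => 0⟩) fun w => ?_).congr
    (fun n => ⟨fun _ => ?_, fun _ => ?_, fun _ => ?_⟩) fun _ => ⟨fun _ => ?_, fun _ => ?_, fun _ => ?_⟩
  · by_cases hw : w ∈ T
    · simpa only [if_pos hw] using a w hw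
    · simpa only [if_neg hw] using Up.QT.zero k
  iterate 3 exact Finset.sum_congr rfl fun w hw => by simp only [if_pos (e n w hw)]
  iterate 3 exact Finset.sum_congr rfl fun w hw => by simp only [if_pos (e' w hw)]

theorem qt_psum {J : Type} [Fintype J] {τ' : J → K → Pt M ι lam r m}
    (a : ∀ w, h.QT (τ · w) (psum (τ' · w))) :
    h.QT (fun n => fsum (τ n) (q n)) (psum fun j => fsum (τ' j) q₀) :=
  (Up.QT.fsum k hq a).congr (fun _ => ⟨fun _ => rfl, fun _ => rfl, fun _ => rfl⟩) fun _ => by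
    simp only [psum, fsum, Finsupp.sum, Finset.smul_sum, Finset.mul_sum]
    exact ⟨fun _ => Finset.sum_comm, fun _ => Finset.sum_comm, fun _ => Finset.sum_comm⟩

end qt

variable {Wi : Type} {X : Mf 4} {A κ lam : Type} [Fintype A] [Fintype κ] [Fintype lam]
  [DecidableEq lam] {M : Mark X A κ} {W : World M} {N : ML M lam} {Λ : Lns W N} {A' h : Type}
  [Fintype A'] [DecidableEq A'] [Fintype h] {r n : ℕ} {J : Job Wi Λ A' h r n}
  {Adm : (Wi →₀ ℝ) → Prop} {α : Type} {c c₀ : M.Cl} {F : Fam J α c c₀} (k : F.OK Adm)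
  (hJ : J.OK)

variable (J) in
/-- the non-gradient terms of one neck -/
def q2w (w : Wi) (c : M.Cl) (s : A' → ℝ) (i : A × Option Bool) (hi : J.Ac c s i) :
    Pt (W.Z c).M (Option κ) (lam ⊕ lam) r n :=
  fsum (fun T => (J.xs i.1).N.q2 (J.K c i.1 i.2 _ hi) T.1) (J.ν i.1 s • (J.xs i.1).ty w)

include k hJ

theorem fam_Br (i : α) : F.p i ∈ M.Br c.1 := hJ.memBr k.mem (k.sol i).ov

theorem fam_cv {f : (A' → ℝ) → ℝ} (hf : ContDiff ℝ ∞ f) :
    Tendsto (fun i => f (F.y i).s) F.l (𝓝 (f F.s₀)) := (hf.continuous.tendsto _).comp k.s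

/-- a neck of the limit that is switched on is a limit of a neck -/
theorem fam_ex {a : A} {b : Option Bool} (hb : F.Ac₀ a b) (h0 : J.ν a F.s₀ ≠ 0) :
    ∃ e, F.Ac a e ∧ (e = none ∨ b = e) := by
  by_cases ha : a ∈ c.1
  · rcases b with _ | b
    · exact (hb.2.2.2.2.1.1 (k.sub ha)).elim
    · exact ⟨some b, fun i => ⟨hb.1, fam_Br k hJ i, fam_O k hJ i, ha⟩, .inr rfl⟩
  · obtain ⟨i, hi⟩ := ((fam_cv k hJ (hJ.ν a)).eventually_ne h0).exists
    have e := hJ.ν0 a _ hi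
    have br := fam_Br k hJ i
    exact ⟨none, k.act a none i ⟨hb.1, br, fam_O k hJ i, e.1, ⟨ha, fun a' ha' => br.1.2
      (show (F.p i).2 a ≠ 0 by linarith [e.2]) (Sys.inf_subset _ (br.2 ha'))
      (by rintro rfl; exact ha ha')⟩, by linarith [e.2]⟩, .inl rfl⟩

variable {S : F.Sc} (hS : S.OK)
include hS

/-- sums over the active necks -/
theorem qt_nk {ρ : ∀ c s i, J.Ac c s i → Pt (W.Z c).M (Option κ) (lam ⊕ lam) r n}
    (h1 : ∀ a e (ha : F.Ac a e), S.up.QT (fun i => ρ c (F.y i).s (a, e) (ha i))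
      (psum fun b : LJ c₀ a J.m F.p₀ e => ρ c₀ F.s₀ (a, b.1) b.2.1))
    (h0 : ∀ b u, S.g.LB S.x b u → ∀ i hi, J.ν i.1 F.s₀ = 0 → (∀ z, (ρ c₀ F.s₀ i hi).D b z = 0) ∧
      (∀ z, (ρ c₀ F.s₀ i hi).C b z = 0) ∧ ∀ j, (ρ c₀ F.s₀ i hi).S b j = 0) :
    S.up.QT (fun i => Pt.dsum _ (ρ c (F.y i).s)) (Pt.dsum _ (ρ c₀ F.s₀)) := by
  obtain ⟨i₀⟩ := F.l.neBot.nonempty
  have hu : ∀ a b, F.Ac a none → ¬F.Ac a (some b) := fun a b p q => (p i₀).2.2.2.2.1.1 (q i₀).2.2.2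
  exact qt_dsum hS.up (P₀ := F.Ac₀) (fun i j e => k.act _ _ i e) hu h1 fun b u l a e he =>
    (em _).imp (h0 b u l _ he) (fam_ex k hJ he)

omit k hJ hS in
theorem qt_qn {a e} {O : LJ c₀ a J.m F.p₀ e → Set (W.Z c₀).M}
    {τ : α → Pt (W.Z c).M (Option κ) (lam ⊕ lam) r n} {τ' : LJ c₀ a J.m F.p₀ e → _}
    (h : Cqn41.NU.QN (g := S.g) (c := S.x) (I' := (W.Z c).I) (Z := fun _ : α => (W.Z c).M)
      ⟨S.up.B, S.up.G, S.up.y, S.up.O, S.up.φ, S.up.ψ, S.up.U, S.up.v, S.up.u, O⟩ τ τ') :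
    S.up.QT τ (psum τ') := h

theorem qt_τ0 (hN : NQJ J Adm) : S.up.QT (fun i => J.τ0 c (F.y i).s) (J.τ0 c₀ F.s₀) := by
  refine qt_nk k hJ hS (ρ := fun c s i hi => ((J.xs i.1).N.smul (J.ν i.1 s)).q1 (J.K c i.1 i.2 _ hi))
    (fun a e ha => ?_) fun b u l i hi e => ?_
  · obtain ⟨O, o⟩ := hS.nu a e ha
    have q := o.q1 n _ (Th31.cux hS.up.bk.ok hS.up.bk.adm) (hN _ _ _ F k S hS a e ha O o).cyc _
      (hJ.xs a).2 _ _ (fam_cv k hJ (hJ.ν a))
    exact qt_qn q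
  · have := fun z => Mon62.q1_smul (n := n) (J.K c₀ i.1 i.2 _ hi)
      (Mp86.bumps_of_tame _ hS.up.bk.tame.choose_spec) l.lim.adm.conn (hJ.xs i.1).2.sm 0 z
    simp only [zero_smul] at this
    rw [e]
    exact ⟨fun z => (this z).1, fun z => (this z).2, fun _ => rfl⟩

theorem qt_q2 (hN : NQJ J Adm) (w : Wi) : S.up.QT (fun i => Pt.dsum _ (q2w J w c (F.y i).s))
    (Pt.dsum _ (q2w J w c₀ F.s₀)) := by
  refine qt_nk k hJ hS (fun a e ha => ?_) fun b u l i hi e => by simp [e, fsum, q2w]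
  obtain ⟨O, o⟩ := hS.nu a e ha
  have q := hN _ _ _ F k S hS a e ha O o
  have cv : St.Cv (F.l : Filter α) (fun i => J.ν a (F.y i).s • (J.xs a).ty w)
      (J.ν a F.s₀ • (J.xs a).ty w) := ⟨((J.xs a).ty w).support, fun i T hT => by
    simp [Finsupp.notMem_support_iff.1 hT], fun T => (fam_cv k hJ (hJ.ν a)).mul_const _⟩
  refine qt_psum hS.up (τ := fun i (T : YW _ _) => (J.xs a).N.q2 (J.K c a e _ (ha i)) T.1) cv
    (τ' := fun (b : LJ c₀ a J.m F.p₀ e) T => (J.xs a).N.q2 (J.K c₀ a b.1 _ b.2.1) T.1) fun T => ?_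
  have := o.q2 n _ (hJ.xs a).2 q.ew T.1 T.2 (q.cv _ T.2)
  exact qt_qn this

theorem qt_tw (hT : TMS J) {w : Wi} (hw : ∀ i j, J.co w (F.y i).s = 0 → J.co w (F.y j).s = 0) :
    S.up.QT (fun i => (An.tmP (J.B c) (J.G c (F.y i).s).F (Fin37.tm J c w)).smul (J.co w (F.y i).s))
      ((An.tmP (J.B c₀) (J.G c₀ F.s₀).F (Fin37.tm J c₀ w)).smul (J.co w F.s₀)) := by
  have t := fam_cv k hJ (hJ.co w)
  by_cases h0 : ∃ i, J.co w (F.y i).s = 0
  · have e := fun j => hw _ j h0.choose_spec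
    have e' : J.co w F.s₀ = 0 := tendsto_nhds_unique t (by simpa only [e] using tendsto_const_nhds)
    exact (Up.QT.zero hS.up).congr (fun i => by simp [Pt.smul, e]) fun b => by simp [Pt.smul, e']
  push Not at h0
  obtain ⟨V, h1, s₁, h2, h3⟩ := hJ.tw w
  have sub : (M.sys.cores (J.hw \ V))ᶜ ⊆ (M.sys.cores c₀.1)ᶜ := fun x =>
    Mark.cores_mono (σ' := J.hw \ V) fun a ha => ⟨hJ.sub_hw k.mem (fam_ov k) ha, fun hv =>
      let ⟨a', e1, e2⟩ := hJ.inf _ k.mem _ (fam_ov k).1 a (k.inf.ge ha)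
      let ⟨i, hi⟩ := ((((continuous_apply a').tendsto _).comp k.s).eventually
        (lt_mem_nhds (h2.trans_eq e2.symm))).exists
      h0 i (h3 _ k.mem _ (k.sol i).ov.1 a' a e1 hv hi.le)⟩
  have tk : TK S.g (fun _ => S.t) (J.tp c₀) (M.sys.cores (J.hw \ V))ᶜ :=
    ⟨fun u hu => hS.tk.f u ⟨hu.sm, hu.hcs, hu.sub.trans sub⟩,
      fun u hu => hS.tk.s u ⟨hu.sm, hu.hcs, hu.sub.trans sub⟩⟩
  obtain ⟨s, C, b⟩ := k.bd
  obtain ⟨m, hm⟩ := hT w
  obtain ⟨x, -⟩ := nonempty_U (M := M) (c := c)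
  have ti := fun i => (hJ.tp_in k.mem (k.sol i).ov fun x hx => Mark.cores_mono k.sub (sub hx)).tm h1
  exact (hS.up.tm (hS.wr fun _ => W.φ c x) (tk.tm hS.up.bk.ok S.x h1) (fun _ => hS.rel.tm _)
    (fun i => (ti i).ok _) (fun i => tmZ_in (by
      rintro _ ⟨y, hy, rfl⟩; exact ⟨_, (hS.jf.e y (sub hy)).1⟩) (ti i))
    fun i => Abel74.tmB_le (b i).g.lh (b i).g.wts (zero_le_one.trans (b i).g.le.one) (b i).g.le.int
      (b i).g.le.F ((ti i).ok _) (hm c _ ⟨_, k.mem, (k.sol i).cell, (k.sol i).inf⟩ (h0 i)) _).smul t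

omit k hS in
/-- **JQT** -/
theorem jqt (hT : TMS J) (hN : NQJ J Adm) : JQT J Adm := fun _ _ _ _ k _ hS =>
  let ⟨_, h0, h1⟩ := k.co
  (qt_τ0 k hJ hS hN).add (qt_fsum hS.up k.cv h0 fun w hw =>
    (qt_tw k hJ hS hT fun i j => (h1 w hw i j).1).add (qt_q2 k hJ hS hN w))

end Crest.Agent.X212.M
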