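import Crest.Agent.X212.M.Gfk
import Crest.Agent.X212.Nd18.Api

/-!
# Row 212, layer M: convergence of necks along a converging family of backgrounds
-/

set_option autoImplicit false
set_option linter.unusedSectionVars false
set_option linter.dupNamespace false
noncomputable section
open Set Function Filter Topology
open scoped ContDiff Manifold

namespace Crest.Agent.X212.M
open An Cmp73 Nd18

/-! ### ends of intervals -/

section ec
variable {α : Type} {l : Filter α} {o o₁ : α → Option ℝ} {s T : α → ℝ} {o' o₁' : Option ℝ} {σ t d : ℝ}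

variable (l o s o' σ) in
/-- the end points `o n - s n` converge to `o'` (`none` = `σ ∞`) -/
def EC : Prop := o'.elim (∀ R, ∀ᶠ n in l, ∀ a ∈ o n, R ≤ σ * (a - s n))
  fun a' => ∃ a : α → ℝ, Tendsto a l (𝓝 a') ∧ ∀ᶠ n in l, o n = some (a n + s n)

theorem EC.cst : EC l (fun _ => o') (fun _ => 0) o' σ := by
  cases o' with
  | none => exact fun _ => .of_forall fun _ _ h => nomatch h
  | some a => exact Exists.intro (fun _ => a) ⟨tendsto_const_nhds, .of_forall fun _ => by simp⟩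

theorem EC.congr (h : EC l o s o' σ) (e : ∀ᶠ n in l, o₁ n = o n) : EC l o₁ s o' σ := by
  cases o'
  exacts [fun R => ((h R).and e).mono fun _ k => k.2 ▸ k.1,
    h.imp fun _ k => ⟨k.1, (k.2.and e).mono fun _ k => k.2.trans k.1⟩]

theorem EC.tend (h : EC l o s o' σ) {φ : ℝ → ℝ} (hφ : Continuous φ) {v R : ℝ}
    (hv : ∀ x, R ≤ x → φ x = v) (hT : Tendsto T l (𝓝 t)) :
    Tendsto (fun n => (o n).elim v fun a => φ (σ * (a - (T n + s n)))) l
      (𝓝 (o'.elim v fun a => φ (σ * (a - t)))) := by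
  cases o' with
  | none =>
    refine tendsto_const_nhds.congr' (((h (R + σ * t + 1)).and ((hT.const_mul σ).eventually
      (gt_mem_nhds (lt_add_one _)))).mono fun n hn => ?_)
    beta_reduce
    cases e : o n with
    | none => rfl
    | some a => exact (hv _ (by have := hn.1 a e; have := hn.2; linarith)).symm
  | some a' =>
    obtain ⟨a, h1, h2⟩ := h
    refine ((hφ.tendsto _).comp ((h1.sub hT).const_mul σ)).congr' (h2.mono fun n hn => ?_)
    beta_reduce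
    rw [hn]; exact congrArg φ (by ring)

theorem EC.pos (h : EC l o s o' σ) (hT : Tendsto T l (𝓝 t)) (ht : ∀ a ∈ o', 0 < σ * (a - t)) :
    ∀ᶠ n in l, ∀ a ∈ o n, 0 < σ * (a - (T n + s n)) := by
  cases o' with
  | none =>
    exact ((h (σ * t + 1)).and ((hT.const_mul σ).eventually (gt_mem_nhds (lt_add_one _)))).mono
      fun n hn a e => by have := hn.1 a e; have := hn.2; linarith
  | some a' =>
    obtain ⟨a, h1, h2⟩ := h
    exact (h2.and (((h1.sub hT).const_mul σ).eventually (lt_mem_nhds (ht _ rfl)))).mono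
      fun n hn b e => by
        obtain rfl := Option.some.inj (hn.1.symm.trans e)
        have := hn.2; linarith

theorem tend_ct (hp : EC l o s o' (-1)) (hq : EC l o₁ s o₁' 1) (hT : Tendsto T l (𝓝 t)) (d : ℝ) :
    Tendsto (fun n => ct (o n) (o₁ n) d (T n + s n)) l (𝓝 (ct o' o₁' d t)) := by
  have c : Continuous fun x => Real.smoothTransition (x - d) := by fun_prop
  have v : ∀ x, d + 1 ≤ x → Real.smoothTransition (x - d) = 1 := fun x hx =>
    Real.smoothTransition.one_of_one_le (by linarith)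
  simpa only [ct, neg_mul, one_mul, neg_sub] using (hp.tend c v hT).mul (hq.tend c v hT)

theorem tend_tf (hp : EC l o s o' (-1)) (hq : EC l o₁ s o₁' 1) (hT : Tendsto T l (𝓝 t)) :
    Tendsto (fun n => tf (o n) (o₁ n) (T n + s n) - s n) l (𝓝 (tf o' o₁' t)) := by
  have := (hT.sub (hp.tend contDiff_fl.continuous (fun _ => fl_ge) hT)).add
    (hq.tend contDiff_fl.continuous (fun _ => fl_ge) hT)
  simp only [neg_mul, one_mul, neg_sub] at this
  exact this.congr fun n => by simp only [tf]; ring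

theorem tend_dtf (hp : EC l o s o' (-1)) (hq : EC l o₁ s o₁' 1) (hT : Tendsto T l (𝓝 t)) :
    Tendsto (fun n => deriv (tf (o n) (o₁ n)) (T n + s n)) l (𝓝 (deriv (tf o' o₁') t)) := by
  have c : Continuous fun x => deriv fl x := contDiff_fl.continuous_deriv (by simp)
  have v : ∀ x, 2 ≤ x → deriv fl x = 0 := fun x hx => by
    rw [show deriv fl x = deriv (fun _ => (0 : ℝ)) x from EventuallyEq.deriv_eq
      ((eventually_gt_nhds (show 1 < x by linarith)).mono fun _ h => fl_ge h.le), deriv_const]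
  simpa only [deriv_tf, neg_mul, one_mul, neg_sub, sub_eq_add_neg, neg_add_rev, neg_neg, add_comm] using
    (((hp.tend c v hT).const_mul (-1)).const_add 1).add ((hq.tend c v hT).const_mul (-1))

/-- uniformly bounded functions converge along moving points -/
theorem tend_bd {β : α → ℝ → ℝ} {C : ℕ → ℝ} {v : ℝ} (h : ∀ᶠ n in l, BD (β n) C)
    (hv : Tendsto (fun n => β n (t + s n)) l (𝓝 v)) (hT : Tendsto T l (𝓝 t)) :
    Tendsto (fun n => β n (T n + s n)) l (𝓝 v) := by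
  refine hv.congr_dist (squeeze_zero' (g := fun n => C 1 * ‖T n - t‖)
    (.of_forall fun _ => dist_nonneg) (h.mono fun n h => ?_) ?_)
  · rw [dist_comm, dist_eq_norm, show T n - t = T n + s n - (t + s n) by ring]
    exact convex_univ.norm_image_sub_le_of_norm_deriv_le
      (fun x _ => h.1.differentiable (by simp) x)
      (fun x _ => iteratedDeriv_one (f := β n) ▸ h.2 1 1 le_rfl x) trivial trivial
  · simpa using (tendsto_iff_norm_sub_tendsto_zero.1 hT).const_mul (C 1)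

end ec

variable {E : Type} [NormedAddCommGroup E] [NormedSpace ℝ E] [FiniteDimensional ℝ E]
  [MeasurableSpace E] [BorelSpace E]
  {HM : Type} [TopologicalSpace HM] {I : ModelWithCorners ℝ E HM} [I.Boundaryless]
  {E₀ : Type} [NormedAddCommGroup E₀] [NormedSpace ℝ E₀] [FiniteDimensional ℝ E₀]
  [MeasurableSpace E₀] [BorelSpace E₀]
  {H₀ : Type} [TopologicalSpace H₀] {I₀ : ModelWithCorners ℝ E₀ H₀} [I₀.Boundaryless]
  {M : Type} [TopologicalSpace M] [ChartedSpace H₀ M] [IsManifold I₀ ∞ M] [MeasurableSpace M]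
  [BorelSpace M] [T2Space M] [SecondCountableTopology M] {lam α : Type} [Fintype lam]
  {X : α → Type} [∀ n, TopologicalSpace (X n)] [∀ n, ChartedSpace HM (X n)]
  [∀ n, IsManifold I ∞ (X n)] [∀ n, MeasurableSpace (X n)] [∀ n, BorelSpace (X n)]
  [∀ n, T2Space (X n)] [∀ n, SecondCountableTopology (X n)] {r : ℕ}
  {V : Type} [NormedAddCommGroup V] [NormedSpace ℝ V] [FiniteDimensional ℝ V]

/-! ### uniformly bounded fields -/

theorem ev_src {ι : Type} [Fintype ι] {g : Gs I I₀ M ι lam X} (hg : g.OK) {x : M} (hx : x ∉ g.P) :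
    ∀ᶠ n in (g.l : Filter α), x ∈ (g.ψ n).source :=
  (hg.src x hx).curry.mono fun _ hn => hn.self_of_nhds

section fc
variable {ι : Type} [Fintype ι] {g : Gs I I₀ M ι lam X} (hg : g.OK) (c : ∀ n, Cfg (X n) ι lam r)
  {f : ∀ n, X n → V} {f' : M → V} {C : ℕ → ℝ}

variable (g f C) in
/-- smooth fields with eventually uniform bounds -/
structure UC : Prop where
  sm : ∀ n, Sm I (f n)
  b : ∀ᶠ n in (g.l : Filter α), (g.G n).F.CBs (f n) C

theorem UC.of (h : ∀ n, (g.G n).F.CBs (f n) C) : UC g f C := ⟨fun n => (h n).1, .of_forall h⟩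

variable (h : UC g f C)
include h

theorem UC.cb (U : Set M) (x : M) : (g.fb c (g.F U x)).CB (tv X ι fun _ => V) f :=
  Fb.cb_iff.2 ⟨fun _ _ => contMDiff_const, h.sm, fun v => ⟨C v.length, eventually_map.2
    (ev_nF.2 <| .of_forall fun _ => (tendsto_fst.eventually h.b).mono fun q hq =>
      (congrArg norm (congrFun (Shi84.Dw_tv (g.G q.1).F.toPre v _) _)).trans_le (hq.2 _ v le_rfl _))⟩⟩

theorem UC.ub : g.UB f := ⟨C 0, h.b.mono fun _ hn => hn.2 0 [] le_rfl⟩

theorem UC.D (a : ι) : UC g (fun n => (g.G n).F.D a (f n)) fun k => C (k + 1) :=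
  ⟨fun n => (g.G n).F.sm_D (h.sm n) a, h.b.mono fun n hn =>
    ⟨(g.G n).F.sm_D hn.1 a, fun k => Sob92.CB_D (hn.2 (k + 1)) a⟩⟩

include hg

/-- uniform bounds and pointwise convergence -/
theorem UC.fc (sm : Sm I₀ f')
    (pt : ∀ x ∉ g.P, Tendsto (fun n => f n (g.ψ n x)) g.l (𝓝 (f' x))) : g.FC c f f' :=
  ⟨fun _ => h.cb c _ _, h.ub, sm, fun k _ hx => Shi84.mb_of_cb hg subset_rfl hx k (h.cb c _ _), pt⟩

theorem UC.fc_D (k : g.FC c f f') (a : ι) :
    g.FC c (fun n => (g.G n).F.D a (f n)) (g.G₀.F.D a f') := by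
  refine (h.D a).fc hg c (g.G₀.F.sm_D k.sm a) fun x hx => ?_
  refine ((Loc66.FCv.D (F := fun n => (g.H n).F) (fun a => ⟨fun k x _ => (hg.e a).mb k x,
    fun x _ => (hg.e a).pt x⟩) hg.fin.isClosed.isOpen_compl k.cv a).pt x hx).congr'
    ((ev_src hg hx).mono fun n hn => (hg.rel n).D hn a (.of_forall fun _ => rfl))

omit h in
/-- compact support -/
theorem fk_of_fc (k : g.FC c f f') {L : Set M} (hL : IsCompact L) (hP : L ⊆ g.Pᶜ)
    (z' : ∀ x ∈ g.P, f' x = 0) (z : ∀ᶠ n in (g.l : Filter α), ∀ x ∉ g.ψ n '' L, f n x = 0) :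
    g.FK c f f' := by
  refine ⟨k, L, hL, hP, fun x hx => by_cases (z' x) fun e => ?_, z⟩
  refine tendsto_nhds_unique (k.cv.pt x e) (tendsto_const_nhds.congr' ?_)
  filter_upwards [z, ev_src hg e, ev_compact hL (p := fun n x => x ∈ (g.ψ n).source)
    fun x hx => hg.src x (hP hx)] with n h1 h2 h3
  exact (h1 _ fun ⟨y, hy, e'⟩ => hx ((g.ψ n).injOn (h3 y hy) h2 e' ▸ hy)).symm

end fc

/-! ### convergent necks -/

section nk
variable {E3 : Type} [NormedAddCommGroup E3] [NormedSpace ℝ E3] [FiniteDimensional ℝ E3]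
  [MeasurableSpace E3] [BorelSpace E3]
  {H3 : Type} [TopologicalSpace H3] {I3 : ModelWithCorners ℝ E3 H3} [I3.Boundaryless]
  {Y : Type} [TopologicalSpace Y] [ChartedSpace H3 Y] [IsManifold I3 ∞ Y] [T2Space Y]
  [MeasurableSpace Y] [BorelSpace Y] [SecondCountableTopology Y] [CompactSpace Y]
  {κ : Type} [Fintype κ] {D : YD I3 Y κ lam} {g : Gs I I₀ M (Option κ) lam X}
  {K : ∀ n, Nk D (g.B n) (g.G n)} {J : Type} [Fintype J]

variable (g K) in
/-- the part of the neck `K n` around the time `s n` converges to the neck `K'` -/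
structure NkC (K' : Nk D g.B₀ g.G₀) (s : α → ℝ) : Prop where
  P : K'.ψ.target ⊆ g.Pᶜ
  tm : ∀ x ∈ K'.ψ.target, Tendsto (fun n => (K n).tm (g.ψ n x) - s n) g.l (𝓝 (K'.tm x))
  y : ∀ x ∈ K'.ψ.target, ∀ᶠ n in (g.l : Filter α), ((K n).ψ.symm (g.ψ n x)).1 = (K'.ψ.symm x).1
  p : EC g.l (fun n => (K n).p) s K'.p (-1)
  q : EC g.l (fun n => (K n).q) s K'.q 1
  tight : ∀ R, ∃ L, IsCompact L ∧ L ⊆ K'.ψ.target ∧ ∀ᶠ n in (g.l : Filter α),
    ∀ x ∈ (K n).dp (1 / 2), |(K n).tm x - s n| ≤ R → x ∈ g.ψ n '' L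

variable (g K) in
/-- the necks `K' j` are all the limits of the neck `K n` -/
structure NkS (K' : J → Nk D g.B₀ g.G₀) (s : J → α → ℝ) : Prop where
  one : ∀ j, NkC g K (K' j) (s j)
  off : ∀ x ∉ g.P, (∀ j, x ∉ (K' j).ψ.target) →
    ∀ᶠ n in (g.l : Filter α), g.ψ n x ∉ (K n).dp (1 / 2)
  sep : ∃ O : J → Set M, (∀ j, IsClopen (O j)) ∧ Pairwise (Disjoint on O) ∧
    ∀ j, (K' j).ψ.target ⊆ O j

theorem push_zero {B : Base M (Option κ) lam} {G : Geo I₀ M (Option κ) lam} (K : Nk D B G)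
    {u : Y × ℝ → V} {x : M} (h : x ∈ K.ψ.target → ∀ y, u (y, K.tm x) = 0) : K.push u x = 0 := by
  by_cases hx : x ∈ K.ψ.target
  · rw [Nk.push, Sob92.pull_of_mem (φ := K.ψ.symm) hx, ← h hx (K.ψ.symm x).1, ← K.snd_symm hx]
  · exact Sob92.pull_of_notMem (φ := K.ψ.symm) hx _

variable (D K) in
/-- uniformly bounded functions on the cylinder which vanish at small depth -/
structure UF (u : α → Y × ℝ → V) (C : ℕ → ℝ) : Prop where
  sm : ∀ n, Sm (Cyf70.IC I3) (u n)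
  b : ∀ᶠ n in (g.l : Filter α), D.Z.CBs (u n) C
  z : ∀ n z, z.2 ∉ Dp (K n).p (K n).q (1 / 2) → u n z = 0

theorem UF.uc {u : α → Y × ℝ → V} {C : ℕ → ℝ} (h : UF D K u C) :
    UC g (fun n => (K n).push (u n)) fun k => |C k| :=
  ⟨fun n => Sob92.sm_pull (Sob92.iso_symm (K n).iso) (h.sm n) ((K n).adm one_half_pos (h.z n)),
    h.b.mono fun n hn => (K n).CBs_push one_half_pos hn (h.z n)⟩

variable (g) in
/-- the limit of the shifted functions -/
structure UL (K' : Nk D g.B₀ g.G₀) (s : α → ℝ) (u : α → Y × ℝ → V) (u' : Y × ℝ → V) : Prop where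
  sm : Sm (Cyf70.IC I3) u'
  z : ∀ z, z.2 ∉ Dp K'.p K'.q (1 / 2) → u' z = 0
  cv : ∀ y t (T : α → ℝ), Tendsto T g.l (𝓝 t) →
    Tendsto (fun n => u n (y, T n + s n)) g.l (𝓝 (u' (y, t)))

theorem UL.sm_push {K' : Nk D g.B₀ g.G₀} {s : α → ℝ} {u : α → Y × ℝ → V} {u' : Y × ℝ → V}
    (h : UL g K' s u u') : Sm I₀ (K'.push u') :=
  Sob92.sm_pull (Sob92.iso_symm K'.iso) h.sm (K'.adm one_half_pos h.z)

theorem UF.time {β : α → ℝ → ℝ} {C : ℕ → ℝ} (hs : ∀ n, ContDiff ℝ ∞ (β n))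
    (hb : ∀ᶠ n in (g.l : Filter α), BD (β n) C)
    (z : ∀ n, ∀ t ∉ Dp (K n).p (K n).q (1 / 2), β n t = 0) : UF D K (fun n z => β n z.2) C :=
  ⟨fun n => Cyf70.sm_snd (hs n), hb.mono fun _ hn => hn.cyl D.F.toPre, fun n y => z n y.2⟩

theorem UL.time {K' : Nk D g.B₀ g.G₀} {s : α → ℝ} {β : α → ℝ → ℝ} {β' : ℝ → ℝ} {C : ℕ → ℝ}
    (hb : ∀ᶠ n in (g.l : Filter α), BD (β n) C) (sm : ContDiff ℝ ∞ β')
    (z' : ∀ t ∉ Dp K'.p K'.q (1 / 2), β' t = 0)
    (cv : ∀ t, Tendsto (fun n => β n (t + s n)) g.l (𝓝 (β' t))) :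
    UL g K' s (fun n z => β n z.2) fun z => β' z.2 :=
  ⟨Cyf70.sm_snd sm, fun y => z' y.2, fun _ t _ hT => tend_bd hb (cv t) hT⟩

theorem dtf_zero {B : Base M (Option κ) lam} {G : Geo I₀ M (Option κ) lam} (K : Nk D B G) {t : ℝ}
    (h : t ∉ Dp K.p K.q (1 / 2)) : deriv (tf K.p K.q) t = 0 :=
  image_eq_zero_of_notMem_tsupport fun e => h (tsupport_dtf K.len e)

namespace NkC
variable {K' : Nk D g.B₀ g.G₀} {s : α → ℝ} (h : NkC g K K' s) {x : M}
include h

theorem tgt (hx : x ∈ K'.ψ.target) : ∀ᶠ n in (g.l : Filter α), g.ψ n x ∈ (K n).ψ.target := by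
  have k : K'.tm x ∈ Jv K'.p K'.q := by rwa [K'.tgt] at hx
  filter_upwards [h.p.pos (h.tm x hx) fun a e => by linarith [k.1 a e],
    h.q.pos (h.tm x hx) fun a e => by linarith [k.2 a e]] with n h1 h2
  rw [(K n).tgt]
  exact ⟨fun a e => by linarith [h1 a e], fun a e => by linarith [h2 a e]⟩

theorem symm_eq (hx : x ∈ K'.ψ.target) : ∀ᶠ n in (g.l : Filter α),
    (K n).ψ.symm (g.ψ n x) = ((K'.ψ.symm x).1, (K n).tm (g.ψ n x) - s n + s n) :=
  ((h.y x hx).and (h.tgt hx)).mono fun n hn =>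
    Prod.ext hn.1 (((K n).snd_symm hn.2).trans (sub_add_cancel _ _).symm)

theorem cut (d : ℝ) {T : α → ℝ} {t : ℝ} (hT : Tendsto T g.l (𝓝 t)) :
    Tendsto (fun n => (K n).cut d (T n + s n)) g.l (𝓝 (K'.cut d t)) := tend_ct h.p h.q hT d

theorem tf {T : α → ℝ} {t : ℝ} (hT : Tendsto T g.l (𝓝 t)) :
    Tendsto (fun n => tf (K n).p (K n).q (T n + s n) - s n) g.l (𝓝 (tf K'.p K'.q t)) :=
  tend_tf h.p h.q hT

theorem τ (hx : x ∈ K'.ψ.target) :
    Tendsto (fun n => (K n).τ (g.ψ n x) - s n) g.l (𝓝 (K'.τ x)) := by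
  simpa only [Nk.τ, sub_add_cancel] using h.tf (h.tm x hx)

variable {u : α → Y × ℝ → V} {u' : Y × ℝ → V} {C : ℕ → ℝ}

theorem push_pt (hu : UL g K' s u u') (hx : x ∈ K'.ψ.target) :
    Tendsto (fun n => (K n).push (u n) (g.ψ n x)) g.l (𝓝 (K'.push u' x)) := by
  rw [Nk.push, Sob92.pull_of_mem (φ := K'.ψ.symm) hx,
    show K'.ψ.symm x = ((K'.ψ.symm x).1, K'.tm x) from Prod.ext rfl (K'.snd_symm hx)]
  exact (hu.cv _ _ _ (h.tm x hx)).congr' (((h.symm_eq hx).and (h.tgt hx)).mono fun n hn =>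
    ((Sob92.pull_of_mem (φ := (K n).ψ.symm) hn.2 _).trans (congrArg (u n) hn.1)).symm)

/-- **fields which live in a bounded window around `s n`** -/
theorem push (hg : g.OK) {r : ℕ} (c : ∀ n, Cfg (X n) (Option κ) lam r) (hb : UF D K u C)
    (hu : UL g K' s u u') {R : ℝ}
    (hR : ∀ᶠ n in (g.l : Filter α), ∀ z : Y × ℝ, R < |z.2 - s n| → u n z = 0) :
    g.FK c (fun n => (K n).push (u n)) (K'.push u') := by
  obtain ⟨L, hL, hL', e⟩ := h.tight R
  have z : ∀ᶠ n in (g.l : Filter α), ∀ x ∉ g.ψ n '' L, (K n).push (u n) x = 0 :=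
    (e.and hR).mono fun n hn x hx => push_zero _ fun _ _ => by_contra fun k => hx
      (hn.1 x (by_contra fun k' => k (hb.z n _ k')) (le_of_not_gt fun k' => k (hn.2 _ k')))
  have z' : ∀ x ∉ K'.ψ.target, K'.push u' x = 0 := fun x hx => push_zero _ fun k => (hx k).elim
  refine fk_of_fc hg c (hb.uc.fc hg c hu.sm_push fun x hx => ?_) hL (hL'.trans h.P)
    (fun x hx => z' x fun k => h.P k hx) z
  by_cases k : x ∈ K'.ψ.target
  · exact h.push_pt hu k
  · rw [z' x k]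
    refine tendsto_const_nhds.congr' ?_
    filter_upwards [z, ev_src hg hx, ev_compact hL (p := fun n x => x ∈ (g.ψ n).source)
      fun x hx => hg.src x (h.P (hL' hx))] with n h1 h2 h3
    exact (h1 _ fun ⟨y, hy, e'⟩ => k (hL' ((g.ψ n).injOn (h3 y hy) h2 e' ▸ hy))).symm

/-- functions of the time which live in a bounded window around `s n` -/
theorem time (hg : g.OK) {r : ℕ} (c : ∀ n, Cfg (X n) (Option κ) lam r) {β : α → ℝ → ℝ}
    {β' : ℝ → ℝ} (hs : ∀ n, ContDiff ℝ ∞ (β n)) (hb : ∀ᶠ n in (g.l : Filter α), BD (β n) C)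
    (z : ∀ n, ∀ t ∉ Dp (K n).p (K n).q (1 / 2), β n t = 0)
    (sm : ContDiff ℝ ∞ β') (z' : ∀ t ∉ Dp K'.p K'.q (1 / 2), β' t = 0)
    (cv : ∀ t, Tendsto (fun n => β n (t + s n)) g.l (𝓝 (β' t))) {R : ℝ}
    (hR : ∀ᶠ n in (g.l : Filter α), ∀ t, R < |t - s n| → β n t = 0) :
    g.FK c (fun n x => β n ((K n).tm x)) fun x => β' (K'.tm x) := by
  simpa only [fun n => (K n).push_time one_half_pos (z n), K'.push_time one_half_pos z'] using
    h.push hg c (UF.time hs hb z) (UL.time hb sm z' cv) (hR.mono fun n hn y => hn y.2)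

end NkC

namespace NkS
variable {K' : J → Nk D g.B₀ g.G₀} {s : J → α → ℝ} (h : NkS g K K' s) {x : M}
include h

theorem uniq {i j : J} (hi : x ∈ (K' i).ψ.target) (hj : x ∈ (K' j).ψ.target) : i = j :=
  let ⟨_, _, d, e⟩ := h.sep
  by_contra fun k => disjoint_left.1 (d k) (e i hi) (e j hj)

/-- **fields on the neck** -/
theorem push (hg : g.OK) {r : ℕ} (c : ∀ n, Cfg (X n) (Option κ) lam r) {u : α → Y × ℝ → V}
    {u' : J → Y × ℝ → V} {C : ℕ → ℝ} (hb : UF D K u C) (hu : ∀ j, UL g (K' j) (s j) u (u' j)) :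
    g.FC c (fun n => (K n).push (u n)) fun x => ∑ j, (K' j).push (u' j) x := by
  have z' : ∀ j, ∀ x ∉ (K' j).ψ.target, (K' j).push (u' j) x = 0 := fun j x hx =>
    push_zero _ fun k => (hx k).elim
  refine hb.uc.fc hg c (contMDiff_finset_sum fun j _ => (hu j).sm_push) fun x hx => ?_
  by_cases k : ∃ j, x ∈ (K' j).ψ.target
  · obtain ⟨j, k⟩ := k
    rw [Fintype.sum_eq_single j fun i e => z' i x fun k' => e (h.uniq k' k)]
    exact (h.one j).push_pt (hu j) k
  · rw [Finset.sum_eq_zero fun j _ => z' j x fun e => k ⟨j, e⟩]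
    exact tendsto_const_nhds.congr' ((h.off x hx fun j e => k ⟨j, e⟩).mono fun n hn =>
      (push_zero _ fun _ _ => hb.z n _ hn).symm)

variable (hg : g.OK) {r : ℕ} (c : ∀ n, Cfg (X n) (Option κ) lam r)
include hg

/-- functions of the time -/
theorem time {β : α → ℝ → ℝ} {β' : J → ℝ → ℝ} {C : ℕ → ℝ} (hs : ∀ n, ContDiff ℝ ∞ (β n))
    (hb : ∀ᶠ n in (g.l : Filter α), BD (β n) C)
    (z : ∀ n, ∀ t ∉ Dp (K n).p (K n).q (1 / 2), β n t = 0) (sm : ∀ j, ContDiff ℝ ∞ (β' j))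
    (z' : ∀ j, ∀ t ∉ Dp (K' j).p (K' j).q (1 / 2), β' j t = 0)
    (cv : ∀ j t, Tendsto (fun n => β n (t + s j n)) g.l (𝓝 (β' j t))) :
    g.FC c (fun n x => β n ((K n).tm x)) fun x => ∑ j, β' j ((K' j).tm x) := by
  simpa only [fun n => (K n).push_time one_half_pos (z n),
    fun j => (K' j).push_time one_half_pos (z' j)] using
    h.push hg c (UF.time hs hb z) fun j => UL.time hb (sm j) (z' j) (cv j)

theorem fc_cut {d : ℝ} (hd : 1 / 2 ≤ d) :
    g.FC c (fun n x => (K n).cut d ((K n).tm x)) fun x => ∑ j, (K' j).cut d ((K' j).tm x) :=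
  h.time hg c (fun _ => contDiff_ct) (.of_forall fun _ => bd_ct.choose_spec _ _ d)
    (fun _ _ k => ct_zero fun e => k (Dp_mono hd e))
    (fun _ => contDiff_ct) (fun _ _ k => ct_zero fun e => k (Dp_mono hd e))
    fun j _ => (h.one j).cut d tendsto_const_nhds

theorem fc_χ : g.FC c (fun n => (K n).χ) fun x => ∑ j, (K' j).χ x := h.fc_cut hg c (by norm_num)

theorem fc_χ4 : g.FC c (fun n => (K n).χ4) fun x => ∑ j, (K' j).χ4 x := h.fc_cut hg c (by norm_num)

theorem fc_ext {f : Y → V} (hf : Sm I3 f) :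
    g.FC c (fun n => (K n).ext f) fun x => ∑ j, (K' j).ext f x := by
  obtain ⟨C, hC⟩ := cbs_ext D hf
  have k := h.fc_χ hg c
  refine (UC.of fun n => hC (K n)).fc hg c (contMDiff_finset_sum fun j _ => (hC (K' j)).1)
    fun x hx => ?_
  by_cases e : ∃ j, x ∈ (K' j).ψ.target
  · obtain ⟨j, e⟩ := e
    have z : ∀ i ≠ j, x ∉ (K' i).dp 1 := fun i k k' => k (h.uniq ((K' i).dp_sub one_pos k') e)
    have k' := k.cv.pt x hx
    rw [Fintype.sum_eq_single j fun i k => (K' i).χ_zero (z i k)] at k'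
    rw [Fintype.sum_eq_single j fun i k => (K' i).ext_zero f (z i k)]
    exact (k'.smul_const _).congr' (((h.one j).y x e).mono fun n hn => by
      simp only [Nk.ext, hn])
  · rw [Finset.sum_eq_zero fun j _ => (K' j).ext_zero f fun k => e ⟨j, (K' j).dp_sub one_pos k⟩]
    exact tendsto_const_nhds.congr' ((h.off x hx fun j k => e ⟨j, k⟩).mono fun n hn =>
      ((K n).ext_zero f fun k => hn (Dp_mono (by norm_num) k)).symm)

theorem fd_ext {f : Y → ℝ} (hf : Sm I3 f) :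
    g.FD c (fun n => (K n).ext f) fun x => ∑ j, (K' j).ext f x := fun a =>
  (UC.of fun n => (cbs_ext D hf).choose_spec (K n)).fc_D hg c (h.fc_ext hg c hf) a

theorem fc_Dτ (a : Option κ) :
    g.FC c (fun n => (g.G n).F.D a (K n).τ) fun x => ∑ j, g.G₀.F.D a (K' j).τ x := by
  cases a with
  | none =>
    simp only [Nk.D_τ_none]
    exact h.time hg c (fun _ => (bd_dtf.choose_spec _ _).1)
      (.of_forall fun _ => bd_dtf.choose_spec _ _) (fun n _ => dtf_zero (K n))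
      (fun _ => (bd_dtf.choose_spec _ _).1) (fun j _ => dtf_zero (K' j))
      fun j _ => tend_dtf (h.one j).p (h.one j).q tendsto_const_nhds
  | some a =>
    simp only [Nk.D_τ_some, Pi.zero_apply, Finset.sum_const_zero]
    exact (UC.of (C := fun _ => 0) fun _ => ⟨contMDiff_const, fun k =>
      Sob92.CB_mono (Sob92.CB_const k (0 : ℝ)) (by simp)⟩).fc hg c contMDiff_const
      fun _ _ => tendsto_const_nhds

/-- **the time**: `τ'` is `(K' j).τ` on the side `O j` of the neck `K' j` -/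
theorem fd_τ : ∃ (O : J → Set M) (τ' : M → ℝ), (∀ j, IsClopen (O j)) ∧ Pairwise (Disjoint on O) ∧
    (∀ j, (K' j).ψ.target ⊆ O j) ∧ (∀ j, ∀ x ∈ O j, τ' x = (K' j).τ x) ∧
    (∀ x, (∀ j, x ∉ O j) → τ' x = 0) ∧ Sm I₀ τ' ∧
    (∀ a x, g.G₀.F.D a τ' x = ∑ j, g.G₀.F.D a (K' j).τ x) ∧ g.FD c (fun n => (K n).τ) τ' := by
  obtain ⟨O, hO, d, e⟩ := h.sep
  let τ' : M → ℝ := fun x => ∑ j, (O j).indicator (K' j).τ x
  have h1 : ∀ j, ∀ x ∈ O j, τ' x = (K' j).τ x := fun j x hx =>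
    (Fintype.sum_eq_single j fun i k => indicator_of_notMem
      (fun k' => disjoint_left.1 (d k) k' hx) _).trans (indicator_of_mem hx _)
  have h2 : ∀ x, (∀ j, x ∉ O j) → τ' x = 0 := fun x hx =>
    Finset.sum_eq_zero fun j _ => indicator_of_notMem (hx j) _
  have h3 : ∀ x, (∀ j, x ∉ O j) → ∀ᶠ y in 𝓝 x, τ' y = 0 := fun x hx =>
    (eventually_all.2 fun j => (hO j).1.isOpen_compl.eventually_mem (hx j)).mono h2
  have h4 : ∀ j, ∀ x ∈ O j, ∀ᶠ y in 𝓝 x, τ' y = (K' j).τ y := fun j x hx =>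
    ((hO j).2.eventually_mem hx).mono (h1 j)
  have h5 : ∀ a j, ∀ x ∉ O j, g.G₀.F.D a (K' j).τ x = 0 := fun a j x hx =>
    let ⟨_, k⟩ := (K' j).τ_const fun k => hx (e j ((K' j).dp_sub one_half_pos k))
    (Sob92.dv_congr k).trans (dv_cst _ _ _)
  have h6 : ∀ a x, g.G₀.F.D a τ' x = ∑ j, g.G₀.F.D a (K' j).τ x := fun a x => by
    by_cases k : ∃ j, x ∈ O j
    · obtain ⟨j, k⟩ := k
      rw [Fintype.sum_eq_single j fun i k' => h5 a i x fun k'' => disjoint_left.1 (d k') k'' k]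
      exact Sob92.dv_congr (h4 j x k)
    · rw [Finset.sum_eq_zero fun j _ => h5 a j x fun k' => k ⟨j, k'⟩]
      exact (Sob92.dv_congr (h3 x fun j k' => k ⟨j, k'⟩)).trans (dv_cst _ _ _)
  refine ⟨O, τ', hO, d, e, h1, h2, fun x => ?_, h6, fun a => ?_⟩
  · by_cases k : ∃ j, x ∈ O j
    · obtain ⟨j, k⟩ := k
      exact ((K' j).sm_τ x).congr_of_eventuallyEq (h4 j x k)
    · exact contMDiffAt_const.congr_of_eventuallyEq (h3 x fun j k' => k ⟨j, k'⟩)
  · rw [funext (h6 a)]; exact h.fc_Dτ hg c a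

end NkS
end nk

end Crest.Agent.X212.M
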