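import Crest.Agent.X212.M.Pnw
import Crest.Agent.X212.M.Nkc
import Crest.Agent.X212.An.Job
import Crest.Agent.X212.Cht98.Nk

/-!
# Row 212, layer M: the necks of a world converge along degenerating backgrounds
-/

set_option autoImplicit false
set_option linter.unusedSectionVars false
set_option linter.dupNamespace false
noncomputable section
open Set Function Filter Topology
open scoped ContDiff Manifold Classical

namespace Crest.Agent.X212.M
open An Cyl58 Cmp73 Nd18 Cht98 Eqv71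
open Pj41 (GRel)
open TopologicalSpace (Opens)

/-! ### arc length -/

section len
variable {α : Type} {l : Filter α} {t s : α → ℝ} {t' : ℝ} {b b' : Bool}

theorem continuousAt_len (ht : t' < 1) (b : Bool) (r : ℝ) : ContinuousAt (fun t => len t b r) t' := by
  obtain ⟨u, h1, h2⟩ := exists_between ht
  have c : Continuous (uncurry fun t x : ℝ => (sig (min t u) x)⁻¹) :=
    continuous_iff_continuousAt.2 fun q => by
      have k : (min q.1 u, q.2) ∈ Off := .inl ((min_le_right _ _).trans_lt h2)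
      exact (ContinuousAt.comp (f := fun q : ℝ × ℝ => (min q.1 u, q.2))
        (contDiffAt_sig k).continuousAt (by fun_prop)).inv₀ (sig_pos k).ne'
  refine (intervalIntegral.continuous_parametric_intervalIntegral_of_continuous'
    (μ := MeasureTheory.volume) c (pm b) r).continuousAt.congr ((eventually_lt_nhds h1).mono fun t k => ?_)
  simp only [min_eq_left k.le, len]

theorem EC.out {o : α → Option ℝ} {o' o₁' : Option ℝ} {σ : ℝ} (h : EC l o s o' σ) (hσ : σ * σ = 1)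
    (hl : ∀ a ∈ o', ∀ b ∈ o₁', 2 ≤ σ * (a - b)) (R : ℝ) :
    ∃ τ, (∀ a ∈ o', 0 < σ * (a - τ)) ∧ (∀ b ∈ o₁', 0 < σ * (τ - b)) ∧ ∀ T : α → ℝ,
      Tendsto T l (𝓝 τ) → ∀ᶠ n in l, ∀ x, (∀ a ∈ o n, 1 / 2 ≤ σ * (a - x)) →
        σ * (x - s n) ≤ R → σ * (x - s n) < σ * T n := by
  have e : ∀ x, σ * (σ * x) = x := fun x => by rw [← mul_assoc, hσ, one_mul]
  cases o' with
  | none =>
    refine ⟨σ * (max R (o₁'.elim 0 (σ * ·)) + 1), fun _ k => (nomatch k), fun b hb => ?_,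
      fun T hT => ((hT.const_mul σ).eventually (lt_mem_nhds (a := R) ?_)).mono
        fun n hn x _ k => k.trans_lt hn⟩
    · rw [mul_sub, e, Option.mem_def.1 hb, Option.elim_some]
      linarith [le_max_right R (σ * b)]
    · rw [e]; linarith [le_max_left R (o₁'.elim 0 (σ * ·))]
  | some a' =>
    obtain ⟨a, h1, h2⟩ := h
    refine ⟨a' - σ / 4, fun _ k => ?_, fun b hb => ?_, fun T hT => (h2.and
      (((h1.sub hT).const_mul σ).eventually (gt_mem_nhds (a := 1 / 2) ?_))).mono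
        fun n hn x k _ => ?_⟩
    · cases k; linarith
    · linarith [hl _ rfl b hb]
    · linarith
    · linarith [k _ hn.1, hn.2]

/-- arc length converges -/
structure L1 (l : Filter α) (t : α → ℝ) (b : Bool) (t' : ℝ) (b' : Bool) (s : α → ℝ) : Prop where
  mem : ∀ r ∈ Hs t' b', ∀ᶠ n in l, r ∈ Hs (t n) b
  len : ∀ r ∈ Hs t' b', Tendsto (fun n => len (t n) b r - s n) l (𝓝 (len t' b' r))
  p : EC l (fun n => np (t n) b) s (np t' b') (-1)
  q : EC l (fun n => nq (t n) b) s (nq t' b') 1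

theorem L1.cst : L1 l (fun _ => t') b t' b fun _ => 0 :=
  ⟨fun _ h => .of_forall fun _ => h, fun _ _ => by simpa using tendsto_const_nhds, .cst, .cst⟩

theorem L1.fin (h : Tendsto t l (𝓝 t')) (ht : t' < 1) : L1 l t false t' false fun _ => 0 := by
  have e := h.eventually (gt_mem_nhds ht)
  refine ⟨fun _ k => e.mono fun _ hn => ⟨k.1, .inl hn⟩, fun r _ => ?_, .cst, ?_⟩
  · simpa [comp_def] using (continuousAt_len ht false r).tendsto.comp h
  · rw [nq_false ht]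
    exact Exists.intro _ ⟨(continuousAt_len ht false 1).tendsto.comp h,
      e.mono fun n hn => (nq_false hn).trans (by rw [add_zero]; rfl)⟩

theorem ev_len (h : Tendsto t l (𝓝 1)) {δ : ℝ} (hδ : 0 < δ) :
    ∀ᶠ n in l, 1 / 2 ≤ t n ∧ (1 - t n) / 2 ≤ δ :=
  ((h.eventually (lt_mem_nhds (show 1 / 2 < (1 : ℝ) by norm_num))).and
    (h.eventually (lt_mem_nhds (show 1 - δ < 1 by linarith)))).mono fun _ k =>
      ⟨k.1.le, by linarith [k.2]⟩

theorem pm_pos {r : ℝ} (h : r ∈ Hs 1 b) : 0 < pm b * r := by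
  have := h.2.resolve_left (lt_irrefl _)
  cases b <;> simpa [pm] using this

theorem len_sub_nl (h : t' < 1) (b : Bool) (r : ℝ) :
    len t' false r - (if b then nl t' else 0) = len t' b r := by
  cases b
  exacts [sub_zero _, sub_eq_of_eq_add (len_false h r)]

theorem L1.brk (h : Tendsto t l (𝓝 1)) (ht : ∀ n, t n < 1) (b' : Bool) :
    L1 l t false 1 b' fun n => if b' then nl (t n) else 0 := by
  have k := fun R => (tendsto_nl.comp (tendsto_nhdsWithin_iff.2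
    ⟨h, .of_forall ht⟩)).eventually (eventually_ge_atTop R)
  refine ⟨fun _ k => .of_forall fun n => ⟨k.1, .inl (ht n)⟩, fun r hr =>
    tendsto_const_nhds.congr' ((ev_len h (pm_pos hr)).mono fun n hn =>
      ((len_sub_nl (ht n) b' r).trans (len_eq_len_one hn.1 hn.2)).symm), ?_, ?_⟩ <;> cases b'
  · exact .cst
  · rw [np_one]
    exact fun R => (k R).mono fun n hn a e => by cases e; simpa using hn
  · rw [nq_one]
    exact fun R => (k R).mono fun n hn a e => by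
      cases (nq_false (ht n)).symm.trans e; simpa using hn
  · exact Exists.intro (fun _ => 0) ⟨tendsto_const_nhds, .of_forall fun n =>
      (nq_false (ht n)).trans (by simp)⟩

theorem L1.tight (h : L1 l t b t' b' s) (ht : t' ≤ 1)
    (hl : ∀ x ∈ np t' b', ∀ y ∈ nq t' b', x + 2 ≤ y) (R : ℝ) :
    ∃ r₁ ∈ Hs t' b', ∃ r₂ ∈ Hs t' b', ∀ᶠ n in l, ∀ r ∈ Hs (t n) b,
      M.len (t n) b r ∈ Dp (np (t n) b) (nq (t n) b) (1 / 2) → |M.len (t n) b r - s n| ≤ R →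
        r ∈ Icc r₁ r₂ := by
  obtain ⟨τ₁, a1, a2, a3⟩ := h.p.out (o₁' := nq t' b') (by norm_num)
    (fun x hx y hy => by linarith [hl x hx y hy]) R
  obtain ⟨τ₂, b1, b2, b3⟩ := h.q.out (o₁' := np t' b') (by norm_num)
    (fun x hx y hy => by linarith [hl y hy x hx]) R
  obtain ⟨r₁, h1, rfl⟩ := (bijOn_len ht b').surjOn (show τ₁ ∈ Jv _ _ from
    ⟨fun x hx => by linarith [a1 x hx], fun x hx => by linarith [a2 x hx]⟩)
  obtain ⟨r₂, h2, rfl⟩ := (bijOn_len ht b').surjOn (show τ₂ ∈ Jv _ _ from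
    ⟨fun x hx => by linarith [b2 x hx], fun x hx => by linarith [b1 x hx]⟩)
  refine ⟨r₁, h1, r₂, h2, ?_⟩
  filter_upwards [a3 _ (h.len _ h1), b3 _ (h.len _ h2), h.mem _ h1, h.mem _ h2] with
    n c1 c2 c3 c4 r hr d1 d2
  have e1 := c1 (M.len (t n) b r) (fun x hx => by linarith [d1.1 x hx])
    (by linarith [(abs_le.1 d2).1])
  have e2 := c2 (M.len (t n) b r) (fun x hx => by linarith [d1.2 x hx])
    (by linarith [(abs_le.1 d2).2])
  exact ⟨(((strictMonoOn_len _ b).lt_iff_lt c3.2 hr.2).1 (by linarith)).le,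
    (((strictMonoOn_len _ b).lt_iff_lt hr.2 c4.2).1 (by linarith)).le⟩

end len

variable {X : Mf 4} {A κ : Type} [Fintype A] [Fintype κ] {M : Mark X A κ} {c c' c'' : M.Cl}
  {Wi lam : Type} [Fintype lam] [DecidableEq lam] {S : Xs Wi κ lam} {a : A}
  {g : S.Y.M → (M.bn a).Y.M}

/-! ### necks in height coordinates -/

section hn
variable {C : Caps M} {Y : Mf 4} {B : Base Y.M (Option κ) (lam ⊕ lam)}
  {G : Geo Y.I Y.M (Option κ) (lam ⊕ lam)} {K : Nk S.D B G} {j : Y.M → (C.Z c).M} {t : ℝ} {b : Bool}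

/-- seen through `j`, the neck `K` is the band of `a` in the arc length parameter -/
structure HN (a : A) (g : S.Y.M → (M.bn a).Y.M) (K : Nk S.D B G) (j : Y.M → (C.Z c).M) (t : ℝ)
    (b : Bool) : Prop where
  le : t ≤ 1
  p : K.p = np t b
  q : K.q = nq t b
  ψ : ∀ y, ∀ r ∈ Hs t b, j (K.ψ (y, len t b r)) = C.nj c a (g y, r)
  off : ∀ y, ∀ r ∈ Hs t b, (M.bn a).j (y, r) ∉ M.sys.cores c.1

namespace HN
variable (h : HN a g K j t b)
include h

theorem src (y : S.Y.M) {r : ℝ} (hr : r ∈ Hs t b) : (y, len t b r) ∈ K.ψ.source := by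
  rw [K.mem_src, Nk.J, h.p, h.q]; exact (bijOn_len h.le b).1 hr

theorem of_tgt {x : Y.M} (hx : x ∈ K.ψ.target) : ∃ y, ∃ r ∈ Hs t b, K.ψ (y, len t b r) = x := by
  have k := K.mem_src.1 (K.ψ.map_target hx)
  rw [Nk.J, h.p, h.q] at k
  obtain ⟨r, hr, e⟩ := (bijOn_len h.le b).surjOn k
  exact ⟨_, r, hr, by rw [e]; exact K.ψ.right_inv hx⟩

theorem pull {Y₁ : Mf 4} [Nonempty Y₁.M] {B₁ : Base Y₁.M (Option κ) (lam ⊕ lam)}
    {G₁ : Geo Y₁.I Y₁.M (Option κ) (lam ⊕ lam)} {f : Y₁.M → Y.M} (hf : IsOE Y₁.I Y.I f)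
    (hD : S.D.Z.IsVol) (hG : G₁.F.IsVol) (hs : K.ψ.target ⊆ range f)
    (hr : GRel B₁ G₁ B G f (f ⁻¹' K.ψ.target)) :
    HN a g (nkPull K hf hD hG hs hr) (j ∘ f) t b :=
  ⟨h.le, h.p, h.q, fun y r k => (congrArg j (f_nkψ K hf ⟨h.src y k,
    hs (K.ψ.map_source (h.src y k))⟩)).trans (h.ψ y r k), h.off⟩

end HN

variable {α : Type} {l : Ultrafilter α} {G : α → Geo Y.I Y.M (Option κ) (lam ⊕ lam)}
  {B₀ : Base (C.Z c'').M (Option κ) (lam ⊕ lam)}
  {G₀ : Geo (C.Z c'').I (C.Z c'').M (Option κ) (lam ⊕ lam)}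
  {H : α → Geo (C.Z c'').I (C.Z c'').M (Option κ) (lam ⊕ lam)}
  {f : PartialDiffeomorph (C.Z c'').I Y.I (C.Z c'').M Y.M ∞} {O : α → Opens (C.Z c'').M}
  {P : Set (C.Z c'').M} {K : ∀ n, Nk S.D B (G n)} {K' : Nk S.D B₀ G₀} {t s : α → ℝ} {t' : ℝ}
  {b' : Bool}

variable (j f P) in
/-- `j ∘ f` is the canonical map off `P` -/
structure JF : Prop where
  inj : Injective j
  e : ∀ x ∉ M.sys.cores c''.1, j (f (C.φ c'' x)) = C.φ c x ∧ C.φ c'' x ∉ P
  of : ∀ z ∉ P, ∀ x ∉ M.sys.cores c.1, C.φ c x = j (f z) → x ∉ M.sys.cores c''.1 ∧ C.φ c'' x = z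

variable (hj : JF j f P)
include hj

theorem JF.ψ {n : α} (hK : HN a g (K n) j (t n) b) (hK' : HN (c := c'') a g K' id t' b')
    (y : S.Y.M) {r : ℝ} (hr : r ∈ Hs (t n) b) (hr' : r ∈ Hs t' b') :
    f (K'.ψ (y, len t' b' r)) = (K n).ψ (y, len (t n) b r) :=
  hj.inj (((congrArg (j ∘ f) (hK'.ψ y r hr')).trans (hj.e _ (hK'.off _ r hr')).1).trans
    (hK.ψ y r hr).symm)

theorem JF.nkC (hK : ∀ n, HN a g (K n) j (t n) b) (hK' : HN (c := c'') a g K' id t' b')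
    (h : L1 l t b t' b' s) : NkC (rGs l B G B₀ G₀ H f O P) K K' s := by
  have key : ∀ y, ∀ r ∈ Hs t' b', ∀ᶠ n in (l : Filter α), (y, len (t n) b r) ∈ (K n).ψ.source ∧
      f (K'.ψ (y, len t' b' r)) = (K n).ψ (y, len (t n) b r) := fun y r hr =>
    (h.mem r hr).mono fun n hn => ⟨(hK n).src y hn, hj.ψ (hK n) hK' y hn hr⟩
  refine ⟨fun x hx => ?_, fun x hx => ?_, fun x hx => ?_, ?_, ?_, fun R => ?_⟩
  · obtain ⟨y, r, hr, rfl⟩ := hK'.of_tgt hx
    exact fun k => (hj.e _ (hK'.off _ r hr)).2 (mem_of_eq_of_mem (hK'.ψ y r hr).symm k)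
  · obtain ⟨y, r, hr, rfl⟩ := hK'.of_tgt hx
    rw [K'.tm_ψ _ (hK'.src y hr)]
    exact (h.len r hr).congr' ((key y r hr).mono fun n hn => congrArg (· - s n)
      ((congrArg (K n).tm hn.2).trans ((K n).tm_ψ _ hn.1)).symm)
  · obtain ⟨y, r, hr, rfl⟩ := hK'.of_tgt hx
    exact (key y r hr).mono fun n hn => by
      rw [rGs_ψ, hn.2, (K n).ψ.left_inv hn.1, K'.ψ.left_inv (hK'.src y hr)]
  · exact hK'.p ▸ h.p.congr (.of_forall fun n => (hK n).p)
  · exact hK'.q ▸ h.q.congr (.of_forall fun n => (hK n).q)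
  obtain ⟨r₁, h1, r₂, h2, k⟩ := h.tight hK'.le (hK'.p ▸ hK'.q ▸ K'.len) R
  have sub : Icc r₁ r₂ ⊆ Hs t' b' := (ordConnected_Ioo.inter (ordConnected_dom t' b')).out h1 h2
  have sub' : univ ×ˢ (len t' b' '' Icc r₁ r₂) ⊆ K'.ψ.source := by
    rintro ⟨y, _⟩ ⟨-, r, hr, rfl⟩; exact hK'.src y (sub hr)
  refine ⟨_, (isCompact_univ.prod (isCompact_Icc.image_of_continuousOn
    ((contDiffOn_len t' b').continuousOn.mono fun r hr => (sub hr).2))).image_of_continuousOn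
      (K'.ψ.continuousOn.mono sub'), image_subset_iff.2 fun _ hz => K'.ψ.map_source (sub' hz),
    k.mono fun n hn x hx hR => ?_⟩
  obtain ⟨y, r, hr, rfl⟩ := (hK n).of_tgt ((K n).dp_sub one_half_pos hx)
  rw [Nk.dp, mem_preimage, (hK n).p, (hK n).q] at hx
  rw [(K n).tm_ψ _ ((hK n).src y hr)] at hx hR
  have := hn r hr hx hR
  exact ⟨_, ⟨_, ⟨trivial, r, this, rfl⟩, rfl⟩, hj.ψ (hK n) hK' y hr (sub this)⟩

/-- near an end of the limit the necks agree literally -/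
theorem JF.lit (hK : ∀ n, HN a g (K n) j (t n) b) (hK' : HN (c := c'') a g K' id 1 b')
    (h : ∀ δ > 0, ∀ᶠ n in (l : Filter α), ∀ r ∈ Hs 1 b', δ ≤ pm b' * r →
      r ∈ Hs (t n) b ∧ len (t n) b r = len 1 b' r + s n) (R : ℝ) :
    ∀ᶠ n in (l : Filter α), ∀ τ ∈ K'.J, |τ| ≤ R →
      τ + s n ∈ (K n).J ∧ ∀ y, (K n).ψ (y, τ + s n) = f (K'.ψ (y, τ)) := by
  have e : K'.J = Jv (np 1 b') (nq 1 b') := by rw [Nk.J, hK'.p, hK'.q]
  obtain ⟨r₀, h0, e0⟩ := (bijOn_len le_rfl b').surjOn (show -pm b' * (|R| + 1) ∈ Jv _ _ by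
    have := abs_nonneg R
    cases b' <;> simp [Jv, np, nq, pm] <;> linarith)
  refine (h _ (pm_pos h0)).mono fun n hn τ hτ hR => ?_
  obtain ⟨r, hr, rfl⟩ := (bijOn_len le_rfl b').surjOn (e ▸ hτ)
  obtain ⟨k1, k2⟩ := hn r hr (by
    have k := strictMonoOn_len 1 b'
    have := abs_le.1 (hR.trans (le_abs_self R))
    cases b' <;> simp only [pm, Bool.false_eq_true, if_false, if_true] at e0 ⊢
    · linarith [(k.lt_iff_lt hr.2 h0.2).1 (by linarith)]
    · linarith [(k.lt_iff_lt h0.2 hr.2).1 (by linarith)])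
  rw [← k2]
  exact ⟨by rw [Nk.J, (hK n).p, (hK n).q]; exact (bijOn_len (hK n).le b).1 k1,
    fun y => (hj.ψ (hK n) hK' y k1 hr).symm⟩

end hn

variable {N : ML M lam} {W : World M} {Λ : Lns W N} {m : M.Cl} {p p' : Prm A} {b : Option Bool}

theorem _root_.Crest.Agent.X212.An.Act.ok (h : Act m c a b p) : NkOK M m c p a := by
  cases b
  exacts [.of_fr h.1 h.2.2.2.2.1 h.2.2.2.1 h.2.2.1 h.2.1.1 h.2.2.2.2.2, .of_mem h.1 h.2.2.2 h.2.2.1]

theorem _root_.Crest.Agent.X212.An.Act.tv (h : Act m c a b p) : Mark.tv c.1 p.2 a = p.2 a := by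
  cases b
  exacts [Mark.tv_fr h.2.2.2.2.1 _, (Mark.tv_mem h.2.2.2 _).trans (h.2.1.2 h.2.2.2).symm]

theorem _root_.Crest.Agent.X212.An.Act.lit (h : Act m c a b p) {r : ℝ}
    (hr : r ∈ Hs (p.2 a) (b.getD false)) : M.Lit m.1 c.1 a r :=
  h.ok.lit_of (h.tv.symm ▸ hr.2) (abs_lt.2 hr.1).le

theorem _root_.Crest.Agent.X212.An.IsNk.hn {K : Nk S.D (Λ.B m c) (Λ.G m c p)} (h : IsNk a b g K)
    (ha : Act m c a b p) : HN (C := W.toCaps) (c := c) a g K id (p.2 a) (b.getD false) := by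
  refine ⟨(ha.2.1.1.1 a).2, h.lo.trans ?_, h.hi.trans ?_, fun y r hr => h.ψ y r ?_ ?_,
    fun y r hr => Mark.Lit.not_mem (q := (y, r)) (ha.lit hr)⟩ <;> rcases b with _ | b
  · rfl
  · rw [show p.2 a = 1 from ha.2.1.2 ha.2.2.2]; cases b <;> simp [np]
  · exact (nq_false (ha.2.2.1 a ha.2.2.2.2.1)).symm
  · rw [show p.2 a = 1 from ha.2.1.2 ha.2.2.2]; cases b <;> simp [nq]
  · exact hr.1.1
  · rw [show p.2 a = 1 from ha.2.1.2 ha.2.2.2] at hr
    cases b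
    exacts [hr.1.1, hr.2.resolve_left (lt_irrefl _)]
  · exact hr.1.2
  · rw [show p.2 a = 1 from ha.2.1.2 ha.2.2.2] at hr
    cases b
    exacts [hr.2.resolve_left (lt_irrefl _), hr.1.2]

/-! ### the limits of a neck -/

variable (m c'' a b p') in
/-- the necks of the limit that come from the neck `(a, b)` -/
abbrev LJ : Type := {b' : Option Bool // Act m c'' a b' p' ∧ (b = none ∨ b' = b)}

/-- the shift of the time -/
def ls (b b' : Option Bool) (t : ℝ) : ℝ := if b = none ∧ b' = some true then nl t else 0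

section lim
variable {α : Type} {l : Ultrafilter α} {p : α → Prm A} (hp : Tendsto p l (𝓝 p'))
  (ha : ∀ n, Act m c a b (p n))
include hp ha

theorem tend_a : Tendsto (fun n => (p n).2 a) l (𝓝 (p'.2 a)) :=
  (((continuous_apply a).comp continuous_snd).tendsto _).comp hp

theorem LJ.l1 (i : LJ c'' a m p' b) : L1 l (fun n => (p n).2 a) (b.getD false) (p'.2 a)
    (i.1.getD false) fun n => ls b i.1 ((p n).2 a) := by
  obtain ⟨b', h1, h2⟩ := i
  have k := tend_a hp ha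
  rcases b with _ | b <;> rcases b' with _ | b'
  · simpa [ls] using L1.fin k (h1.2.2.1 a h1.2.2.2.2.1)
  · rw [show p'.2 a = 1 from h1.2.1.2 h1.2.2.2] at k ⊢
    simpa [ls] using L1.brk k (fun n => (ha n).2.2.1 a (ha n).2.2.2.2.1) b'
  · simp at h2
  · obtain rfl : b' = b := by simpa using h2
    simpa [ls, show p'.2 a = 1 from h1.2.1.2 h1.2.2.2,
      fun n => show (p n).2 a = 1 from (ha n).2.1.2 (ha n).2.2.2] using L1.cst

theorem LJ.exists (h : c.1 ⊆ c''.1) (hb : p' ∈ M.Br c''.1) (ho : p' ∈ M.O c''.1) {n : α} {r : ℝ}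
    (hr : r ∈ Hs ((p n).2 a) (b.getD false)) (h0 : a ∈ c''.1 → r ≠ 0) :
    ∃ i : LJ c'' a m p' b, r ∈ Hs (p'.2 a) (i.1.getD false) := by
  rcases b with _ | b
  · by_cases k : a ∈ c''.1
    · refine ⟨⟨some (decide (0 < r)), ⟨(ha n).1, hb, ho, k⟩, .inl rfl⟩, hr.1, .inr ?_⟩
      rcases (h0 k).lt_or_gt with e | e
      · simpa [e.not_gt] using e
      · simp [e]
    · have k1 : 1 / 2 ≤ p'.2 a := ge_of_tendsto' (tend_a hp ha) fun n => (ha n).2.2.2.2.2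
      have k2 : a ∈ M.sys.fr c''.1 := ⟨k, fun a' ha' => hb.1.2 (show p'.2 a ≠ 0 by linarith)
        (Sys.inf_subset _ (hb.2 ha')) (by rintro rfl; exact k ha')⟩
      exact ⟨⟨none, ⟨(ha n).1, hb, ho, (ha n).2.2.2.1, k2, k1⟩, .inl rfl⟩, hr.1, .inl (ho a k2)⟩
  · refine ⟨⟨some b, ⟨(ha n).1, hb, ho, h (ha n).2.2.2⟩, .inr rfl⟩, ?_⟩
    rwa [show p'.2 a = (p n).2 a from (hb.2 (h (ha n).2.2.2)).trans
      ((ha n).2.1.2 (ha n).2.2.2).symm]

variable {Y : Mf 4} {B : Base Y.M (Option κ) (lam ⊕ lam)}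
  {G : α → Geo Y.I Y.M (Option κ) (lam ⊕ lam)}
  {H : α → Geo (W.Z c'').I (W.Z c'').M (Option κ) (lam ⊕ lam)}
  {f : PartialDiffeomorph (W.Z c'').I Y.I (W.Z c'').M Y.M ∞} {O : α → Opens (W.Z c'').M}
  {P : Set (W.Z c'').M} {j : Y.M → (W.Z c).M} {K : ∀ n, Nk S.D B (G n)}
  {K' : ∀ b', Act m c'' a b' p' → Nk S.D (Λ.B m c'') (Λ.G m c'' p')}

theorem JF.nkS (hj : JF (C := W.toCaps) j f P) (h : c.1 ⊆ c''.1) (hb : p' ∈ M.Br c''.1)
    (ho : p' ∈ M.O c''.1) (hK : ∀ n, HN (C := W.toCaps) a g (K n) j ((p n).2 a) (b.getD false))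
    (hK' : ∀ b' k, IsNk a b' g (K' b' k)) :
    NkS (rGs l B G (Λ.B m c'') (Λ.G m c'' p') H f O P) K
      (fun i : LJ c'' a m p' b => K' i.1 i.2.1) fun i n => ls b i.1 ((p n).2 a) := by
  have k := fun i : LJ c'' a m p' b => (hK' i.1 i.2.1).hn i.2.1
  refine ⟨fun i => hj.nkC hK (k i) (i.l1 hp ha), fun x hx h1 => .of_forall fun n h2 => ?_,
    fun i => i.1.elim univ fun β => {z | 0 < pm β * hZ W.toCaps c'' a z}, ?_, ?_, ?_⟩
  · obtain ⟨y, r, hr, e⟩ := (hK n).of_tgt ((K n).dp_sub one_half_pos h2)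
    obtain ⟨h3, rfl⟩ := hj.of x hx _ ((hK n).off _ r hr) (((hK n).ψ y r hr).symm.trans
      (congrArg j e))
    obtain ⟨i, hi⟩ := LJ.exists hp ha h hb ho hr fun k1 k2 => h3 ((j_mem_cores k1).2 k2)
    exact h1 i (mem_of_eq_of_mem ((k i).ψ y r hi).symm ((K' _ _).ψ.map_source ((k i).src y hi)))
  · rintro ⟨_ | β, h1, -⟩
    · exact isClopen_univ
    have h2 : Continuous fun z => pm β * hZ W.toCaps c'' a z :=
      continuous_const.mul (sm_hZ _ h1.ok.mem).continuous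
    refine ⟨?_, isOpen_lt continuous_const h2⟩
    convert isClosed_le (continuous_const (y := (0 : ℝ))) h2 using 1
    exact Set.ext fun z => ⟨fun e => mem_setOf.2 (le_of_lt e), fun e => lt_of_le_of_ne e (mul_ne_zero
      (by cases β <;> simp [pm]) (hZ_ne _ h1.2.2.2 h1.1 z)).symm⟩
  · rintro ⟨_ | β, h1, _⟩ ⟨_ | β', h2, _⟩ e
    · exact (e rfl).elim
    · exact (h1.2.2.2.2.1.1 h2.2.2.2).elim
    · exact (h2.2.2.2.2.1.1 h1.2.2.2).elim
    · refine disjoint_left.2 fun z k1 k2 => ?_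
      cases β <;> cases β' <;> simp [pm] at k1 k2 e <;> linarith
  · rintro ⟨_ | β, h1, h2⟩ x hx
    · trivial
    obtain ⟨y, r, hr, rfl⟩ := (k ⟨_, h1, h2⟩).of_tgt hx
    have e := ((k ⟨_, h1, h2⟩).ψ y r hr)
    show 0 < pm β * hZ _ c'' a _
    rw [show (K' _ h1).ψ _ = _ from e, hZ_nj _ h1.ok.mem ((k ⟨_, h1, h2⟩).off _ r hr)
      ((abs_lt.2 hr.1).le.trans (by norm_num))]
    rw [show p'.2 a = 1 from hb.2 h1.2.2.2] at hr
    exact pm_pos hr

theorem JF.lit' (hj : JF (C := W.toCaps) j f P)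
    (hK : ∀ n, HN (C := W.toCaps) a g (K n) j ((p n).2 a) (b.getD false)) {β : Bool}
    (h1 : Act m c'' a (some β) p') (h2 : b = none ∨ some β = b)
    {K' : Nk S.D (Λ.B m c'') (Λ.G m c'' p')} (hK' : IsNk a (some β) g K') (R : ℝ) :
    ∀ᶠ n in (l : Filter α), ∀ τ ∈ K'.J, |τ| ≤ R → τ + ls b (some β) ((p n).2 a) ∈ (K n).J ∧
      ∀ y, (K n).ψ (y, τ + ls b (some β) ((p n).2 a)) = f (K'.ψ (y, τ)) := by
  have e : p'.2 a = 1 := h1.2.1.2 h1.2.2.2
  refine hj.lit hK (e ▸ hK'.hn h1) (fun δ hδ => ?_) R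
  rcases h2 with rfl | rfl
  · refine (ev_len (e ▸ tend_a hp ha) hδ).mono fun n hn r hr k => ?_
    have lt := (ha n).2.2.1 a (ha n).2.2.2.2.1
    refine ⟨⟨hr.1, .inl lt⟩, eq_add_of_sub_eq ?_⟩
    simpa [ls] using (len_sub_nl lt β r).trans (len_eq_len_one hn.1 (hn.2.trans k))
  · exact .of_forall fun n r hr _ => by
      simpa [ls, show (p n).2 a = 1 from (ha n).2.1.2 (ha n).2.2.2] using hr

/-- a neck is not pinched -/
theorem act_fr (hc : ∀ x ∈ c'.1, x ∉ c.1 → M.pin x) (hb : p' ∈ M.Br c'.1) :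
    a ∈ c.1 ∨ a ∈ M.sys.fr c'.1 := by
  obtain ⟨n⟩ := l.neBot.nonempty
  rcases b with _ | b
  · have k : a ∉ c'.1 := fun k => (ha n).1 (hc a k (ha n).2.2.2.2.1.1)
    have k1 : 1 / 2 ≤ p'.2 a := ge_of_tendsto' (tend_a hp ha) fun n => (ha n).2.2.2.2.2
    exact .inr ⟨k, fun a' ha' => hb.1.2 (show p'.2 a ≠ 0 by linarith)
      (Sys.inf_subset _ (hb.2 ha')) (by rintro rfl; exact k ha')⟩
  · exact .inl (ha n).2.2.2

end lim

/-! ### the two families -/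

theorem World.jf_up (h : M.Up c c'') : JF (C := W.toCaps) id (W.up_oe h).pd ∅ :=
  ⟨injective_id, fun _ hx => ⟨W.up_φ h hx, id⟩, fun _ _ _ hx e => W.eq_of_up h hx e⟩

theorem World.jf_xd (h : c.1 ⊆ c'.1) (h' : M.Up c' c'') :
    JF (C := W.toCaps) (W.xd h) (W.xf c h') (W.up c' c'' ⁻¹' W.nw c c') := by
  refine ⟨(W.xd_oe h).inj, fun x hx => ⟨by rw [World.xf_φ h' hx, W.xd_xp], fun k =>
    W.φ_nw (Mark.cores_mono h'.1 hx) (W.up_φ h' hx ▸ mem_preimage.1 k)⟩, fun z hz x hx e => ?_⟩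
  have k := W.eq_of_dp h (W.xf c h' z).2 hx e
  exact W.eq_of_up h' k.1 (k.2.trans (World.xv_xf h' ((World.xf_src h').2 hz)))

section pull
variable (h : c.1 ⊆ c'.1) (ha : Act m c a b p) (k : a ∈ c.1 ∨ a ∈ M.sys.fr c'.1)
include h ha k

theorem _root_.Crest.Agent.X212.An.Act.up : NkOK M m c' p a := k.elim
  (fun k => .of_mem ha.1 (h k) (Mark.O_mono h ha.2.2.1)) fun k => by
    rcases b with _ | b
    · exact .of_fr ha.1 k ha.2.2.2.1 (Mark.O_mono h ha.2.2.1) ha.2.1.1 ha.2.2.2.2.2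
    · exact (k.1 (h ha.2.2.2)).elim

theorem _root_.Crest.Agent.X212.An.Act.tv_up : Mark.tv c'.1 p.2 a = p.2 a :=
  k.elim (fun k => (Mark.tv_mem (h k) _).trans (ha.2.1.2 k).symm) fun k => Mark.tv_fr k _

theorem _root_.Crest.Agent.X212.An.Act.lit_up {r : ℝ} (hr : r ∈ Hs (p.2 a) (b.getD false)) :
    M.Lit m.1 c'.1 a r := (ha.up h k).lit_of ((ha.tv_up h k).symm ▸ hr.2) (abs_lt.2 hr.1).le

variable {K : Nk S.D (Λ.B m c) (Λ.G m c p)} (hK : IsNk a b g K)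
include hK

theorem _root_.Crest.Agent.X212.An.IsNk.sub_xd : K.ψ.target ⊆ range (W.xd h) := fun x hx => by
  obtain ⟨y, r, hr, rfl⟩ := (hK.hn ha).of_tgt hx
  exact ⟨_, (W.xd_xp h (Mark.Lit.not_mem (q := (g y, r)) (ha.lit_up h k hr))).trans
    ((hK.hn ha).ψ y r hr).symm⟩

theorem _root_.Crest.Agent.X212.An.IsNk.key_xd {z : (W.Xo c c').M} (hz : W.xd h z ∈ K.ψ.target) :
    ∃ q : (M.bn a).Y.M × ℝ, q.2 ∈ Hs (p.2 a) (b.getD false) ∧ W.xd h z = W.nj c a q ∧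
      W.xv c c' z = W.nj c' a q := by
  obtain ⟨y, r, hr, e⟩ := (hK.hn ha).of_tgt hz
  have e' := ((hK.hn ha).ψ y r hr).symm.trans e
  exact ⟨(g y, r), hr, e'.symm, (W.eq_of_dp h z.2 ((hK.hn ha).off _ r hr) e').2.symm⟩

theorem _root_.Crest.Agent.X212.An.IsNk.xu_eq {z : (W.Xo c c').M} (hz : W.xd h z ∈ K.ψ.target) :
    Λ.xu h m z = (Λ.Λ m c).p (W.xd h z) := by
  obtain ⟨q, hq, e, e'⟩ := hK.key_xd h ha k hz
  have l' := ha.lit_up h k hq
  have l := ha.lit hq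
  rw [Lns.xu, e, e']
  refine (Λ.du_φ h m m l'.not_mem).trans ?_
  rw [Λ.lit m c a q l, Λ.lit m c' a q l', ((N.um a).iso q (l.1.trans (by norm_num))).tgt,
    Λ.p_lit l]

/-- on a neck the backgrounds of `Xo c c'` and of `Z c` agree literally -/
theorem _root_.Crest.Agent.X212.An.IsNk.grel : GRel (Λ.xB c c' m) (Λ.xG h m p) (Λ.B m c)
    (Λ.G m c p) (W.xd h) (W.xd h ⁻¹' K.ψ.target) := by
  have hO := K.ψ.open_target.preimage (W.xd_oe h).continuous
  have he : ∀ i, ∀ z ∈ W.xd h ⁻¹' K.ψ.target, Dr59.mf (W.Xo c c').I (W.Z c).I (W.xd h) z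
      (((W.xL h m).F p).e i z) = (W.F m c p).e i (W.xd h z) := fun i z hz => by
    obtain ⟨q, hq, -, e⟩ := hK.key_xd h ha k hz
    have l' := ha.lit_up h k hq
    refine W.xL_eq h m ha.2.2.1 (fun i => ?_) i
    rw [show W.xd h z = W.dp h (W.xv c c' z) from rfl, e]
    exact e_lit (I := MId.refl M) ha.1 l' (ha.lit hq) (ha.up h k).lt ha.ok.lt
      (ha.tv.trans (ha.tv_up h k).symm) ((ha.tv_up h k).symm ▸ dom_off hq.2)
      ((W.dp_ld h (W.φ_nw l'.not_mem)).mdifferentiableAt (by simp)) (W.dp_ev h l'.not_mem) i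
  refine ⟨⟨hO, fun z _ => (W.xd_oe h).loc z, he⟩, fun i i' z hz => ?_, fun i i' n n' z hz => ?_,
    fun z hz => ?_, rfl, fun i z hz => (Λ.xG_lit h m (he i z hz)
      (eventually_of_mem (hO.mem_nhds hz) fun _ => hK.xu_eq h ha k)).symm⟩ <;>
    obtain ⟨q, hq, e, e'⟩ := hK.key_xd h ha k hz <;> rw [e]
  · exact (congrArg ((W.L m c').F0.P i i') e').trans ((W.P_lit ha.1 (ha.lit_up h k hq) i i').trans
      (W.P_lit ha.1 (ha.lit hq) i i').symm)
  · exact (congrArg ((Λ.B m c').o i i' n n') e').trans ((W.ov_lit ha.1 (ha.lit_up h k hq) i i' n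
      n').trans (W.ov_lit ha.1 (ha.lit hq) i i' n n').symm)
  · exact (congrArg (Λ.B m c').l e').trans (congrArg Line51.rl
      ((Λ.p_lit (ha.lit_up h k hq)).trans (Λ.p_lit (ha.lit hq)).symm))

variable (hD : S.C.F.IsVol)

/-- **the neck on `Xo c c'`** -/
def _root_.Crest.Agent.X212.An.IsNk.xK : Nk S.D (Λ.xB c c' m) (Λ.xG h m p) :=
  nkPull K (W.xd_oe h) (Int54.isVol_cyl hD) (Lay.F_vol _ _) (hK.sub_xd h ha k) (hK.grel h ha k)

theorem _root_.Crest.Agent.X212.An.IsNk.nkR_xK : NkR univ univ (W.xd h) (hK.xK h ha k hD) K 0 :=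
  nkR_pull K _ _ _ _ _ (subset_univ _) (subset_univ _)

theorem _root_.Crest.Agent.X212.An.IsNk.hn_xK :
    HN (C := W.toCaps) a g (hK.xK h ha k hD) (W.xd h) (p.2 a) (b.getD false) :=
  (hK.hn ha).pull _ _ _ _ _

theorem _root_.Crest.Agent.X212.An.IsNk.sr_xK (f : S.Y.M → Eu (lam ⊕ lam)) :
    SR univ (W.xd h) (fun z => Line51.rl (Λ.xu h m z)) ((hK.xK h ha k hD).ext f) (K.ext f) := by
  intro z _
  rw [show (hK.xK h ha k hD).ext f z = K.ext f (W.xd h z) from rfl]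
  by_cases hz : W.xd h z ∈ K.ψ.target
  · have e := ((Λ.Λ m c).ok p).prj (W.xd h z) trivial
    beta_reduce
    rw [hK.xu_eq h ha k hz, ← Line51.rl_ct, ← ContinuousLinearMap.comp_apply,
      ← Line51.rl_comp]
    exact congrArg (Line51.rl · _) (e.herm.trans (e.idem.symm.trans (congrArg (· * _) e.herm.symm)))
  · rw [K.ext_zero f fun e => hz (K.dp_sub one_pos e), map_zero, map_zero, map_zero]

end pull

section fam
variable {α : Type} {l : Ultrafilter α} {p : α → Prm A} (hp : Tendsto p l (𝓝 p'))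
  (ha : ∀ n, Act m c a b (p n)) (hb : p' ∈ M.Br c''.1) (ho : p' ∈ M.O c''.1)
  {K : ∀ n, Nk S.D (Λ.B m c) (Λ.G m c (p n))} (hK : ∀ n, IsNk a b g (K n))
  {K' : ∀ b', Act m c'' a b' p' → Nk S.D (Λ.B m c'') (Λ.G m c'' p')}
  (hK' : ∀ b' k, IsNk a b' g (K' b' k))
include hp ha hb ho hK hK'

/-- **the necks converge, literal family** -/
theorem nkS_cs (h' : M.Up c c'') : NkS (Λ.cs m h' l p p') K
    (fun i : LJ c'' a m p' b => K' i.1 i.2.1) fun i n => ls b i.1 ((p n).2 a) :=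
  (World.jf_up h').nkS hp ha h'.1 hb ho (fun n => (hK n).hn (ha n)) hK'

/-- **the necks converge, pinching family** -/
theorem nkS_gs (h : c.1 ⊆ c'.1) (h' : M.Up c' c'') (k : a ∈ c.1 ∨ a ∈ M.sys.fr c'.1)
    (hD : S.C.F.IsVol) {H O} : NkS (Λ.gs h m h' l p p' H O) (fun n => (hK n).xK h (ha n) k hD)
      (fun i : LJ c'' a m p' b => K' i.1 i.2.1) fun i n => ls b i.1 ((p n).2 a) :=
  (World.jf_xd h h').nkS hp ha (h.trans h'.1) hb ho (fun n => (hK n).hn_xK h (ha n) k hD) hK'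

end fam

end Crest.Agent.X212.M
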