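import Crest.Agent.X212.M.Wgt
import Crest.Agent.X212.M.Pnk
import Crest.Agent.X212.Cht98.Wld

/-!
# Row 212, layer M: the weights of a job
-/

set_option autoImplicit false
set_option linter.unusedSectionVars false
set_option linter.dupNamespace false
noncomputable section
open Set Function Filter Topology MeasureTheory Real
open scoped ContDiff Manifold Classical ENNReal

namespace Crest.Agent.X212.M
open An Cyl58 Cmp73 Nd18 Cht98 Mp86
open TopologicalSpace (Opens)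

theorem abs_len_le {t r : ℝ} {b : Bool} (ht : 1 / 2 ≤ t) (hr : r ∈ dom 1 b) :
    |len t b r| ≤ |len 1 b r| := by
  refine intervalIntegral.norm_integral_le_abs_of_norm_le (E := ℝ)
    ((ae_restrict_mem measurableSet_uIoc).mono fun x hx => ?_) (integrable_inv_sig (pm_mem 1 b) hr)
  have k := dom_off ((ordConnected_dom 1 b).uIcc_subset (pm_mem 1 b) hr (uIoc_subset_uIcc hx))
  have k1 : sig 1 x ≤ sig t x := by
    simp only [sig, tau_eq_one ht, tau_one, sub_self, zero_div, ab_of_le (abs_nonneg x)]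
    nlinarith [abs_le_ab ((1 - t) / 2) x, chi_nonneg (2 * x)]
  rw [Real.norm_of_nonneg (inv_pos.2 ((sig_pos k).trans_le k1)).le]
  exact inv_anti₀ (sig_pos k) k1

theorem tend_len (b : Bool) : Tendsto (len 1 b) (𝓝[dom 1 b] 0) (cocompact ℝ) := by
  have e : ∀ b, dom 1 b = if b then Ioi 0 else Iio 0 := fun b => by cases b <;> simp [dom] <;> rfl
  rw [e]
  cases b
  · refine ((tendsto_neg_atBot_atTop.comp (tendsto_len_one_true.comp
      (tendsto_neg_nhdsLT (a := (0 : ℝ)) |>.mono_right (by simp)))).mono_right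
        atTop_le_cocompact).congr fun s => ?_
    simpa using (len_neg 1 true (-s)).symm
  · exact tendsto_len_one_true.mono_right atBot_le_cocompact

variable {Wi : Type} {X : Mf 4} {A κ lam : Type} [Fintype A] [Fintype κ] [Fintype lam]
  [DecidableEq lam] {M : Mark X A κ} {W : World M} {N : ML M lam} {Λ : Lns W N} {A' h : Type}
  [Fintype A'] [DecidableEq A'] [Fintype h] {r n : ℕ}

variable (A) in
/-- the number of necks -/
abbrev nN : ℝ := Fintype.card (A × Option Bool)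

variable (A κ) in
/-- the constant of the depth functions -/
def cW : ℝ := nN A * (Fintype.card (Option κ) * cτ ^ 2 + |cτ|)

variable (A κ) in
/-- the rate of decay -/
def dW : ℝ := (4 * (Fintype.card (Option κ) + 1) * ((nN A + 1) * cW A κ) + 1)⁻¹

theorem cW_nonneg : 0 ≤ cW A κ := by unfold cW; positivity

theorem dW_pos : 0 < dW A κ := by have := cW_nonneg (A := A) (κ := κ); unfold dW; positivity

theorem dW_le {s : ℝ} (hs : s ≤ nN A + 1) :
    4 * (Fintype.card (Option κ) + 1) * (s * dW A κ * cW A κ) ≤ 1 := by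
  have := cW_nonneg (A := A) (κ := κ)
  have k : (4 * (Fintype.card (Option κ) + 1) * ((nN A + 1) * cW A κ) + 1) * dW A κ = 1 :=
    mul_inv_cancel₀ (by positivity)
  have p := dW_pos (A := A) (κ := κ)
  nlinarith [mul_le_mul_of_nonneg_right hs (show 0 ≤ 4 * (Fintype.card (Option κ) + 1 : ℝ) *
    (dW A κ * cW A κ) by positivity)]

end Crest.Agent.X212.M

namespace Crest.Agent.X212.An.Job
open M Cyl58 Cmp73 Nd18 Cht98 Mp86
open TopologicalSpace (Opens)

variable {Wi : Type} {X : Mf 4} {A κ lam : Type} [Fintype A] [Fintype κ] [Fintype lam]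
  [DecidableEq lam] {M : Mark X A κ} {W : World M} {N : ML M lam} {Λ : Lns W N} {A' h : Type}
  [Fintype A'] [DecidableEq A'] [Fintype h] {r n : ℕ} (J : Job Wi Λ A' h r n) (c : M.Cl)
  (p : Prm A)

/-- sums over the active necks -/
def sN (f : ∀ a b, Act J.m c a b p → ℝ) : ℝ :=
  ∑ i : A × Option Bool, if k : Act J.m c i.1 i.2 p then f i.1 i.2 k else 0

/-- the depth -/
def u0 (y : (W.Z c).M) : ℝ := J.sN c p fun a b k => dep (J.K c a b p k) y

/-- the distance along the necks -/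
def ux (x y : (W.Z c).M) : ℝ :=
  J.sN c p fun a b k => sa ((J.K c a b p k).τ y - (J.K c a b p k).τ x)

/-- the weights with the rate `δ` -/
def wt' (δ : ℝ) (x y : (W.Z c).M) : ℝ :=
  exp (-(δ * (J.ux c p x y + 0))) + exp (-(δ * (J.u0 c p y + 0)))

/-- **the weights** -/
def wt : (W.Z c).M → (W.Z c).M → ℝ := J.wt' c p (dW A κ)

/-- the complement of the active necks -/
def off : Set (W.Z c).M := {y | ∀ a b k, y ∉ (J.K c a b p k).ψ.target}

/-- the contribution of the necks to the integral of a weight -/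
def cV (δ : ℝ) : ℝ≥0∞ := ∑ i : A × Option Bool,
  (J.xs i.1).D.F.μ univ * (ENNReal.ofReal (exp (2 * δ)) * (3 * eI δ))

variable {J c p} {δ : ℝ} {x y : (W.Z c).M}

theorem cV_lt (hδ : 0 < δ) : J.cV δ < ⊤ := ENNReal.sum_lt_top.2 fun i _ =>
  have := (J.xs i.1).D.F.fin
  ENNReal.mul_lt_top isCompact_univ.measure_lt_top (ENNReal.mul_lt_top ENNReal.ofReal_lt_top
    (ENNReal.mul_lt_top (by simp) (eI_lt hδ)))

theorem sN_term {f : ∀ a b, Act J.m c a b p → ℝ} (h : ∀ a b k, 0 ≤ f a b k) (i : A × Option Bool) :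
    0 ≤ if k : Act J.m c i.1 i.2 p then f i.1 i.2 k else 0 := by
  split_ifs; exacts [h _ _ _, le_rfl]

theorem sN_nonneg {f : ∀ a b, Act J.m c a b p → ℝ} (h : ∀ a b k, 0 ≤ f a b k) : 0 ≤ J.sN c p f :=
  Finset.sum_nonneg fun i _ => sN_term h i

theorem le_sN {f : ∀ a b, Act J.m c a b p → ℝ} (h : ∀ a b k, 0 ≤ f a b k) {a b}
    (k : Act J.m c a b p) : f a b k ≤ J.sN c p f :=
  (dif_pos k).symm.trans_le (Finset.single_le_sum (fun i _ => sN_term h i) (Finset.mem_univ (a, b)))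

theorem sN_le {f : ∀ a b, Act J.m c a b p → ℝ} {C : ℝ} (hC : 0 ≤ C) (h : ∀ a b k, f a b k ≤ C) :
    J.sN c p f ≤ nN A * C :=
  (Finset.sum_le_card_nsmul _ _ C fun i _ => by split_ifs; exacts [h _ _ _, hC]).trans_eq
    (nsmul_eq_mul _ _)

theorem u0_nonneg : 0 ≤ J.u0 c p y := sN_nonneg fun _ _ _ => dep_nonneg _ _

theorem ux_nonneg : 0 ≤ J.ux c p x y := sN_nonneg fun _ _ _ => sa_nonneg _

theorem wt'_pos : 0 < J.wt' c p δ x y := add_pos (exp_pos _) (exp_pos _)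

theorem wt'_le (hδ : 0 ≤ δ) : J.wt' c p δ x y ≤ 2 := by
  have k : ∀ u, 0 ≤ u → exp (-(δ * (u + 0))) ≤ 1 := fun u hu =>
    exp_le_one_iff.2 (neg_nonpos.2 (by positivity))
  linarith [k _ (ux_nonneg (J := J) (x := x) (y := y) (p := p)),
    k _ (u0_nonneg (J := J) (y := y) (p := p)), show J.wt' c p δ x y = _ + _ from rfl]

theorem one_le_wt' : 1 ≤ J.wt' c p δ x x := by
  have : J.ux c p x x = 0 := by simp [ux, sN, sa]
  simp [wt', this, (exp_pos _).le]

theorem wt'_le_maj (hδ : 0 ≤ δ) {a b} (k : Act J.m c a b p) (hy : y ∈ (J.K c a b p k).ψ.target) :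
    J.wt' c p δ x y ≤ maj (J.K c a b p k) δ ((J.K c a b p k).τ x) ((J.K c a b p k).tm y) := by
  refine le_trans (add_le_add ?_ ?_) (le_maj _ hδ hy _) <;>
    refine exp_le_exp.2 (neg_le_neg (mul_le_mul_of_nonneg_left (le_trans ?_ (add_zero _).ge) hδ))
  exacts [le_sN (f := fun a b k => sa ((J.K c a b p k).τ y - (J.K c a b p k).τ x))
    (fun _ _ _ => sa_nonneg _) k, le_sN (f := fun a b k => dep (J.K c a b p k) y)
      (fun _ _ _ => dep_nonneg _ _) k]

/-- **the integral of a weight** -/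
theorem lint_wt' (hδ : 0 ≤ δ) : ∫⁻ y, ENNReal.ofReal (J.wt' c p δ x y) ∂(Λ.G J.m c p).F.μ ≤
    2 * (Λ.G J.m c p).F.μ (J.off c p) + J.cV δ := by
  let T : A × Option Bool → Set (W.Z c).M := fun i => {y | ∃ k, y ∈ (J.K c i.1 i.2 p k).ψ.target}
  rw [← setLIntegral_univ]
  refine (lintegral_mono_set (t := J.off c p ∪ ⋃ i, T i) fun y _ => by_contra fun k =>
    k (.inl fun a b e e' => k (.inr (mem_iUnion.2 ⟨(a, b), e, e'⟩)))).trans
    ((lintegral_union_le _ _ _).trans (add_le_add ?_ ((lintegral_iUnion_le _ _).trans ?_)))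
  · exact (lintegral_mono fun y => ENNReal.ofReal_le_ofReal (wt'_le hδ)).trans_eq (by simp)
  rw [tsum_fintype]
  refine Finset.sum_le_sum fun i _ => ?_
  by_cases k : Act J.m c i.1 i.2 p
  · rw [show T i = (J.K c i.1 i.2 p k).ψ.target from Set.ext fun _ => ⟨fun e => e.2, fun e => ⟨k, e⟩⟩]
    exact (setLIntegral_mono' (J.K _ _ _ _ k).ψ.open_target.measurableSet fun y hy =>
      ENNReal.ofReal_le_ofReal (wt'_le_maj hδ k hy)).trans (lint_maj _ _ _)
  · simp [show T i = ∅ from eq_empty_of_forall_notMem fun _ e => k e.1]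

theorem wt_pos : 0 < J.wt c p x y := wt'_pos

theorem wt_le : J.wt c p x y ≤ 2 := wt'_le dW_pos.le

theorem lint_wt_sq : ∫⁻ y, ENNReal.ofReal (J.wt c p x y ^ 2) ∂(Λ.G J.m c p).F.μ ≤
    2 * (2 * (Λ.G J.m c p).F.μ (J.off c p) + J.cV (dW A κ)) := by
  refine (lintegral_mono fun y => ?_).trans ((lintegral_const_mul' 2 _ (by simp)).trans_le
    (mul_le_mul_right (lint_wt' (x := x) dW_pos.le) _))
  rw [← ENNReal.ofReal_ofNat, ← ENNReal.ofReal_mul zero_le_two, sq]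
  exact ENNReal.ofReal_le_ofReal (mul_le_mul_of_nonneg_right wt_le wt_pos.le)

variable (hJ : J.OK)
include hJ

theorem lb_sN {f : ∀ a b, Act J.m c a b p → ℝ → ℝ} (hf : ∀ a b k, C2 (f a b k)) :
    Lb (Λ.G J.m c p).F (cW A κ) fun y => J.sN c p fun a b k => f a b k ((J.K c a b p k).τ y) :=
  Lb.sum fun i => by
    by_cases k : Act J.m c i.1 i.2 p
    · simp only [dif_pos k]
      exact (lb_τ _ (Int54.isVol_cyl (hJ.xs i.1).1.vol) (Lay.F_vol _ _)).comp (hf _ _ k)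
    · simp only [dif_neg k]; exact .zero (by positivity)

theorem lb_u0 : Lb (Λ.G J.m c p).F (cW A κ) (J.u0 c p) := lb_sN hJ fun _ _ _ => c2_dpf

theorem wc_wt' (hδ : 0 ≤ δ) : Wc (Λ.G J.m c p).F (δ * cW A κ) (J.wt' c p δ x) :=
  ((lb_sN hJ fun _ _ _ => c2_sa.shift _).exp hδ 0).add ((lb_u0 hJ).exp hδ 0)

section one
variable (hb : p ∈ M.Br c.1) (ho : p ∈ M.O c.1)
include hb ho

theorem of_thin {η : ℝ} (hη : η ≤ 1) (hy : y ∈ thin W.toCaps c η) :
    ∃ a β, ∃ k : Act J.m c a (some β) p, ∃ s ∈ X212.M.dom 1 β, |s| < η ∧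
      y ∈ (J.K c a _ p k).ψ.target ∧ (J.K c a _ p k).tm y = len 1 β s := by
  obtain ⟨_, hx, rfl⟩ := hy
  obtain ⟨a, ha, q, hq, rfl⟩ := mem_iUnion₂.1 hx
  have k : ∀ β, Act J.m c a (some β) p := fun _ => ⟨ha.2, hb, ho, ha.1⟩
  obtain ⟨β, h1⟩ : ∃ β, q.2 ∈ X212.M.dom 1 β := (show q.2 ≠ 0 from hq.2.1).lt_or_gt.elim
    (fun e => ⟨false, .inr e⟩) fun e => ⟨true, .inr e⟩
  have H := (hJ.nk c a _ p (k β)).hn (k β)
  rw [show p.2 a = 1 from hb.2 ha.1] at H
  have h2 : q.2 ∈ Hs 1 β := ⟨abs_lt.1 (hq.2.2.trans_le hη), h1⟩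
  have e := H.ψ ((J.g a).symm q.1) _ h2
  rw [Diffeomorph.apply_symm_apply] at e
  exact ⟨a, β, k β, q.2, h1, hq.2.2, mem_of_eq_of_mem e.symm ((J.K ..).ψ.map_source (H.src _ h2)),
    (congrArg _ e.symm).trans ((J.K ..).tm_ψ _ (H.src _ h2))⟩

theorem off_lt : (Λ.G J.m c p).F.μ (J.off c p) < ⊤ :=
  have := (Λ.G J.m c p).F.fin
  (measure_mono fun _ hy k => let ⟨a, _, k, _, _, _, e, _⟩ := of_thin hJ hb ho le_rfl k
    hy a _ k e).trans_lt (isCompact_thick W.toCaps one_pos).measure_lt_top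

theorem off_hZ (hy : y ∈ J.off c p) {a : A} (hp : ¬M.pin a)
    (ha : a ∈ c.1 ∨ a ∈ J.m.1 ∧ a ∈ M.sys.fr c.1 ∧ 1 / 2 ≤ p.2 a) : 1 ≤ |hZ W.toCaps c a y| := by
  by_contra! e
  obtain ⟨b, k, h1⟩ : ∃ b, Act J.m c a b p ∧ hZ W.toCaps c a y ∈ Hs (p.2 a) (b.getD false) := by
    rcases ha with ha | ha
    · rcases (hZ_ne _ ha hp y).lt_or_gt with k | k
      exacts [⟨some false, ⟨hp, hb, ho, ha⟩, abs_lt.1 e, .inr k⟩,
        ⟨some true, ⟨hp, hb, ho, ha⟩, abs_lt.1 e, .inr k⟩]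
    · exact ⟨none, ⟨hp, hb, ho, ha⟩, abs_lt.1 e, .inl (ho a ha.2.1)⟩
  obtain ⟨y₀, -, h2⟩ := exists_of_hZ _ k.ok.mem (e.trans (by norm_num))
  have H := (hJ.nk c a b p k).hn k
  have h3 := H.ψ ((J.g a).symm y₀) _ h1
  rw [Diffeomorph.apply_symm_apply, h2] at h3
  exact hy a b k (mem_of_eq_of_mem h3.symm ((J.K ..).ψ.map_source (H.src _ h1)))

theorem tend_wt' (hδ : 0 < δ) : Tendsto (J.wt' c p δ x) (cocompact _) (𝓝 0) := by
  refine tendsto_order.2 ⟨fun ε hε => .of_forall fun _ => hε.trans wt'_pos, fun ε hε => ?_⟩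
  have k : ∀ᶠ s in 𝓝 (0 : ℝ), ∀ i : A × Bool, ∀ k : Act J.m c i.1 (some i.2) p,
      s ∈ X212.M.dom 1 i.2 →
      maj (J.K c _ _ p k) δ ((J.K c _ _ p k).τ x) (len 1 i.2 s) < ε :=
    eventually_all.2 fun i => eventually_all.2 fun k => eventually_nhdsWithin_iff.1
      (((tend_maj _ hδ _).comp (tend_len i.2)).eventually (gt_mem_nhds hε))
  obtain ⟨η, h0, k⟩ := Metric.eventually_nhds_iff.1 k
  filter_upwards [(isCompact_thick W.toCaps (lt_min h0 one_pos)).compl_mem_cocompact] with y hy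
  obtain ⟨a, β, k', s, h1, h2, h3, h4⟩ := of_thin hJ hb ho (min_le_right _ _) (not_not.1 hy)
  exact (wt'_le_maj hδ.le k' h3).trans_lt (h4 ▸ k (by
    simpa using h2.trans_le (min_le_left _ _)) (a, β) k' h1)

/-- **WTS** -/
theorem wts {S : ℝ} (hS : L4 (Λ.G J.m c p).F.toPre S) (h0 : 0 ≤ S) :
    Wts (Λ.G J.m c p).F S (J.wt c p) :=
  ⟨bumps_of_tame _ (tame_W W J.m ho).choose_spec, hS, h0, fun _ => (wc_wt' hJ dW_pos.le).wt
    (mul_nonneg dW_pos.le cW_nonneg) (by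
      simpa using dW_le (A := A) (κ := κ) (s := 1) (le_add_of_nonneg_left (Nat.cast_nonneg _)))
    (tend_wt' hJ hb ho dW_pos), fun _ => one_le_wt'⟩

theorem wg_u0 {C : ℝ} (hC : 0 ≤ C) :
    Wg (Λ.G J.m c p).F fun y => exp (-((nN A + 1) * dW A κ * (J.u0 c p y + C))) := by
  have d : 0 < (nN A + 1) * dW A κ := mul_pos (by positivity) dW_pos
  have k : ∀ y, -((nN A + 1) * dW A κ * (J.u0 c p y + C)) ≤
      -((nN A + 1) * dW A κ * (J.u0 c p y + 0)) := fun y => by gcongr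
  obtain ⟨x⟩ : Nonempty (W.Z c).M := inferInstance
  refine ((lb_u0 hJ).exp d.le C).wg (mul_nonneg d.le cW_nonneg) (dW_le le_rfl)
    (fun y => exp_le_one_iff.2 (neg_nonpos.2 (mul_nonneg d.le (add_nonneg u0_nonneg hC))))
    (((lintegral_mono fun y => ENNReal.ofReal_le_ofReal ((exp_le_exp.2 (k y)).trans
      (le_add_of_nonneg_left (exp_pos _).le))).trans (lint_wt' (x := x) d.le)).trans_lt ?_)
  exact ENNReal.add_lt_top.2 ⟨ENNReal.mul_lt_top (by simp) (off_lt hJ hb ho), cV_lt d⟩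

end one

variable {c'' : M.Cl} {p' : Prm A} (hb : p' ∈ M.Br c''.1) (ho : p' ∈ M.O c''.1) {Y : Mf 4}
  {j : Y.M → (W.Z c).M} {f : PartialDiffeomorph (W.Z c'').I Y.I (W.Z c'').M Y.M ∞}
  {P : Set (W.Z c'').M} (hj : JF (C := W.toCaps) j f P) (hc : c.1 ⊆ c''.1)
include hb ho hj hc

theorem dep_le_u0 {a b} (k : Act J.m c a b p) {C : ℝ} (hC : 3 ≤ C)
    (h1 : a ∉ c''.1 → nl (p.2 a) ≤ C) {z : (W.Z c'').M} (hz : z ∉ P) :
    dep (J.K c a b p k) (j (f z)) ≤ J.u0 c'' p' z + C := by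
  have u := u0_nonneg (J := J) (p := p') (y := z)
  by_cases e : j (f z) ∈ (J.K c a b p k).ψ.target
  swap
  · linarith [dep_off _ e]
  have H := (hJ.nk c a b p k).hn k
  obtain ⟨y, s, hs, e'⟩ := H.of_tgt e
  obtain ⟨h3, rfl⟩ := hj.of z hz _ (H.off _ s hs) ((H.ψ y s hs).symm.trans e')
  obtain ⟨d1, d2, -⟩ := dep_le _ e
  rw [(congrArg _ e'.symm).trans ((J.K ..).tm_ψ _ (H.src y hs))] at d1 d2
  rw [H.p] at d1
  rw [H.q] at d2
  by_cases ha : a ∈ c''.1
  swap
  · rcases b with _ | b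
    · exact (dep_le_len _ (a := 0) H.p (H.q.trans (nq_false (k.2.2.1 a k.2.2.2.2.1))) _).trans
        (by linarith [h1 ha])
    · exact (ha (hc k.2.2.2)).elim
  have key : ∀ β, s ∈ Hs 1 β → |len 1 β s| - 2 ≤ J.u0 c'' p' (W.φ c'' ((M.bn a).j (J.g a y, s))) :=
    fun β hβ => by
      have k' : Act J.m c'' a (some β) p' := ⟨k.1, hb, ho, ha⟩
      have H' := (hJ.nk c'' a _ p' k').hn k'
      rw [show p'.2 a = 1 from hb.2 ha] at H'
      have d := (dep_le _ ((J.K ..).ψ.map_source (H'.src y hβ))).2.2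
      rw [(J.K ..).tm_ψ _ (H'.src y hβ), H'.p, H'.q, show (J.K c'' a _ p' k').ψ _ = _ from
        H'.ψ y s hβ] at d
      refine le_trans ?_ (le_sN (f := fun a b k => dep (J.K c'' a b p' k) _)
        (fun _ _ _ => dep_nonneg _ _) k')
      cases β <;> simpa [np, nq] using d
  have t := k.ok.tv_mem.1
  rw [k.tv] at t
  have kf := fun h : s ∈ Hs 1 false => (key _ h).trans' (sub_le_sub_right
    ((le_abs_self _).trans (abs_len_le t h.2)) 2)
  have kt := fun h : s ∈ Hs 1 true => (key _ h).trans' (sub_le_sub_right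
    ((neg_le_abs _).trans (abs_len_le t h.2)) 2)
  rcases b with _ | b <;> simp only [Option.getD_none, Option.getD_some] at d1 d2
  · have lt := k.2.2.1 a k.2.2.2.2.1
    rcases (show s ≠ 0 from fun e => h3 ((j_mem_cores ha).2 e)).lt_or_gt with e | e
    · linarith [d1 0 rfl, kf ⟨hs.1, .inr e⟩]
    · linarith [d2 _ (nq_false lt), kt ⟨hs.1, .inr e⟩, len_false lt s]
  · have e1 : p.2 a = 1 := k.2.1.2 k.2.2.2
    cases b
    · linarith [d1 0 rfl, kf (e1 ▸ hs)]
    · linarith [d2 0 rfl, kt (e1 ▸ hs)]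

theorem wr {α : Type} {l : Ultrafilter α} {p : α → Prm A} (hp : Tendsto p l (𝓝 p'))
    (hm : Continuous j) (hP : P.Finite) {B G H O}
    (x : α → (W.Z c).M) : (rGs l B G (Λ.B J.m c'') (Λ.G J.m c'' p') H f O P).WR
      fun n => J.wt c (p n) (x n) ∘ j := by
  obtain ⟨C, hC⟩ := (finite_range fun a => nl (p'.2 a) + 1).bddAbove
  have k : ∀ᶠ n in (l : Filter α), ∀ a, a ∉ c''.1 → nl ((p n).2 a) ≤ max C 3 :=
    eventually_all.2 fun a => eventually_imp_distrib_left.2 fun ha =>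
      (((continuousAt_len ((hb.1.1 a).2.lt_of_ne fun e => ha (Mark.inf_eq hb ho ▸ e)) false
        1).tendsto.comp ((((continuous_apply a).comp continuous_snd).tendsto _).comp
          hp)).eventually (gt_mem_nhds (lt_add_one _))).mono fun _ hn =>
        hn.le.trans ((hC ⟨a, rfl⟩).trans (le_max_left _ _))
  have c3 := le_max_right C 3
  refine ⟨fun n => ((wc_wt' hJ dW_pos.le).sm.continuous.comp hm).measurable, _,
    wg_u0 hJ hb ho (C := max C 3) (by linarith), fun _ => ev_nF.2 (eventually_mem_nhdsWithin.mono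
      fun y hy => (k.prod_mk (hP.isClosed.isOpen_compl.eventually_mem hy)).mono fun q hq => ?_)⟩
  have u := u0_nonneg (J := J) (p := p') (y := q.2)
  have e : J.u0 c (p q.1) (j (f q.2)) ≤ nN A * (J.u0 c'' p' q.2 + max C 3) :=
    sN_le (by linarith) fun a b k => dep_le_u0 hJ hb ho hj hc k c3 (hq.1 a) hq.2
  refine le_trans (exp_le_exp.2 ?_) ((le_add_of_nonneg_left (exp_pos _).le).trans (le_abs_self _))
  have := dW_pos (A := A) (κ := κ)
  show _ ≤ -(_ * (J.u0 c (p q.1) (j (f q.2)) + 0))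
  nlinarith

omit hj hc

variable {α : Type} {l : Ultrafilter α} {p : α → Prm A} (hp : Tendsto p l (𝓝 p'))
  (x : α → (W.Z c).M)
include hp

/-- **WR**, literal family -/
theorem wr_cs (h' : M.Up c c'') : (Λ.cs J.m h' l p p').WR fun n => J.wt c (p n) (x n) :=
  wr hJ hb ho (World.jf_up h') h'.1 hp continuous_id finite_empty x

/-- **WR**, pinching family -/
theorem wr_gs {c' : M.Cl} (h : c.1 ⊆ c'.1) (h' : M.Up c' c'') {H O} :
    (Λ.gs h J.m h' l p p' H O).WR fun n => J.wt c (p n) (x n) ∘ W.xd h :=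
  wr hJ hb ho (World.jf_xd h h') (h.trans h'.1) hp (W.xd_oe h).continuous
    ((W.nw_finite c c').preimage (W.up_oe h').inj.injOn) x

end Crest.Agent.X212.An.Job
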