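import Crest.Agent.X212.M.Api
import Crest.Agent.X212.Met55.Trf
import Crest.Agent.X212.Line51.Glue
import Crest.Agent.X212.Pj41.Cm

/-!
# Row 212, layer M: transport of layers
-/

set_option autoImplicit false
set_option linter.unusedSectionVars false
set_option linter.dupNamespace false
noncomputable section
open Set Function Filter Topology Module Matrix
open scoped ContDiff Manifold InnerProductSpace
open Crest.Agent.R208.F (Ext pb)
open Crest.Agent.R208.FI (IsDeg)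

namespace Crest.Agent.X212.M
open An Cyl58 Cyf70 Int54 Prm93
open Met55 (Sp VF VJ FAt fP atx rFr IsP pbv cF rotU)
open Line51 (Ln Uni)
open Dr59 (mf SmAt)
open Pj41 (MSm cmF cmB cmG)

/-! ### closed conditions -/

section cl
variable {Z : Mf 4} {z : Z.M} {ι ι' : Type} [Fintype ι] [Fintype ι']

theorem mat_cl {κ l : Type} {𝕜 : Type} [RCLike 𝕜] {u v : Z.M → Matrix κ l 𝕜} (hu : MSm Z.I u z)
    (hv : MSm Z.I v z) (h : ∃ᶠ y in 𝓝 z, u y = v y) : u z = v z := by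
  ext i k
  exact tendsto_nhds_unique_of_frequently_eq (hu i k).continuousAt (hv i k).continuousAt
    (h.mono fun y hy => by simp only [hy])

theorem co_cl {e : ι → VF Z.I Z.M} {e' : ι' → VF Z.I Z.M} (he : FAt e z)
    (he' : ∀ b, Met55.VAt Z.I (e' b) z) (h : ∃ᶠ y in 𝓝 z, Met55.Co (atx e y) (atx e' y)) :
    Met55.Co (atx e z) (atx e' z) := by
  have h1 := Met55.msm_fM he he'
  have h2 := mat_cl (h1.mul h1.transpose) (Met55.msm_fP he.sm he.sp)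
    ((h.and_eventually (Met55.sp_eventually he.sm he.sp)).mono fun y hy =>
      (Met55.fM_rot hy.2 hy.1).1)
  have h3 := he.sp.isP.co_mix (U := (Met55.fM e e' z)ᵀ) h2
  rwa [show Met55.mix (Met55.fM e e' z)ᵀ (atx e z) = atx e' z from
    funext (Met55.sum_fM he.sp e')] at h3

theorem form_cl {a b : Z.M → Ext Z.E} (ha : SmAt Z.I a z) (hb : SmAt Z.I b z)
    (da : ∀ᶠ y in 𝓝 z, IsDeg 1 (a y)) (db : ∀ᶠ y in 𝓝 z, IsDeg 1 (b y))
    (h : ∃ᶠ y in 𝓝 z, a y = b y) : a z = b z := by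
  refine Num57.ext1 da.self_of_nhds db.self_of_nhds fun v => ?_
  have hv := Met55.vAt_cf (I := Z.I) (mem_chart_source Z.H z) v
  have := tendsto_nhds_unique_of_frequently_eq (Line51.fsm_e1 ha da hv).continuousAt
    (Line51.fsm_e1 hb db hv).continuousAt (h.mono fun y hy => by simp only [hy])
  exact (congrArg _ (Met55.cf_self z v)).symm.trans (this.trans (congrArg _ (Met55.cf_self z v)))

theorem same_cl {o o' : Z.M → Ext Z.E} (ho : SmAt Z.I o z) (ho' : SmAt Z.I o' z)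
    (h0 : tp _ (o z) ≠ 0) (h0' : tp _ (o' z) ≠ 0) (h : ∃ᶠ y in 𝓝 z, 0 < tp _ (o y) * tp _ (o' y)) :
    0 < tp _ (o z) * tp _ (o' z) := by
  have h1 : 0 ≤ rat o o' z := isClosed_Ici.mem_of_frequently_of_tendsto
    (h.mono fun y hy => (SameOn.rat_pos (s := {y}) (fun _ e => mem_singleton_iff.1 e ▸ hy) rfl).le)
    (contMDiffAt_rat le_rfl ho h0 ho').continuousAt
  exact sameOn_of_rat_pos (s := {z}) (fun _ e => mem_singleton_iff.1 e ▸
    h1.lt_of_ne (div_ne_zero h0' h0).symm) z rfl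

end cl

/-- an open part of a manifold -/
abbrev Mf.op {n : ℕ} (Z : Mf n) (U : TopologicalSpace.Opens Z.M) : Mf n := Mf.of n Z.I U Z.dim

variable {Z Z' : Mf 4} {o : Z.M → Ext Z.E} {o' : Z'.M → Ext Z'.E}
  {T T' ι ι' : Type} [NormedAddCommGroup T] [NormedSpace ℝ T] [NormedAddCommGroup T']
  [NormedSpace ℝ T'] [Fintype ι] [Fintype ι'] {Ω : Set (T × Z.M)} {Ω' : Set (T' × Z'.M)}
  {lam lam' : Type} [Fintype lam] [DecidableEq lam] [Fintype lam'] [DecidableEq lam']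

/-- an oriented isometry with a parallel isometry of the lines is an equivalence -/
theorem LLay.geq {L : Lay Z o T ι Ω} {L' : Lay Z' o' T' ι' Ω'} (Λ : LLay L lam) (Λ' : LLay L' lam')
    (ho : Ori Z.I o) (ho' : Ori Z'.I o') {t : T} {t' : T'} (h : ∀ x, (t, x) ∈ Ω)
    (h' : ∀ x, (t', x) ∈ Ω') {Ψ : OpenPartialHomeomorph Z.M Z'.M}
    (h1 : ContMDiffOn Z.I Z'.I ∞ Ψ Ψ.source) (h2 : ContMDiffOn Z'.I Z.I ∞ Ψ.symm Ψ.target)
    (hc : ∀ z ∈ Ψ.source,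
      Met55.Co (fun a => mf Z.I Z'.I Ψ z (atx (L.e t) z a)) (atx (L'.e t') (Ψ z)))
    (hs : SameOn o (Dr59.pm Z.I Z'.I Ψ o') Ψ.source) {u : Z.M → Matrix lam' lam ℂ}
    (hu : Line51.Iso Z.I (Λ.ln t) ((Λ'.ln t').pull Z.I Z'.I Ψ) u Ψ.source) :
    GEq Λ.B (Λ.G t) Λ'.B (Λ'.G t') Ψ (rotU (L.F t).toPre (L'.F t').toPre Ψ)
      fun x => Line51.rl (u x) := by
  rw [← L.F_e h, ← L'.F_e h'] at hc
  obtain ⟨k1, k2, k3, k4, k5⟩ := Met55.rot_spec (L.F_vol t) (L'.F_vol t') h1 h2 hc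
  rw [Λ.B_eq h, Λ'.B_eq h']
  refine hu.geq ((Λ.ok t).mono (subset_univ _)) ((Λ'.ok t').mono (subset_univ _)) h1 h2 k1 k2 k3 k4
    k5 (geq_mu_o Z'.dim Z.dim (L'.F_vol t') (L.F_vol t) (ho'.unit_vol _) (ho.unit_vol _) h1 ?_ k2
      k4).2
  exact ((ho.sameOn_volF (Met55.pre_sp _) _).symm.trans hs).trans
    ((ho'.sameOn_volF (Met55.pre_sp _) univ).pm (fun y hy => Met55.ld_of_oph h1 h2 hy)
      (mapsTo_univ _ _))

/-! ### pull-back along a local diffeomorphism -/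

section pull
variable {ψ : Z'.M → Z.M} (hψ : IsLocalDiffeomorph Z'.I Z.I ∞ ψ)
  (hs : SameOn o' (Dr59.pm Z'.I Z.I ψ o) univ)

include hψ hs in
theorem ov_pbv {e : ι → VF Z.I Z.M} {x : Z'.M} (h : Sp (atx e (ψ x))) (a b c d : ι) :
    ov o' (fun a => pbv Z'.I Z.I ψ (e a)) a b c d x = ov o e a b c d (ψ x) :=
  (cf_rel Z.dim Z'.dim (e' := fun a => pbv Z'.I Z.I ψ (e a)) (fun i => Met55.pbv_rel (hψ x) (e i)) h
    ((Met55.sp_rel (hψ x) fun i => Met55.pbv_rel (hψ x) (e i)).2 h) (hs x trivial) _).symm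

/-- the pull-back of a layer -/
def Lay.pull (L : Lay Z o T ι Ω) : Lay Z' o' T ι {q | (q.1, ψ q.2) ∈ Ω} where
  F0 := cmF hψ L.F0
  vol := Pj41.cmF_vol _ _
  e t a := pbv Z'.I Z.I ψ (L.e t a)
  sm t x h a := (L.sm t _ h a).pbv (hψ x)
  sp t x h := ((L.fAt h).pbv (hψ x)).sp
  P t x h := by
    rw [Met55.fP_rel (hψ x) ((L.fAt h).pbv (hψ x)).sp fun a => Met55.pbv_rel (hψ x) _, L.P t _ h]
    exact (Met55.fP_rel (hψ x) (Met55.pre_sp _ x) fun a => Met55.pbv_rel (hψ x) _).symm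
  ob t x h a b c d := ((ov_pbv hψ hs (L.sp t _ h) a b c d).trans (L.ob t _ h a b c d)).trans
    (ov_pbv hψ hs (Met55.pre_sp L.F0.toPre _) a b c d).symm

variable {L : Lay Z o T ι Ω} {t : T}

theorem Lay.pull_F (h : ∀ x, (t, x) ∈ Ω) : (L.pull hψ hs).F t = cmF hψ (L.F t) :=
  Met55.vol_ext (Lay.F_vol _ _) (Pj41.cmF_vol _ _) (by
    rw [Lay.F_e _ fun x => h (ψ x)]
    exact (congrArg (fun e : ι → VF Z.I Z.M => fun a => pbv Z'.I Z.I ψ (e a)) (L.F_e h)).symm)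

/-- the pull-back of a line layer -/
def LLay.pull (Λ : LLay L lam) : LLay (L.pull hψ hs) lam where
  p x := Λ.p (ψ x)
  a t := Dr59.pm Z'.I Z.I ψ (Λ.a t)
  ok t := (Λ.ok t).pull ⟨fun y _ => (hψ y).contMDiffAt, mapsTo_univ _ _⟩
  sm k t x := JAt.congr (Met55.jAt_comp (hψ x).contMDiffAt (Λ.sm k t (ψ x))) (.of_forall fun z =>
    (Line51.e1_pb _ _ _).trans (congrArg _ (Met55.pbv_rel (hψ z.2) (L.F0.e k))))

variable (Λ : LLay L lam)

theorem LLay.pull_ln (t : T) : (Λ.pull hψ hs).ln t = (Λ.ln t).pull Z'.I Z.I ψ := rfl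

theorem LLay.pull_B : (Λ.pull hψ hs).B = cmB ψ Λ.B := by
  refine congrArg (fun w => Base.mk _ w _ _) ?_
  funext a b c d x
  exact ov_pbv hψ hs (Met55.pre_sp L.F0.toPre _) a b c d

theorem LLay.pull_G (h : ∀ x, (t, x) ∈ Ω) : (Λ.pull hψ hs).G t = cmG hψ (Λ.G t) := by
  rw [LLay.G, Lay.pull_F hψ hs h]
  refine congrArg (Geo.mk _) (funext fun a => funext fun x => congrArg Line51.rl ?_)
  exact (Line51.cm_pull ((Λ.ok t).sm _ trivial) ((hψ x).mdifferentiableAt (by simp)) _).trans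
    (congrArg _ (Met55.pbv_rel (hψ x) _))

end pull

/-! ### change of the reference frame -/

section re
variable {Ω₁ : Set (T' × Z.M)} (L : Lay Z o T ι Ω) (L₁ : Lay Z o T' ι' Ω₁) {s : T'}
  (hs : ∀ x, (s, x) ∈ Ω₁) {t : T} {x : Z.M}

open Classical in
/-- the metrics of `L` in the frame `L₁.e s` -/
def Lay.re : Lay Z o T ι' Ω where
  F0 := L₁.F0
  vol := L₁.vol
  e t := cF (L₁.e s) (L.e t)
  sm t x h := Met55.vJ_cF (r := fun _ => L₁.e s) (w' := L.e) (fun a => .of_fixed ((L₁.fAt (hs x)).sm a))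
    (L₁.sp _ _ (hs x)) (L.sm t x h) (L.sp t x h) (.of_forall fun _ => .refl _)
  sp t x h := Met55.sp_cF (L₁.sp _ _ (hs x)) (L.sp t x h)
  P t x h := (Met55.fP_cF (L₁.sp _ _ (hs x)) (L.sp t x h)).trans (L₁.P _ _ (hs x))
  ob t x h a b c d := (Met55.oc_cF (L₁.sp _ _ (hs x)) (L.sp t x h) Z.dim o a b c d).trans
    (L₁.ob _ _ (hs x) a b c d)

theorem Lay.re_co (h : (t, x) ∈ Ω) : Met55.Co (atx ((L.re L₁ hs).e t) x) (atx (L.e t) x) := by
  classical exact Met55.co_cF (L₁.sp _ _ (hs x)) (L.sp t x h)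

theorem Lay.re_eq (h : Met55.Co (atx (L₁.e s) x) (atx (L.e t) x)) (a : ι') :
    (L.re L₁ hs).e t a x = L₁.e s a x := by
  classical exact Met55.cF_eq (L₁.sp _ _ (hs x)) h a

theorem Lay.re_F (h : ∀ x, (t, x) ∈ Ω) (h' : ∀ x, Met55.Co (atx (L₁.e s) x) (atx (L.e t) x)) :
    (L.re L₁ hs).F t = L₁.F s :=
  Met55.vol_ext (Lay.F_vol _ _) (Lay.F_vol _ _) (by
    rw [Lay.F_e _ h, L₁.F_e hs]; funext a x; exact L.re_eq L₁ hs (h' x) a)

variable {L L₁} (Λ : LLay L lam) (Λ₁ : LLay L₁ lam') {u : Z.M → Matrix lam lam' ℂ}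
  (hu : Uni Z.I Λ₁.p Λ.p u univ)

/-- the connections of `Λ` on the line of `Λ₁` -/
def LLay.re : LLay (L.re L₁ hs) lam' where
  p := Λ₁.p
  a t := Line51.th Z.I u + Λ.a t
  ok t := ⟨(Λ₁.ok 0).sm, (Λ₁.ok 0).prj, (Λ₁.ok 0).tr, hu.sm_th.add (Λ.ok t).sa,
    (Line51.dg_th u).add (Λ.ok t).dg⟩
  sm k t x := JAt.congr (f := fun s y => Num57.e1 (Line51.th Z.I u y) (atx L₁.F0.e y k) +
      Num57.e1 (Λ.a s y) (atx L₁.F0.e y k))
    ((JAt.of_fixed (Line51.fsm_e1 (hu.sm_th x trivial) (.of_forall fun _ => Dr59.isDeg_io _)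
      (L₁.F0.sm k x))).add (Λ.jAt_a (w := fun _ => L₁.F0.e k) (.of_fixed (L₁.F0.sm k x))))
    (.of_forall fun _ => Num57.e1_add _ _ _)

theorem LLay.re_B : (Λ.re hs Λ₁ hu).B = Λ₁.B := rfl

theorem LLay.re_iso (t : T) : Line51.Iso Z.I ((Λ.re hs Λ₁ hu).ln t) (Λ.ln t) u univ :=
  ⟨hu, fun _ _ => rfl⟩

theorem LLay.re_ln (h : Line51.Iso Z.I (Λ₁.ln s) (Λ.ln t) u univ) :
    (Λ.re hs Λ₁ hu).ln t = Λ₁.ln s := congrArg (Ln.mk _) (funext fun x => h.par x trivial)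

theorem LLay.re_G (h0 : ∀ x, (t, x) ∈ Ω) (h' : ∀ x, Met55.Co (atx (L₁.e s) x) (atx (L.e t) x))
    (h : Line51.Iso Z.I (Λ₁.ln s) (Λ.ln t) u univ) : (Λ.re hs Λ₁ hu).G t = Λ₁.G s := by
  rw [LLay.G, LLay.re_ln hs Λ Λ₁ hu h, L.re_F L₁ hs h0 h']; rfl

end re

end Crest.Agent.X212.M
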