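import Mathlib

/-!
# Row 212, layer M: walls, cells, regions, pieces, coefficients, chains

Purely topological part of a neck system.  A `Wall` is an open band with a separating core.
`Par` is the cube complex of neck parameters (`t a = 1` is the broken neck), a region
`ρ : A → Option Bool` is the part of `X` cut out by the walls `a` with `ρ a = some b` (on the side `b`).
-/

set_option autoImplicit false
set_option linter.unusedSectionVars false
noncomputable section
open Set Function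
open scoped ContDiff

namespace Crest.Agent.X212.M

/-- an open band whose core separates `X` into the two sides `sd true`, `sd false` -/
structure Wall (X : Type) [TopologicalSpace X] where
  band : Set X
  sd : Bool → Set X
  op_band : IsOpen band
  op_sd : ∀ b, IsOpen (sd b)
  dj : Disjoint (sd true) (sd false)
  cov : ∀ x, x ∉ band → ∃ b, x ∈ sd b
  conn_band : IsPreconnected band
  conn_half : ∀ b, IsPreconnected (band ∩ sd b)
  ne : ∀ b, (band ∩ sd b).Nonempty

variable {X : Type} [TopologicalSpace X]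

namespace Wall
variable (w : Wall X)

/-- the core -/
def core : Set X := {x | ∀ b, x ∉ w.sd b}

/-- half of the band -/
def half (b : Bool) : Set X := w.band ∩ w.sd b

theorem core_subset : w.core ⊆ w.band := fun x hx => by
  by_contra h
  obtain ⟨b, hb⟩ := w.cov x h
  exact hx b hb

theorem not_mem_sd {b : Bool} {x : X} (h : x ∈ w.sd b) : x ∉ w.sd (!b) := by
  cases b
  · exact fun h' => disjoint_left.1 w.dj h' h
  · exact fun h' => disjoint_left.1 w.dj h h'

theorem sd_inj {b b' : Bool} {x : X} (h : x ∈ w.sd b) (h' : x ∈ w.sd b') : b = b' := by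
  by_contra hn
  have : b' = !b := by cases b <;> cases b' <;> simp_all
  exact w.not_mem_sd h (this ▸ h')

theorem mem_cases (b : Bool) (x : X) : x ∈ w.sd b ∨ x ∈ w.core ∨ x ∈ w.sd (!b) := by
  by_cases h : x ∈ w.core
  · exact .inr (.inl h)
  · simp only [core, mem_setOf_eq, not_forall, not_not] at h
    obtain ⟨b', h⟩ := h
    cases b <;> cases b' <;> simp_all

theorem isClosed_core : IsClosed w.core := by
  have : w.core = (⋃ b, w.sd b)ᶜ := by ext x; simp [core]
  rw [this]; exact (isOpen_iUnion w.op_sd).isClosed_compl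

/-- a preconnected set missing the core lies on one side -/
theorem subset_sd {s : Set X} (hs : IsPreconnected s) (hd : Disjoint s w.core) {b : Bool} {x : X}
    (hx : x ∈ s) (hb : x ∈ w.sd b) : s ⊆ w.sd b := by
  refine hs.subset_left_of_subset_union (w.op_sd b) (w.op_sd (!b))
    (disjoint_left.2 fun y h => w.not_mem_sd h) (fun y hy => ?_) ⟨x, hx, hb⟩
  rcases w.mem_cases b y with h | h | h
  exacts [.inl h, (disjoint_left.1 hd hy h).elim, .inr h]

theorem isOpen_ext {b : Bool} {s : Set X} (hs : IsOpen s) (h : w.half b ⊆ s) :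
    IsOpen (s ∪ (w.sd b)ᶜ) := by
  have : s ∪ (w.sd b)ᶜ = s ∪ w.band ∪ w.sd (!b) := by
    ext x
    refine ⟨fun hx => hx.elim (fun h => .inl (.inl h)) fun hx => ?_, ?_⟩
    · rcases w.mem_cases b x with h | h | h
      exacts [(hx h).elim, .inl (.inr (w.core_subset h)), .inr h]
    · rintro ((hx | hx) | hx)
      · exact .inl hx
      · by_cases hb : x ∈ w.sd b
        exacts [.inl (h ⟨hx, hb⟩), .inr hb]
      · exact .inr fun hb => w.not_mem_sd hb hx
  rw [this]; exact (hs.union w.op_band).union (w.op_sd _)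

theorem conn [PreconnectedSpace X] (b : Bool) : IsPreconnected (w.sd b) := by
  have key : ∀ u v : Set X, IsOpen u → IsOpen v → w.sd b ⊆ u ∪ v → Disjoint (w.sd b ∩ u) (w.sd b ∩ v) →
      w.half b ⊆ u → w.sd b ⊆ u := by
    intro u v hu hv huv hd hh
    have h1 : IsOpen (w.sd b ∩ u ∪ (w.sd b)ᶜ) :=
      w.isOpen_ext ((w.op_sd b).inter hu) fun x hx => ⟨hx.2, hh hx⟩
    have h2 := (isPreconnected_univ (α := X)).subset_left_of_subset_union h1 ((w.op_sd b).inter hv)
      (disjoint_union_left.2 ⟨hd, disjoint_left.2 fun x hx h => hx h.1⟩)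
      (fun x _ => by
        by_cases hx : x ∈ w.sd b
        · exact (huv hx).elim (fun h => .inl (.inl ⟨hx, h⟩)) fun h => .inr ⟨hx, h⟩
        · exact .inl (.inr hx))
      (by obtain ⟨x, hx⟩ := w.ne b; exact ⟨x, trivial, .inl ⟨hx.2, hh hx⟩⟩)
    exact fun x hx => (h2 (mem_univ x)).elim (fun h => h.2) fun h => (h hx).elim
  rw [isPreconnected_iff_subset_of_disjoint]
  intro u v hu hv huv hd
  have hd' : Disjoint (w.sd b ∩ u) (w.sd b ∩ v) := disjoint_left.2 fun x h h' => by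
    have : x ∈ w.sd b ∩ (u ∩ v) := ⟨h.1, h.2, h'.2⟩
    rw [hd] at this; exact this
  have := isPreconnected_iff_subset_of_disjoint.1 (w.conn_half b) u v hu hv
    (fun x hx => huv hx.2) (subset_empty_iff.1 fun x hx => hd ▸ ⟨hx.1.2, hx.2⟩)
  rcases this with h | h
  · exact .inl (key u v hu hv huv hd' h)
  · exact .inr (key v u hv hu (by rwa [union_comm]) hd'.symm h)

/-- a side together with the band -/
theorem conn_ext [PreconnectedSpace X] (b : Bool) : IsPreconnected (w.sd b ∪ w.band) := by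
  obtain ⟨x, hx⟩ := w.ne b
  exact (w.conn b).union x hx.2 hx.1 w.conn_band

theorem compl_subset (b : Bool) : (w.sd b)ᶜ ⊆ w.sd (!b) ∪ w.band := fun x hx => by
  rcases w.mem_cases b x with h | h | h
  exacts [(hx h).elim, .inr (w.core_subset h), .inl h]

variable {w} {w' : Wall X}

theorem band_subset (h : Disjoint w.band w'.band) {b : Bool} {x : X} (hx : x ∈ w'.band)
    (hb : x ∈ w.sd b) : w'.band ⊆ w.sd b :=
  w.subset_sd w'.conn_band (h.symm.mono_right w.core_subset) hx hb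

theorem exists_side (h : Disjoint w.band w'.band) : ∃ b, w'.band ⊆ w.sd b := by
  obtain ⟨x, hx⟩ := w'.ne true
  obtain ⟨b, hb⟩ := w.cov x fun h' => disjoint_left.1 h h' hx.1
  exact ⟨b, band_subset h hx.1 hb⟩

/-- nesting: if `w'` is on the side `b` of `w` and `w` on the side `b'` of `w'`, then everything
beyond `w` is on the side `b'` of `w'` -/
theorem nest [PreconnectedSpace X] (h : Disjoint w.band w'.band) {b b' : Bool}
    (h1 : w'.band ⊆ w.sd b) (h2 : w.band ⊆ w'.sd b') : w.sd (!b) ∪ w.band ⊆ w'.sd b' := by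
  obtain ⟨x, hx⟩ := w.ne b
  refine w'.subset_sd (w.conn_ext _) (disjoint_left.2 ?_) (.inr hx.1) (h2 hx.1)
  rintro y (hy | hy) hc
  · exact w.not_mem_sd (h1 (w'.core_subset hc)) hy
  · exact disjoint_left.1 h hy (w'.core_subset hc)

end Wall

/-- regions are named by their boundary walls and sides -/
abbrev Reg (A : Type) : Type := A → Option Bool

/-- the whole space -/
def top (A : Type) : Reg A := fun _ => none

/-- a system of walls -/
structure Sys (X : Type) [TopologicalSpace X] (A : Type) where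
  w : A → Wall X

namespace Sys
variable {A : Type} (S : Sys X A)

/-- compatible walls -/
def Cmp (a b : A) : Prop := Disjoint (S.w a).band (S.w b).band

theorem Cmp.symm {S : Sys X A} {a b : A} (h : S.Cmp a b) : S.Cmp b a := Disjoint.symm h

/-- a compatible set of walls -/
def Cell (σ : Set A) : Prop := σ.Pairwise S.Cmp

theorem Cell.mono {S : Sys X A} {σ τ : Set A} (h : S.Cell σ) (hτ : τ ⊆ σ) : S.Cell τ :=
  Set.Pairwise.mono hτ h

/-- the cube complex of parameters -/
def Par : Set (A → ℝ) := {t | (∀ a, t a ∈ Icc (0 : ℝ) 1) ∧ S.Cell (support t)}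

/-- the walls at infinity -/
def inf (t : A → ℝ) : Set A := {a | t a = 1}

theorem inf_subset (t : A → ℝ) : inf t ⊆ support t := fun a (h : t a = 1) => by simp [h]

/-- the union of the cores -/
def cores (σ : Set A) : Set X := ⋃ a ∈ σ, (S.w a).core

/-- the open set of a region -/
def U (ρ : Reg A) : Set X := {x | ∀ a b, ρ a = some b → x ∈ (S.w a).sd b}

/-- boundary walls -/
def bd (ρ : Reg A) : Set A := {a | ρ a ≠ none}

/-- a region: compatible boundary walls, each of them adjacent -/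
structure IsReg (ρ : Reg A) : Prop where
  cell : S.Cell (bd ρ)
  adj : ∀ a b, ρ a = some b → (S.w a).half b ⊆ S.U ρ

/-- inner walls -/
def inn (ρ : Reg A) : Set A :=
  {a | ρ a = none ∧ (S.w a).band ⊆ S.U ρ ∧ ∀ a' ∈ bd ρ, S.Cmp a a'}

/-- `ρ` is one of the pieces of `X` cut along `σ` -/
structure Piece (σ : Set A) (ρ : Reg A) : Prop extends S.IsReg ρ where
  bd_subset : bd ρ ⊆ σ
  not_inn : ∀ a ∈ σ, a ∉ S.inn ρ

/-- `ρ` is a subregion of `π` -/
structure Sub (ρ π : Reg A) : Prop where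
  subset : S.U ρ ⊆ S.U π
  bd_sub : ∀ a ∈ bd ρ, π a = ρ a ∨ a ∈ S.inn π
  inn_sub : S.inn ρ ⊆ S.inn π

theorem mem_bd {ρ : Reg A} {a : A} : a ∈ bd ρ ↔ ∃ b, ρ a = some b := Option.ne_none_iff_exists'

theorem mem_bd_of {ρ : Reg A} {a : A} {b : Bool} (h : ρ a = some b) : a ∈ bd ρ := mem_bd.2 ⟨b, h⟩

@[simp] theorem U_top : S.U (top A) = univ := eq_univ_of_forall fun _ _ _ h => by simp [top] at h

@[simp] theorem bd_top : bd (top A) = ∅ := by ext; simp [bd, top]

@[simp] theorem inn_top : S.inn (top A) = univ := by ext; simp [inn, top]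

theorem isReg_top : S.IsReg (top A) := ⟨by simp [Cell], by simp⟩

theorem piece_top : S.Piece ∅ (top A) := ⟨S.isReg_top, by simp, by simp⟩

theorem isOpen_U [Finite A] (ρ : Reg A) : IsOpen (S.U ρ) := by
  have : S.U ρ = ⋂ a, ⋂ b, ⋂ (_ : ρ a = some b), (S.w a).sd b := by ext; simp [U]
  rw [this]
  exact isOpen_iInter_of_finite fun a => isOpen_iInter_of_finite fun b =>
    isOpen_iInter_of_finite fun _ => (S.w a).op_sd b

theorem isClosed_cores [Finite A] (σ : Set A) : IsClosed (S.cores σ) :=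
  (toFinite σ).isClosed_biUnion fun a _ => (S.w a).isClosed_core

theorem sub_top (ρ : Reg A) : S.Sub ρ (top A) := ⟨by simp, fun _ _ => .inr (by simp), by simp⟩

theorem sub_refl (ρ : Reg A) : S.Sub ρ ρ := ⟨subset_rfl, fun _ _ => .inl rfl, subset_rfl⟩

variable {S}

theorem Sub.trans {ρ π κ : Reg A} (h : S.Sub ρ π) (h' : S.Sub π κ) : S.Sub ρ κ := by
  refine ⟨h.subset.trans h'.subset, fun a ha => ?_, h.inn_sub.trans h'.inn_sub⟩
  rcases h.bd_sub a ha with h1 | h1
  · rcases h'.bd_sub a (by rwa [bd, mem_setOf_eq, h1]) with h2 | h2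
    exacts [.inl (h2.trans h1), .inr h2]
  · exact .inr (h'.inn_sub h1)

theorem IsReg.band_subset {ρ : Reg A} (h : S.IsReg ρ) {a a' : A} {b : Bool} (hne : a' ≠ a)
    (ha : ρ a = some b) (ha' : a' ∈ bd ρ) : (S.w a').band ⊆ (S.w a).sd b := by
  obtain ⟨b', hb'⟩ := mem_bd.1 ha'
  obtain ⟨x, hx⟩ := (S.w a').ne b'
  exact Wall.band_subset (h.cell (mem_bd_of ha) ha' hne.symm) hx.1 (h.adj a' b' hb' hx a b ha)

variable [PreconnectedSpace X]

theorem IsReg.compl_subset {ρ : Reg A} (h : S.IsReg ρ) {a a' : A} {b b' : Bool} (hne : a ≠ a')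
    (ha : ρ a = some b) (ha' : ρ a' = some b') : ((S.w a).sd b)ᶜ ⊆ (S.w a').sd b' :=
  ((S.w a).compl_subset b).trans (Wall.nest (h.cell (mem_bd_of ha) (mem_bd_of ha') hne)
    (h.band_subset hne.symm ha (mem_bd_of ha')) (h.band_subset hne ha' (mem_bd_of ha)))

theorem IsReg.nonempty [Nonempty X] {ρ : Reg A} (h : S.IsReg ρ) : (S.U ρ).Nonempty := by
  by_cases h0 : ∃ a b, ρ a = some b
  · obtain ⟨a, b, hb⟩ := h0
    exact ((S.w a).ne b).mono (h.adj a b hb)
  · exact ⟨Classical.arbitrary X, fun a b hb => (h0 ⟨a, b, hb⟩).elim⟩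

/-- regions are connected -/
theorem IsReg.conn [Finite A] {ρ : Reg A} (h : S.IsReg ρ) : IsPreconnected (S.U ρ) := by
  rw [isPreconnected_iff_subset_of_disjoint]
  intro u v hu hv huv hd
  let ex : Set X → Set X := fun s =>
    S.U ρ ∩ s ∪ ⋃ a, ⋃ b, ⋃ (_ : ρ a = some b ∧ (S.w a).half b ⊆ s), ((S.w a).sd b)ᶜ
  have hop : ∀ s, IsOpen s → IsOpen (ex s) := fun s hs => by
    refine isOpen_iff_forall_mem_open.2 ?_
    rintro x (hx | hx)
    · exact ⟨_, subset_union_left, (S.isOpen_U ρ).inter hs, hx⟩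
    · simp only [mem_iUnion] at hx
      obtain ⟨a, b, hab, hx⟩ := hx
      refine ⟨S.U ρ ∩ s ∪ ((S.w a).sd b)ᶜ, union_subset_union_right _ fun y hy => ?_,
        (S.w a).isOpen_ext ((S.isOpen_U ρ).inter hs) fun y hy => ⟨h.adj a b hab.1 hy, hab.2 hy⟩,
        .inr hx⟩
      simp only [mem_iUnion]; exact ⟨a, b, hab, hy⟩
  have hem : ∀ x ∈ S.U ρ, x ∈ u → x ∈ v → False := fun x h1 h2 h3 => by
    have : x ∈ S.U ρ ∩ (u ∩ v) := ⟨h1, h2, h3⟩
    rw [hd] at this; exact this
  have hin : ∀ s, ∀ x ∈ S.U ρ, x ∈ ex s → x ∈ s := by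
    rintro s x hx (h1 | h1)
    · exact h1.2
    · simp only [mem_iUnion] at h1
      obtain ⟨a, b, hab, h1⟩ := h1
      exact (h1 (hx a b hab.1)).elim
  have hcov : (univ : Set X) ⊆ ex u ∪ ex v := fun x _ => by
    by_cases hx : x ∈ S.U ρ
    · exact (huv hx).elim (fun h => .inl (.inl ⟨hx, h⟩)) fun h => .inr (.inl ⟨hx, h⟩)
    · simp only [U, mem_setOf_eq, not_forall] at hx
      obtain ⟨a, b, hab, hx⟩ := hx
      rcases isPreconnected_iff_subset_of_disjoint.1 ((S.w a).conn_half b) u v hu hv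
        (fun y hy => huv (h.adj a b hab hy))
        (subset_empty_iff.1 fun y hy => hem y (h.adj a b hab hy.1) hy.2.1 hy.2.2) with h1 | h1
      · exact .inl (.inr (by simp only [mem_iUnion]; exact ⟨a, b, ⟨hab, h1⟩, hx⟩))
      · exact .inr (.inr (by simp only [mem_iUnion]; exact ⟨a, b, ⟨hab, h1⟩, hx⟩))
  have hdj : (univ : Set X) ∩ (ex u ∩ ex v) = ∅ := by
    refine subset_empty_iff.1 ?_
    rintro x ⟨-, h1, h2⟩
    by_cases hx : x ∈ S.U ρ
    · exact hem x hx (hin u x hx h1) (hin v x hx h2)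
    · have h1 := h1.resolve_left fun h => hx h.1
      have h2 := h2.resolve_left fun h => hx h.1
      simp only [mem_iUnion] at h1 h2
      obtain ⟨a, b, hab, h1⟩ := h1
      obtain ⟨a', b', hab', h2⟩ := h2
      by_cases he : a = a'
      · subst he
        obtain rfl : b = b' := Option.some.inj (hab.1.symm.trans hab'.1)
        obtain ⟨y, hy⟩ := (S.w a).ne b
        exact hem y (h.adj a b hab.1 hy) (hab.2 hy) (hab'.2 hy)
      · exact h2 (h.compl_subset he hab.1 hab'.1 h1)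
  rcases isPreconnected_iff_subset_of_disjoint.1 isPreconnected_univ _ _ (hop u hu) (hop v hv)
    hcov hdj with h1 | h1
  · exact .inl fun x hx => hin u x hx (h1 trivial)
  · exact .inr fun x hx => hin v x hx (h1 trivial)

/-- a wall compatible with the boundary, neither boundary nor inner, has the region on one side,
beyond its band -/
theorem IsReg.outer {ρ : Reg A} (h : S.IsReg ρ) {a : A} (h0 : ρ a = none)
    (hc : ∀ a' ∈ bd ρ, S.Cmp a a') (hi : a ∉ S.inn ρ) :
    Disjoint (S.U ρ) (S.w a).band ∧ ∃ b, S.U ρ ⊆ (S.w a).sd b := by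
  have : ¬(S.w a).band ⊆ S.U ρ := fun h' => hi ⟨h0, h', hc⟩
  obtain ⟨x, hx, hxU⟩ := not_subset.1 this
  simp only [U, mem_setOf_eq, not_forall] at hxU
  obtain ⟨a', b', hb', hxU⟩ := hxU
  have hcm := hc a' (mem_bd_of hb')
  obtain ⟨b1, h1⟩ := Wall.exists_side hcm.symm
  obtain ⟨b2, h2⟩ := Wall.exists_side hcm
  have hb : b' = !b1 := by
    by_contra hn
    have : b' = b1 := by cases b' <;> cases b1 <;> simp_all
    exact hxU (this ▸ h1 hx)
  subst hb
  exact ⟨disjoint_left.2 fun y hy hy' => (S.w a').not_mem_sd (h1 hy') (hy a' _ hb'),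
    b2, fun y hy => Wall.nest hcm.symm h1 h2 (.inl (hy a' _ hb'))⟩

theorem Piece.side {σ : Set A} {π : Reg A} (hσ : S.Cell σ) (h : S.Piece σ π) {a : A} (ha : a ∈ σ) :
    ∃ b, S.U π ⊆ (S.w a).sd b := by
  rcases h0 : π a with _ | b
  · refine (h.toIsReg.outer h0 (fun a' ha' => hσ ha (h.bd_subset ha') ?_) (h.not_inn a ha)).2
    rintro rfl; exact ha' h0
  · exact ⟨b, fun x hx => hx a b h0⟩

theorem Piece.disjoint_cores {σ : Set A} {π : Reg A} (hσ : S.Cell σ) (h : S.Piece σ π) :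
    Disjoint (S.U π) (S.cores σ) := by
  refine disjoint_left.2 fun x hx hc => ?_
  simp only [cores, mem_iUnion] at hc
  obtain ⟨a, ha, hc⟩ := hc
  obtain ⟨b, hb⟩ := h.side hσ ha
  exact hc b (hb hx)

/-- a wall of `σ` whose band meets the piece is a boundary wall -/
theorem Piece.eq_some {σ : Set A} {π : Reg A} (hσ : S.Cell σ) (h : S.Piece σ π) {a : A}
    (ha : a ∈ σ) {b : Bool} {x : X} (hx : x ∈ S.U π) (hb : x ∈ (S.w a).half b) : π a = some b := by
  rcases h0 : π a with _ | b'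
  · refine (disjoint_left.1 (h.toIsReg.outer h0 (fun a' ha' => hσ ha (h.bd_subset ha') ?_)
      (h.not_inn a ha)).1 hx hb.1).elim
    rintro rfl; exact ha' h0
  · rw [(S.w a).sd_inj (hx a b' h0) hb.2]

theorem Piece.subset_of_mem {σ : Set A} {π π' : Reg A} (hσ : S.Cell σ) (h : S.Piece σ π)
    (h' : S.Piece σ π') {x : X} (hx : x ∈ S.U π) (hx' : x ∈ S.U π') : S.U π ⊆ S.U π' :=
  fun y hy a b hb => by
    obtain ⟨b', hb'⟩ := h.side hσ (h'.bd_subset (mem_bd_of hb))
    rw [(S.w a).sd_inj (hx' a b hb) (hb' hx)]; exact hb' hy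

/-- pieces are disjoint -/
theorem Piece.unique {σ : Set A} {π π' : Reg A} (hσ : S.Cell σ) (h : S.Piece σ π)
    (h' : S.Piece σ π') {x : X} (hx : x ∈ S.U π) (hx' : x ∈ S.U π') : π = π' := by
  have key : ∀ {π π' : Reg A}, S.Piece σ π → S.Piece σ π' → S.U π ⊆ S.U π' →
      ∀ a b, π a = some b → π' a = some b := fun h h' hs a b hb => by
    obtain ⟨y, hy⟩ := (S.w a).ne b
    exact h'.eq_some hσ (h.bd_subset (mem_bd_of hb)) (hs (h.adj a b hb hy)) hy
  funext a
  rcases h0 : π a with _ | b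
  · rcases h1 : π' a with _ | b'
    · rfl
    · rw [key h' h (h'.subset_of_mem hσ h hx' hx) a b' h1] at h0; exact h0.symm
  · exact (key h h' (h.subset_of_mem hσ h' hx hx') a b h0).symm

/-- pieces cover the complement of the cores -/
theorem exists_piece [Finite A] {σ : Set A} (hσ : S.Cell σ) {x : X} (hx : x ∉ S.cores σ) :
    ∃ π, S.Piece σ π ∧ x ∈ S.U π := by
  classical
  have h1 : ∀ a ∈ σ, ∃ b, x ∈ (S.w a).sd b := fun a ha => by
    by_contra hn
    exact hx (mem_biUnion ha fun b hb => hn ⟨b, hb⟩)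
  choose! η hη using h1
  let V : Set X := {y | ∀ a ∈ σ, y ∈ (S.w a).sd (η a)}
  let π : Reg A := fun a => if a ∈ σ ∧ (S.w a).half (η a) ⊆ V then some (η a) else none
  have hπ : ∀ a b, π a = some b ↔ (a ∈ σ ∧ (S.w a).half (η a) ⊆ V) ∧ η a = b := fun a b => by
    simp only [π]; split_ifs with h <;> simp [h]
  have hVU : V ⊆ S.U π := fun y hy a b hb => by
    obtain ⟨h, rfl⟩ := (hπ a b).1 hb; exact hy a h.1
  have hUV : S.U π ⊆ V := fun y hy a' ha' => by
    obtain ⟨a, ⟨ha, hs⟩, hmin⟩ := Set.Finite.exists_minimalFor (fun a => (S.w a).sd (η a))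
      {a | a ∈ σ ∧ (S.w a).sd (η a) ⊆ (S.w a').sd (η a')} (toFinite _) ⟨a', ha', subset_rfl⟩
    refine hs (hy a (η a) ((hπ a _).2 ⟨⟨ha, fun z hz a'' ha'' => ?_⟩, rfl⟩))
    by_cases he : a'' = a
    · exact he ▸ hz.2
    have hc : S.Cmp a'' a := hσ ha'' ha he
    obtain ⟨b1, h1⟩ := Wall.exists_side hc
    by_cases hb : η a'' = b1
    · exact hb ▸ h1 hz.1
    have hb : η a'' = !b1 := by cases b1 <;> simp_all
    obtain ⟨b2, h2⟩ := Wall.exists_side hc.symm
    have h3 : (S.w a'').sd (η a'') ⊆ (S.w a).sd b2 := fun u hu =>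
      Wall.nest hc h1 h2 (.inl (hb ▸ hu))
    obtain rfl : b2 = η a := (S.w a).sd_inj (h3 (hη a'' ha'')) (hη a ha)
    exact hmin ⟨ha'', h3.trans hs⟩ h3 hz.2
  refine ⟨π, ⟨⟨hσ.mono fun a ha => ?_, fun a b hb => ?_⟩, fun a ha => ?_, fun a ha hi => ?_⟩,
    hVU hη⟩
  · obtain ⟨b, hb⟩ := mem_bd.1 ha; exact ((hπ a b).1 hb).1.1
  · obtain ⟨h, rfl⟩ := (hπ a b).1 hb; exact h.2.trans hVU
  · obtain ⟨b, hb⟩ := mem_bd.1 ha; exact ((hπ a b).1 hb).1.1
  · obtain ⟨y, hy⟩ := (S.w a).ne (!η a)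
    exact (S.w a).not_mem_sd (hUV (hi.2.1 hy.1) a ha) hy.2

theorem not_mem_cores_of_half {σ : Set A} (hσ : S.Cell σ) {a : A} (ha : ∀ a' ∈ σ, a' ≠ a → S.Cmp a a')
    {b : Bool} {x : X} (hx : x ∈ (S.w a).half b) : x ∉ S.cores σ := fun hc => by
  have _ := hσ
  simp only [cores, mem_iUnion] at hc
  obtain ⟨a', ha', hc⟩ := hc
  by_cases he : a' = a
  · exact hc b (he ▸ hx.2)
  · exact disjoint_left.1 (ha a' ha' he) hx.1 ((S.w a').core_subset hc)

/-- each side of a wall of `σ` has exactly one adjacent piece -/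
theorem existsUnique_adj [Finite A] {σ : Set A} (hσ : S.Cell σ) {a : A} (ha : a ∈ σ) (b : Bool) :
    ∃! π, S.Piece σ π ∧ π a = some b := by
  obtain ⟨x, hx⟩ := (S.w a).ne b
  obtain ⟨π, h, hxπ⟩ := exists_piece hσ
    (not_mem_cores_of_half hσ (fun a' ha' he => hσ ha ha' he.symm) hx)
  exact ⟨π, ⟨h, h.eq_some hσ ha hxπ hx⟩, fun π' h' => h'.1.unique hσ h (h'.1.adj a b h'.2 hx) hxπ⟩

/-- a wall compatible with `σ`, not in `σ`, is inner for exactly one piece -/
theorem existsUnique_inn [Finite A] {σ : Set A} (hσ : S.Cell σ) {a : A} (ha : a ∉ σ)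
    (hc : ∀ a' ∈ σ, S.Cmp a a') : ∃! π, S.Piece σ π ∧ a ∈ S.inn π := by
  obtain ⟨x, hx⟩ := (S.w a).ne true
  obtain ⟨π, h, hxπ⟩ := exists_piece hσ (not_mem_cores_of_half hσ (fun a' ha' _ => hc a' ha') hx)
  refine ⟨π, ⟨h, ?_, fun y hy a' b hb => ?_, fun a' ha' => hc a' (h.bd_subset ha')⟩,
    fun π' h' => h'.1.unique hσ h (h'.2.2.1 hx.1) hxπ⟩
  · by_contra hn; exact ha (h.bd_subset hn)
  · exact Wall.band_subset (hc a' (h.bd_subset (mem_bd_of hb))).symm hx.1 (hxπ a' b hb) hy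

/-- the number of pieces -/
theorem ncard_piece [Finite A] {σ : Set A} (hσ : S.Cell σ) {x : X} (hx : x ∉ S.cores σ) :
    {π | S.Piece σ π}.ncard = σ.ncard + 1 := by
  classical
  obtain ⟨π₀, h₀, hx₀⟩ := exists_piece hσ hx
  have h1 : ∀ a ∈ σ, ∃ b, x ∈ (S.w a).sd b := fun a ha => by
    by_contra hn
    exact hx (mem_biUnion ha fun b hb => hn ⟨b, hb⟩)
  choose! η hη using h1
  choose! f hf using fun a (ha : a ∈ σ) => (existsUnique_adj hσ ha (!η a)).exists
  have hinj : InjOn f σ := fun a ha a' ha' he => by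
    by_contra hn
    have := (hf a ha).1.toIsReg.compl_subset hn (hf a ha).2 (he ▸ (hf a' ha').2)
      ((S.w a).not_mem_sd (hη a ha))
    exact (S.w a').not_mem_sd (hη a' ha') this
  have hset : {π | S.Piece σ π} = insert π₀ (f '' σ) := by
    ext π
    refine ⟨fun h => ?_, ?_⟩
    · by_cases hxπ : x ∈ S.U π
      · exact .inl (Piece.unique hσ h h₀ hxπ hx₀)
      · simp only [U, mem_setOf_eq, not_forall] at hxπ
        obtain ⟨a, b, hb, hxb⟩ := hxπ
        have ha := Piece.bd_subset h (mem_bd_of hb)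
        have : b = !η a := by
          by_contra hn
          have : b = η a := by cases b <;> cases h' : η a <;> simp_all
          exact hxb (this ▸ hη a ha)
        exact .inr ⟨a, ha, (existsUnique_adj hσ ha b).unique (this ▸ hf a ha) ⟨h, hb⟩⟩
    · rintro (rfl | ⟨a, ha, rfl⟩)
      exacts [h₀, (hf a ha).1]
  have hn : π₀ ∉ f '' σ := by
    rintro ⟨a, ha, he⟩
    exact (S.w a).not_mem_sd (hη a ha) (hx₀ a _ (he ▸ (hf a ha).2))
  rw [hset, ncard_insert_of_notMem hn (toFinite _), hinj.ncard_image]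

/-- a region whose boundary is compatible with `σ` and which has no inner wall in `σ` is a
subregion of every piece it meets -/
theorem Piece.sub {σ : Set A} {π ρ : Reg A} (h : S.Piece σ π) (hρ : S.IsReg ρ)
    (hc : S.Cell (σ ∪ bd ρ)) (hi : ∀ a ∈ σ, a ∉ S.inn ρ) {x : X} (hx : x ∈ S.U π)
    (hx' : x ∈ S.U ρ) : S.Sub ρ π := by
  have hσ : S.Cell σ := hc.mono subset_union_left
  have hout : ∀ a ∈ σ, ρ a = none →
      Disjoint (S.U ρ) (S.w a).band ∧ ∃ b, S.U ρ ⊆ (S.w a).sd b := fun a ha h0 =>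
    hρ.outer h0 (fun a' ha' => hc (.inl ha) (.inr ha') (by rintro rfl; exact ha' h0)) (hi a ha)
  have hs : S.U ρ ⊆ S.U π := fun y hy a b hb => by
    have ha := h.bd_subset (mem_bd_of hb)
    rcases h0 : ρ a with _ | b'
    · obtain ⟨b', hb'⟩ := (hout a ha h0).2
      rw [(S.w a).sd_inj (hx a b hb) (hb' hx')]; exact hb' hy
    · rw [(S.w a).sd_inj (hx a b hb) (hx' a b' h0)]; exact hy a b' h0
  refine ⟨hs, fun a ha => ?_, fun a ha => ⟨?_, ha.2.1.trans hs, fun a' ha' => ?_⟩⟩
  · obtain ⟨b, hb⟩ := mem_bd.1 ha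
    obtain ⟨y, hy⟩ := (S.w a).ne b
    have hyπ := hs (hρ.adj a b hb hy)
    by_cases haσ : a ∈ σ
    · exact .inl ((h.eq_some hσ haσ hyπ hy).trans hb.symm)
    · have hcm : ∀ a' ∈ bd π, S.Cmp a a' := fun a' ha' =>
        hc (.inr ha) (.inl (h.bd_subset ha')) (by rintro rfl; exact haσ (h.bd_subset ha'))
      refine .inr ⟨?_, fun z hz a' b' hb' => ?_, hcm⟩
      · by_contra hn; exact haσ (h.bd_subset hn)
      · exact Wall.band_subset (hcm a' (mem_bd_of hb')).symm hy.1 (hyπ a' b' hb') hz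
  · by_contra hn; exact hi a (h.bd_subset hn) ha
  · rcases h0 : ρ a' with _ | b'
    · exact (hout a' (h.bd_subset ha') h0).1.mono_left ha.2.1
    · exact ha.2.2 a' (mem_bd_of h0)

end Sys

end Crest.Agent.X212.M
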