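import Crest.Agent.X212.Shi84.An
import Crest.Agent.X212.Cmp73.Wq
import Crest.Agent.X212.Loc66.Fcv
import Crest.Agent.X212.An.Syn
import Crest.Agent.X212.Eqv71.Nek
import Crest.Agent.X212.Pj41.Nkg

/-!
# Row 212, layer M: literal coefficient fields, two transports of terms, pull-back of necks
-/

set_option autoImplicit false
set_option linter.unusedSectionVars false
set_option linter.dupNamespace false
noncomputable section
open Set Function Filter Topology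
open scoped ContDiff Manifold

namespace Crest.Agent.X212.M
open An Cmp73 Eqv71 Wrd81 Nd18 Cyl58
open Pj41 (FRel GRel)

/-! ### two transports -/

section tp
variable {M M₁ M₂ lam lam₁ lam₂ : Type} [Fintype lam] [Fintype lam₁] [Fintype lam₂] {r n : ℕ}
  (t₁ : Tp M M₁ lam lam₁) (t₂ : Tp M M₂ lam lam₂) (O : Set M₁) (φ : M₁ → M₂)
  (v : M₁ → CL (Eu lam₁) (Eu lam₂))

/-- two transports correspond -/
structure Rel2 : Prop where
  f : ∀ g, FR O φ (t₁.f g) (t₂.f g)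
  s : ∀ g, SR O φ v (t₁.s g) (t₂.s g)

variable {t₁ t₂ O φ v}

theorem forall₂_map2 {α β γ : Type} {R : β → γ → Prop} {f : α → β} {g : α → γ}
    (h : ∀ a, R (f a) (g a)) (l : List α) : List.Forall₂ R (l.map f) (l.map g) :=
  List.forall₂_map_left_iff.2 (Tp.forall₂_map h l)

namespace Rel2
variable (h : Rel2 t₁ t₂ O φ v)
include h

theorem sw (u : SW M) : SWR O φ (u.map t₁.lt) (u.map t₂.lt) := forall₂_map2 (fun a => by
  cases a
  exacts [.mul (h.f _), .cl (h.f _), .im, .G]) u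

theorem ll (l : List (La M)) : List.Forall₂ (LaR O φ) (l.map t₁.la) (l.map t₂.la) :=
  forall₂_map2 (fun a => by
    cases a
    exacts [.mul (h.f _), .G]) l

theorem aw (ξ : AW M) : AWR O φ (t₁.aw ξ) (t₂.aw ξ) := by
  obtain ⟨s, l⟩ := ξ
  refine ⟨?_, h.ll l⟩
  cases s
  exacts [.q (h.sw _) (h.sw _), .cv (h.f _) (h.f _) (h.f _)]

theorem sg (g : Sg M lam) : SgR O φ v (t₁.sg g) (t₂.sg g) := ⟨h.s _, h.sw _, h.sw _⟩

theorem co (d : Co M lam r) : CoR O φ v (t₁.co d) (t₂.co d) := by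
  cases d
  exacts [.z _, .s (h.sg _) (forall₂_map2 h.sg _)]

theorem tm (T : Tm M lam r n) : TmR O φ v (t₁.tm T) (t₂.tm T) := by
  cases T
  exacts [.lin (h.sw _), .anti (h.co _) (h.s _) (h.sw _), .ad (h.f _) (h.f _) (h.aw _),
    .adj (h.co _) (h.s _) (h.f _) (h.f _) (h.sw _) (h.sw _) (h.ll _),
    .adn _ (h.f _) (h.f _) (h.f _) (forall₂_map2 h.aw _), .cut _ _ (h.sg _), .cz _ _ _]

theorem cut [TopologicalSpace M] [TopologicalSpace M₁] {k : Cut M lam}
    (hk : ∀ x ∈ k.supp, t₁.p x ∈ O ∧ t₂.p x = φ (t₁.p x)) : (t₁.cut k).Rel (t₂.cut k) O φ v :=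
  ⟨by rintro _ ⟨y, rfl⟩; exact (hk _ ⟨y, rfl⟩).1, fun θ s => (hk _ ⟨(θ, s), rfl⟩).2,
    forall₂_map2 (fun _ => ⟨h.f _, h.f _, h.f _⟩) _, forall₂_map2 (fun _ => ⟨h.s _, h.f _, h.f _⟩) _⟩

end Rel2
end tp

variable {E : Type} [NormedAddCommGroup E] [NormedSpace ℝ E] [FiniteDimensional ℝ E]
  [MeasurableSpace E] [BorelSpace E]
  {HM : Type} [TopologicalSpace HM] {I : ModelWithCorners ℝ E HM} [I.Boundaryless]
  {E₀ : Type} [NormedAddCommGroup E₀] [NormedSpace ℝ E₀] [FiniteDimensional ℝ E₀]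
  [MeasurableSpace E₀] [BorelSpace E₀]
  {H₀ : Type} [TopologicalSpace H₀] {I₀ : ModelWithCorners ℝ E₀ H₀} [I₀.Boundaryless]
  {M : Type} [TopologicalSpace M] [ChartedSpace H₀ M] [IsManifold I₀ ∞ M] [MeasurableSpace M]
  [BorelSpace M] [T2Space M] [SecondCountableTopology M] {lam : Type} [Fintype lam]

/-! ### literal fields -/

section lk
variable {ι α : Type} [Fintype ι]
  {X : α → Type} [∀ n, TopologicalSpace (X n)] [∀ n, ChartedSpace HM (X n)]
  [∀ n, IsManifold I ∞ (X n)] [∀ n, MeasurableSpace (X n)] [∀ n, BorelSpace (X n)]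
  [∀ n, T2Space (X n)] [∀ n, SecondCountableTopology (X n)] {r : ℕ} {g : Gs I I₀ M ι lam X}
  {V : Type} [NormedAddCommGroup V] [NormedSpace ℝ V] [FiniteDimensional ℝ V]
  {f : ∀ n, X n → V} {f₁ : α → M → V} {f' : M → V} {K : Set M}

variable (g f f₁ f' K) in
/-- compactly supported fields which are seen on `M` as a convergent family -/
structure LK : Prop where
  cpt : IsCompact K
  sub : K ⊆ g.Pᶜ
  sm : ∀ n, Sm I (f n)
  sm' : Sm I₀ f'
  e : ∀ n, ∀ y ∈ (g.ψ n).source, f n (g.ψ n y) = f₁ n y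
  cv : Cv I₀ g.l univ f₁ f'
  z' : ∀ x ∉ K, f' x = 0
  z : ∀ᶠ n in (g.l : Filter α), ∀ x ∉ g.ψ n '' K, f n x = 0

theorem D_zero_off {N : Type} [TopologicalSpace N] [ChartedSpace HM N] [IsManifold I ∞ N]
    [MeasurableSpace N] (F : Fr I N ι) {u : N → V} {C : Set N} (hC : IsClosed C)
    (h : ∀ x ∉ C, u x = 0) (a : ι) : ∀ x ∉ C, F.D a u x = 0 := fun _ hx =>
  (Sob92.dv_congr (v := fun _ => 0) (eventually_of_mem (hC.isOpen_compl.mem_nhds hx) h)).trans
    (dv_cst _ _ _)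

namespace LK
variable (h : LK g f f₁ f' K) (hg : g.OK)
include h hg

theorem ev_src : ∀ᶠ n in (g.l : Filter α), ∀ x ∈ K, x ∈ (g.ψ n).source :=
  ev_compact h.cpt (p := fun n x => x ∈ (g.ψ n).source) fun x hx => hg.src x (h.sub hx)

theorem fk (c : ∀ n, Cfg (X n) ι lam r) : g.FK c f f' where
  cb x := Shi84.cs_of_mb hg subset_rfl h.sm h.e fun k => h.cv.mb k x trivial
  bd := by
    obtain ⟨C, hC⟩ := h.cpt.exists_bound_of_continuousOn h.sm'.continuous.continuousOn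
    refine ⟨|C| + 1, ((h.cv.unif isOpen_univ h.cpt (subset_univ _) one_pos).and
      ((h.ev_src hg).and h.z)).mono fun n hn x => ?_⟩
    by_cases k : x ∈ g.ψ n '' K
    · obtain ⟨y, hy, rfl⟩ := k
      rw [h.e n y (hn.2.1 y hy)]
      linarith [norm_sub_norm_le (f₁ n y) (f' y), hn.1 y hy, hC y hy, le_abs_self C]
    · rw [hn.2.2 x k, norm_zero]; positivity
  sm := h.sm'
  cv := (h.cv.mono le_rfl (subset_univ _)).congr
    (fun x hx => (hg.src x hx).mono fun _ hq => h.e _ _ hq) fun _ _ => rfl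
  K := ⟨K, h.cpt, h.sub, h.z', h.z⟩

theorem D (a : ι) : LK g (fun n => (g.G n).F.D a (f n)) (fun n => (g.H n).F.D a (f₁ n))
    (g.G₀.F.D a f') K where
  cpt := h.cpt
  sub := h.sub
  sm n := (g.G n).F.sm_D (h.sm n) a
  sm' := g.G₀.F.sm_D h.sm' a
  e n _ hy := ((hg.rel n).D hy a (eventually_of_mem ((g.ψ n).open_source.mem_nhds hy)
    fun z hz => (h.e n z hz).symm)).symm
  cv := Loc66.FCv.D (F := fun n => (g.H n).F)
    (fun a => ⟨fun k x _ => (hg.e a).mb k x, fun x _ => (hg.e a).pt x⟩) isOpen_univ h.cv a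
  z' := D_zero_off _ h.cpt.isClosed h.z' a
  z := ((h.ev_src hg).and h.z).mono fun n hn => D_zero_off _
    (h.cpt.image_of_continuousOn ((g.ψ n).continuousOn.mono hn.1)).isClosed hn.2 a

end LK

theorem LK.fd {f : ∀ n, X n → ℝ} {f₁ : α → M → ℝ} {f' : M → ℝ} (h : LK g f f₁ f' K) (hg : g.OK)
    (c : ∀ n, Cfg (X n) ι lam r) : g.FD c f f' := fun a => ((h.D hg a).fk hg c).toFC

end lk

/-! ### necks -/

section nk
variable {N : Type} [TopologicalSpace N] [ChartedSpace HM N] [IsManifold I ∞ N] [MeasurableSpace N]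
  [BorelSpace N] [T2Space N] [SecondCountableTopology N] [Nonempty N]
  {E3 : Type} [NormedAddCommGroup E3] [NormedSpace ℝ E3] [FiniteDimensional ℝ E3]
  [MeasurableSpace E3] [BorelSpace E3]
  {H3 : Type} [TopologicalSpace H3] {I3 : ModelWithCorners ℝ E3 H3} [I3.Boundaryless]
  {Y : Type} [TopologicalSpace Y] [ChartedSpace H3 Y] [IsManifold I3 ∞ Y] [T2Space Y]
  [MeasurableSpace Y] [BorelSpace Y] [SecondCountableTopology Y] [CompactSpace Y]
  {κ : Type} [Fintype κ] {D : YD I3 Y κ lam} {B : Base M (Option κ) lam}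
  {G : Geo I₀ M (Option κ) lam} {B₁ : Base N (Option κ) lam} {G₁ : Geo I N (Option κ) lam}
  (K : Nk D B G) {f : N → M} (hf : IsOE I I₀ f) (hD : D.Z.IsVol) (hG : G₁.F.IsVol)
  (hs : K.ψ.target ⊆ range f) (hr : GRel B₁ G₁ B G f (f ⁻¹' K.ψ.target))

/-- the chart of the pulled back neck -/
abbrev nkψ : OpenPartialHomeomorph (Y × ℝ) N := K.ψ.trans hf.pd.symm.toOpenPartialHomeomorph

theorem f_nkψ {x : Y × ℝ} (hx : x ∈ (nkψ K hf).source) : f (nkψ K hf x) = K.ψ x :=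
  hf.pd.right_inv hx.2

theorem nkψ_mem {x : Y × ℝ} (hx : x ∈ (nkψ K hf).source) : nkψ K hf x ∈ f ⁻¹' K.ψ.target := by
  rw [mem_preimage, f_nkψ K hf hx]; exact K.ψ.map_source hx.1

include hr in
theorem nkψ_rel : FRel D.Z G₁.F (nkψ K hf) (nkψ K hf).source := by
  have h1 : ∀ x ∈ (nkψ K hf).source, IsLocalDiffeomorphAt (Cyf70.IC I3) I ∞ (nkψ K hf) x := fun x hx =>
    ld_comp (f := K.ψ) (g := hf.pd.symm) (hf.pd.symm.isLocalDiffeomorphAt _ _ _ hx.2)
      (K.rel.ld x hx.1)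
  refine ⟨(nkψ K hf).open_source, h1, fun a x hx => (Met55.ld_bij (hf.loc _)).1 ?_⟩
  refine Eq.trans ?_ (hr.fr.e a _ (nkψ_mem K hf hx)).symm
  refine (DFunLike.congr_fun (Dr59.mf_comp ((hf.loc _).mdifferentiableAt (by simp))
    ((h1 x hx).mdifferentiableAt (by simp))) _).symm.trans ((DFunLike.congr_fun (Dr59.mf_congr
      (g := K.ψ) (eventually_of_mem ((nkψ K hf).open_source.mem_nhds hx) fun _ =>
        f_nkψ K hf)) _).trans ((K.rel.e a x hx.1).trans ?_))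
  exact congrArg (fun z => (G.F.e a z : E₀)) (f_nkψ K hf hx).symm

/-- **the pull-back of a neck** -/
def nkPull : Nk D B₁ G₁ where
  p := K.p
  q := K.q
  ψ := nkψ K hf
  tm := K.tm ∘ f
  len := K.len
  src := (inter_eq_left.2 fun _ hx => mem_preimage.2 (hs (K.ψ.map_source hx))).trans K.src
  tgt := (univ_inter _).trans (congrArg (f ⁻¹' ·) K.tgt)
  cont := K.cont.comp hf.continuous
  tm_ψ x hx := (congrArg K.tm (f_nkψ K hf hx)).trans (K.tm_ψ x hx.1)
  iso := (nkψ_rel K hf hr).iso hD hG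
  P a b x hx := (hr.P a b _ (nkψ_mem K hf hx)).trans (f_nkψ K hf hx ▸ K.P a b x hx.1)
  o a b c d x hx := (hr.o a b c d _ (nkψ_mem K hf hx)).trans (f_nkψ K hf hx ▸ K.o a b c d x hx.1)
  l x hx := (hr.l _ (nkψ_mem K hf hx)).trans (f_nkψ K hf hx ▸ K.l x hx.1)
  il := hr.il.trans K.il
  a a x hx := (hr.a a _ (nkψ_mem K hf hx)).trans (f_nkψ K hf hx ▸ K.a a x hx.1)

theorem nkR_pull {O : Set N} {O' : Set M} (hO : f ⁻¹' K.ψ.target ⊆ O) (hO' : K.ψ.target ⊆ O') :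
    NkR O O' f (nkPull K hf hD hG hs hr) K 0 := by
  have k : ∀ y ∉ K.ψ.target, K.χ y = 0 := fun y hy => K.χ_zero fun h => hy (K.dp_sub one_pos h)
  exact ⟨fun _ _ => (add_zero _).symm, fun t => by rw [add_zero]; rfl, fun _ _ => rfl,
    fun _ _ _ => rfl, fun x hx => k _ fun e => hx (hO e), fun y hy => k _ fun e => hy (hO' e),
    fun t => by rw [add_zero]; rfl⟩

end nk

end Crest.Agent.X212.M
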