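import Crest.Agent.X212.Lns95.Mod
import Crest.Agent.R208.FH10a

/-!
# Row 212, LIX-KER (helper20), part A: the radial equations
-/

set_option autoImplicit false
noncomputable section
open scoped ContDiff Topology
open Set Function Filter MeasureTheory intervalIntegral

namespace Crest.Agent.X212.Kr20
open Lns95
open Crest.Agent.R208.FI (I1 contDiffAt_I1)

section prim
variable {S : Set ℝ} {u : ℝ → ℝ} {a x : ℝ}

theorem ev_cd (h : ContDiffAt ℝ ∞ u x) : ∀ᶠ y in 𝓝 x, ContDiffAt ℝ 1 u y :=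
  (h.of_le (by exact_mod_cast le_top)).eventually (by simp)

theorem ev_Icc {p : ℝ → Prop} (h : ∀ᶠ y in 𝓝 x, p y) : ∀ᶠ y in 𝓝 x, ∀ z ∈ uIcc x y, p z := by
  obtain ⟨ε, e0, he⟩ := Metric.eventually_nhds_iff_ball.1 h
  filter_upwards [Metric.ball_mem_nhds x e0] with y hy z hz
  exact he z ((convex_ball x ε).ordConnected.uIcc_subset (Metric.mem_ball_self e0) hy hz)

/-- primitives -/
theorem prim (hS : S.OrdConnected) (ha : a ∈ S) (hu : ∀ x ∈ S, ContDiffAt ℝ ∞ u x) (hx : x ∈ S) :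
    ContDiffAt ℝ ∞ (fun y => ∫ t in a..y, u t) x ∧ HasDerivAt (fun y => ∫ t in a..y, u t) (u x) x := by
  have o : IsOpen {y | ∀ᶠ z in 𝓝 y, ContDiffAt ℝ 1 u z} := isOpen_setOf_eventually_nhds
  have c : ContinuousOn u {y | ∀ᶠ z in 𝓝 y, ContDiffAt ℝ 1 u z} := fun y hy =>
    hy.out.self_of_nhds.continuousAt.continuousWithinAt
  refine ⟨?_, integral_hasDerivAt_right ((c.mono fun y hy => ev_cd (hu y
    (hS.uIcc_subset ha hx hy))).intervalIntegrable) (c.stronglyMeasurableAtFilter o x (ev_cd (hu x hx)))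
    (hu x hx).continuousAt⟩
  have e : (fun y => ∫ t in a..y, u t) = fun y => (y - a) * I1 (fun p => u ((p.1 - a) * p.2 + a)) y :=
    funext fun y => by simp [I1]
  rw [e]
  refine (contDiffAt_id.sub contDiffAt_const).mul (contDiffAt_I1 fun t ht => ContDiffAt.comp (g := u)
    (f := fun p : ℝ × ℝ => (p.1 - a) * p.2 + a) _ (hu _ ?_) (by fun_prop))
  have := hS.convex ha hx (sub_nonneg.2 ht.2) ht.1 (sub_add_cancel 1 t)
  convert this using 1
  simp only [smul_eq_mul]; ring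

/-- Hadamard's lemma -/
theorem had (hu : ContDiffAt ℝ ∞ u 0) : ContDiffAt ℝ ∞ (dslope u 0) 0 := by
  have d : ContDiffAt ℝ ∞ (deriv u) 0 :=
    (hu.fderiv_right (m := ∞) (by simp)).clm_apply contDiffAt_const
  refine (contDiffAt_I1 (g := fun p => deriv u (p.1 * p.2)) fun t _ => ContDiffAt.comp (g := deriv u)
    (f := fun p : ℝ × ℝ => p.1 * p.2) _ (by simpa using d) (by fun_prop)).congr_of_eventuallyEq ?_
  filter_upwards [ev_Icc ((ev_cd hu).and (ev_cd d))] with y hy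
  rcases eq_or_ne y 0 with rfl | h
  · simp [I1]
  · have := integral_deriv_eq_sub (fun z hz => (hy z hz).1.differentiableAt one_ne_zero)
      (ContinuousOn.intervalIntegrable fun z hz => (hy z hz).2.continuousAt.continuousWithinAt)
    rw [dslope_of_ne _ h, slope_def_field, ← this, I1, integral_comp_mul_left _ h]
    simp [div_eq_inv_mul]

theorem sgn (hS : S.OrdConnected) (h0 : S ⊆ Ici 0) (ha : a ∈ S) (hx : x ∈ S) :
    (a ≤ x → (∀ y ∈ S, 0 < y → a ≤ y → 0 ≤ u y) → 0 ≤ ∫ t in a..x, u t) ∧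
    (x ≤ a → (∀ y ∈ S, 0 < y → y ≤ a → 0 ≤ u y) → ∫ t in a..x, u t ≤ 0) := by
  refine ⟨fun h k => ?_, fun h k => ?_⟩
  · rw [integral_of_le h]
    exact setIntegral_nonneg measurableSet_Ioc fun y hy =>
      k y (hS.out ha hx (Ioc_subset_Icc_self hy)) ((h0 ha).trans_lt hy.1) hy.1.le
  · rw [integral_of_ge h, neg_nonpos]
    exact setIntegral_nonneg measurableSet_Ioc fun y hy =>
      k y (hS.out hx ha (Ioc_subset_Icc_self hy)) ((h0 hx).trans_lt hy.1) hy.2

theorem cd_ite {v : ℝ → ℝ} {ε : ℝ} (hε : 0 < ε) (h0 : S ⊆ Ici 0) (e : ∀ y, 0 < y → y < ε → v y = u y)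
    (hu : ∀ x ∈ S, 0 < x → ContDiffAt ℝ ∞ u x) (hv : 0 ∈ S → ContDiffAt ℝ ∞ v 0) :
    ∃ k : ℝ → ℝ, (∀ y, 0 < y → k y = u y) ∧ ∀ x ∈ S, ContDiffAt ℝ ∞ k x := by
  have k1 : ∀ y, 0 < y → (if y < ε then v y else u y) = u y := fun y hy => by
    split_ifs with h
    exacts [e y hy h, rfl]
  refine ⟨fun y => if y < ε then v y else u y, k1, fun x hx => ?_⟩
  rcases (h0 hx).out.eq_or_lt with rfl | h
  · exact (hv hx).congr_of_eventuallyEq (eventually_of_mem (Iio_mem_nhds hε) fun y hy => if_pos hy)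
  · exact (hu x hx h).congr_of_eventuallyEq (eventually_of_mem (Ioi_mem_nhds h) k1)

end prim

/-- the radial equations -/
structure Ode (P : Prf 4) (h : ℝ → ℝ) (S : Set ℝ) (g q φ : ℝ → ℝ) : Prop where
  sg : ∀ x ∈ S, ContDiffAt ℝ ∞ g x
  sq : ∀ x ∈ S, ContDiffAt ℝ ∞ q x
  sφ : ∀ x ∈ S, ContDiffAt ℝ ∞ φ x
  dg : ∀ x ∈ S, 0 < x → HasDerivAt g (-2 * P.f x * g x * h x) x
  eq : ∀ x, 0 < x → q x * x = g x / 4 + 1 / 2
  dφ : ∀ x ∈ S, 0 < x → HasDerivAt φ (-(g x + 2) / P.f x * φ x * h x) x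
  pos : ∀ x, 0 < φ x
  le : ∀ x ∈ S, φ x ≤ 1

variable {P : Prf 4} {h : ℝ → ℝ} {S : Set ℝ} {g q φ : ℝ → ℝ}

theorem Ode.eq0 (o : Ode P h S g q φ) {x : ℝ} (hx : x ∈ S) (h0 : 0 ≤ x) :
    q x * x = g x / 4 + 1 / 2 := by
  rcases h0.eq_or_lt with rfl | k
  · exact tendsto_nhds_unique_of_eventuallyEq (l := 𝓝[>] 0)
      (((o.sq _ hx).continuousAt.mul continuousAt_id).tendsto.mono_left nhdsWithin_le_nhds)
      ((((o.sg _ hx).continuousAt.div_const 4).add continuousAt_const).tendsto.mono_left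
        nhdsWithin_le_nhds) (eventually_of_mem self_mem_nhdsWithin o.eq)
  · exact o.eq x k

theorem ode (hS : S.OrdConnected) (h0 : S ⊆ Ici 0) (hH : ∃ ε > (0 : ℝ), EqOn h P.H (Iio ε))
    (pr : ∀ x ∈ S, 0 < x → PrA h P.f P.f1 P.f2 x) : ∃ g q φ, Ode P h S g q φ := by
  rcases S.eq_empty_or_nonempty with rfl | ⟨a', ha'⟩
  · exact ⟨fun _ => -2, 0, fun _ => 1, by simp, by simp, by simp, by simp, fun x _ => by norm_num,
      by simp, by simp, by simp⟩
  obtain ⟨a, ha, a0⟩ : ∃ a ∈ S, 0 ∈ S → a = 0 := by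
    by_cases k : (0 : ℝ) ∈ S
    exacts [⟨0, k, fun _ => rfl⟩, ⟨a', ha', fun e => (k e).elim⟩]
  obtain ⟨ε, hε, hH⟩ := hH
  have s12 : ContDiffAt ℝ ∞ (fun x => P.p1 x + 2 * x * P.p2 x) 0 :=
    (P.s1 0 le_rfl).add ((contDiffAt_const.mul contDiffAt_id).mul (P.s2 0 le_rfl))
  obtain ⟨u, eu, su⟩ := cd_ite (S := S) (u := fun x => P.f x * h x)
    (v := fun x => 2 * P.p1 x * (P.p1 x + 2 * x * P.p2 x)) hε h0 (fun y hy k => by
      have := Real.sqrt_pos.2 hy
      rw [hH k, P.ef y hy, P.eH y hy]; field_simp; push_cast; ring)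
    (fun x hx k => (pr x hx k).sf.mul (pr x hx k).sh)
    fun _ => (contDiffAt_const.mul (P.s1 0 le_rfl)).mul s12
  have pu : ∀ y ∈ S, 0 < y → 0 ≤ u y := fun y hy k =>
    eu y k ▸ (mul_pos (pr y hy k).pf (pr y hy k).ph).le
  obtain ⟨g, hg⟩ : ∃ g : ℝ → ℝ, g = fun x => -2 * Real.exp (-2 * ∫ t in a..x, u t) := ⟨_, rfl⟩
  have sg : ∀ x ∈ S, ContDiffAt ℝ ∞ g x := fun x hx =>
    hg ▸ contDiffAt_const.mul (contDiffAt_const.mul (prim hS ha su hx).1).exp
  have ga : g a = -2 := by simp [hg]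
  obtain ⟨q, eq, sq⟩ := cd_ite (S := S) (u := fun x => (g x / 4 + 1 / 2) / x)
    (v := fun x => if a = 0 then dslope (fun x => g x / 4) 0 x else (g x / 4 + 1 / 2) / x) hε h0
    (fun y hy _ => by
      split_ifs with k
      · rw [dslope_of_ne _ hy.ne', slope_def_field, ← k, ga, k]; ring
      · rfl)
    (fun x hx k => (((sg x hx).div_const 4).add contDiffAt_const).div contDiffAt_id k.ne')
    fun k => by simpa only [if_pos (a0 k)] using had ((sg 0 k).div_const 4)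
  have eq' : ∀ x, 0 < x → q x * x = g x / 4 + 1 / 2 := fun x hx => by
    rw [eq x hx, div_mul_cancel₀ _ hx.ne']
  obtain ⟨k, ek, sk⟩ := cd_ite (S := S) (u := fun x => (g x + 2) / P.f x * h x)
    (v := fun x => q x * (P.p1 x + 2 * x * P.p2 x) / (2 * P.p1 x)) hε h0 (fun y hy k => by
      have := Real.sqrt_pos.2 hy
      have := P.pos1 y hy.le
      rw [hH k, P.ef y hy, P.eH y hy, show g y + 2 = 4 * (q y * √y ^ 2) by
        rw [Real.sq_sqrt hy.le, eq' y hy]; ring]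
      field_simp; norm_num)
    (fun x hx k => (((sg x hx).add contDiffAt_const).div (pr x hx k).sf (pr x hx k).pf.ne').mul
      (pr x hx k).sh)
    fun k => ((sq 0 k).mul s12).div (contDiffAt_const.mul (P.s1 0 le_rfl))
      (mul_pos two_pos (P.pos1 0 le_rfl)).ne'
  refine ⟨g, q, fun x => Real.exp (-∫ t in a..x, k t), sg, sq,
    fun x hx => (prim hS ha sk hx).1.neg.exp, fun x hx x0 => ?_, eq', fun x hx x0 => ?_,
    fun x => Real.exp_pos _, fun x hx => Real.exp_le_one_iff.2 (neg_nonpos.2 ?_)⟩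
  · rw [hg]
    exact (((prim hS ha su hx).2.const_mul (-2)).exp.const_mul (-2)).congr_deriv
      (by rw [eu x x0]; ring)
  · exact (prim hS ha sk hx).2.neg.exp.congr_deriv (by rw [ek x x0]; simp only [Pi.neg_apply]; ring)
  rcases le_total a x with l | l
  · refine (sgn hS h0 ha hx).1 l fun y hy y0 ay => ?_
    have := Real.exp_le_one_iff.2 (mul_nonpos_of_nonpos_of_nonneg (by norm_num : (-2 : ℝ) ≤ 0)
      ((sgn hS h0 ha hy).1 ay fun z hz z0 _ => pu z hz z0))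
    rw [ek y y0]
    exact mul_nonneg (div_nonneg (by rw [hg]; linarith) (pr y hy y0).pf.le) (pr y hy y0).ph.le
  · rw [← neg_nonpos, ← intervalIntegral.integral_neg]
    refine (sgn hS h0 ha hx).2 l fun y hy y0 ay => ?_
    have := Real.one_le_exp (mul_nonneg_of_nonpos_of_nonpos (by norm_num : (-2 : ℝ) ≤ 0)
      ((sgn hS h0 ha hy).2 ay fun z hz z0 _ => pu z hz z0))
    rw [ek y y0, ← neg_mul, ← neg_div]
    exact mul_nonneg (div_nonneg (by rw [hg]; linarith) (pr y hy y0).pf.le) (pr y hy y0).ph.le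

/-- decay along the neck -/
theorem Ode.dec (o : Ode P h S g q φ) {R : ℝ → ℝ} (hR : ∀ t, 0 < t → R t ∈ S ∧ 0 < R t ∧
    P.f (R t) = 1 ∧ ∃ r, HasDerivAt R r t ∧ h (R t) * r = 1) :
    ∃ C, ∀ t, 0 < t → |g (R t)| ≤ C * Real.exp (-2 * t) ∧ φ (R t) ≤ C * Real.exp (-2 * t) := by
  have cs : ∀ F : ℝ → ℝ, (∀ t, 0 < t → HasDerivAt F 0 t) → ∃ c, ∀ t, 0 < t → F t = c := fun F hF =>
    isOpen_Ioi.exists_is_const_of_deriv_eq_zero (𝕜 := ℝ) isPreconnected_Ioi
      (fun t ht => (hF t ht).differentiableAt.differentiableWithinAt) fun t ht => (hF t ht).deriv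
  have ee : ∀ t : ℝ, Real.exp (2 * t) * Real.exp (-2 * t) = 1 := fun t => by
    rw [← Real.exp_add]; simp
  obtain ⟨c, hc⟩ := cs (fun t => g (R t) * Real.exp (2 * t)) fun t ht => by
    obtain ⟨h1, h2, h3, r, h4, h5⟩ := hR t ht
    refine (((o.dg _ h1 h2).comp t h4).mul ((hasDerivAt_id' t).const_mul 2).exp).congr_deriv ?_
    rw [h3, comp]
    linear_combination (-2 * g (R t) * Real.exp (2 * t)) * h5
  have gc : ∀ t, 0 < t → g (R t) = c * Real.exp (-2 * t) := fun t ht => by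
    rw [← hc t ht, mul_assoc, ee, mul_one]
  obtain ⟨b, hb⟩ := cs (fun t => φ (R t) * Real.exp (2 * t - c / 2 * Real.exp (-2 * t))) fun t ht => by
    obtain ⟨h1, h2, h3, r, h4, h5⟩ := hR t ht
    refine (((o.dφ _ h1 h2).comp t h4).mul (((hasDerivAt_id' t).const_mul 2).sub
      (((hasDerivAt_id' t).const_mul (-2)).exp.const_mul (c / 2))).exp).congr_deriv ?_
    rw [h3, gc t ht, comp, Pi.sub_apply]
    linear_combination (-(c * Real.exp (-2 * t) + 2) * φ (R t) *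
      Real.exp (2 * t - c / 2 * Real.exp (-2 * t))) * h5
  refine ⟨max |c| (b * Real.exp (|c| / 2)), fun t ht => ⟨?_, ?_⟩⟩
  · rw [gc t ht, abs_mul, abs_of_pos (Real.exp_pos _)]
    exact mul_le_mul_of_nonneg_right (le_max_left _ _) (Real.exp_pos _).le
  · refine le_trans ?_ (mul_le_mul_of_nonneg_right (le_max_right _ _) (Real.exp_pos _).le)
    have e1 : Real.exp (-2 * t) ≤ 1 := Real.exp_le_one_iff.2 (by linarith)
    have e2 := mul_le_mul (le_abs_self c) e1 (Real.exp_pos _).le (abs_nonneg c)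
    rw [← hb t ht, mul_assoc, mul_assoc, ← Real.exp_add, ← Real.exp_add]
    exact le_mul_of_one_le_right (o.pos _).le (Real.one_le_exp (by linarith))

end Crest.Agent.X212.Kr20
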