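import Crest.Agent.X212.M.Kra
import Crest.Agent.X212.Lix26.Defs
import Crest.Agent.X212.Lns4.Lin
import Crest.Agent.X212.Lns95.Sw
import Crest.Agent.X212.Sep15.Cls

/-!
# Row 212, LIX-KER (helper20), part A: the anti-self-dual form of level `1/4`, explicitly
-/

set_option autoImplicit false
set_option linter.unusedSectionVars false
noncomputable section
open scoped Manifold ContDiff Topology Real InnerProductSpace
open Set Function Filter MeasureTheory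
open Crest.Agent.R208.F (Ext)

namespace Crest.Agent.X212.Kr20
open An Nd18 Num57 Cyf70 Qab60 Lns95 Lix26 Sob92
open M (Mf)
open Dr59 (dM SmAt)
open Abel74 (fm)
open Glue52 (dir)
open Line51 (ang)
open Lns4 (om al_eq)

variable {E : Type} [NormedAddCommGroup E] [NormedSpace ℝ E] [FiniteDimensional ℝ E]
  [MeasurableSpace E] [BorelSpace E]
  {HM : Type} [TopologicalSpace HM] {I : ModelWithCorners ℝ E HM} [I.Boundaryless]
  {M : Type} [TopologicalSpace M] [ChartedSpace HM M] [IsManifold I ∞ M] [T2Space M]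
  [MeasurableSpace M] [BorelSpace M] [SecondCountableTopology M] {Ω : Set M}

section dsc
variable {o : M → Ext E} (D : Dsc I o 4 Ω) {b : Bool} {y : M} {ψ q : ℝ → ℝ}

/-- the values of `|w|²` -/
def Rg : Set ℝ := {x | ∃ b, ∃ y ∈ D.O b, ‖D.w b y‖ ^ 2 = x}

theorem mem_rg (hy : y ∈ D.O b) : ‖D.w b y‖ ^ 2 ∈ Rg D := ⟨b, y, hy, rfl⟩

theorem rg_nn : Rg D ⊆ Ici 0 := by rintro _ ⟨b, y, -, rfl⟩; exact mem_Ici.2 (sq_nonneg _)

open Classical in
/-- gluing over the two charts -/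
theorem glue {N : Type} [Zero N] {f : Bool → M → N}
    (h : ∀ y ∈ D.O false ∩ D.O true, f true y = f false y) :
    ∃ g : M → N, Off Ω g ∧ ∀ b, ∀ y ∈ D.O b, g =ᶠ[𝓝 y] f b := by
  refine ⟨fun y => if y ∈ D.O false then f false y else if y ∈ D.O true then f true y else 0,
    fun y hy => (if_neg fun k => hy (D.sub _ k)).trans (if_neg fun k => hy (D.sub _ k)),
    fun b y hy => eventually_of_mem ((D.ch b).op.mem_nhds hy) fun z hz => ?_⟩
  cases b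
  · exact if_pos hz
  · by_cases k : z ∈ D.O false
    · exact (if_pos k).trans (h z ⟨k, hz⟩).symm
    · exact (if_neg k).trans (if_pos hz)

theorem rg_oc (h : IsPreconnected Ω) : (Rg D).OrdConnected := by
  obtain ⟨g, -, hg⟩ := glue D (f := fun b y => ‖D.w b y‖ ^ 2) fun y hy => by rw [D.nw hy]
  rw [show Rg D = g '' Ω from Subset.antisymm
    (fun _ ⟨b, y, hy, e⟩ => ⟨y, D.sub b hy, (hg b y hy).self_of_nhds.trans e⟩)
    fun _ ⟨y, hy, e⟩ => let ⟨b, k⟩ := (D.cov y).1 hy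
      ⟨b, y, k, (hg b y k).self_of_nhds.symm.trans e⟩]
  refine (h.image g fun y hy => ?_).ordConnected
  obtain ⟨b, k⟩ := (D.cov y).1 hy
  exact ((sa_nsq ((D.ch b).sw y k)).continuousAt.congr (hg b y k).symm).continuousWithinAt

theorem sm_al (hy : y ∈ D.O b) (h1 : ContDiffAt ℝ ∞ ψ (‖D.w b y‖ ^ 2))
    (h2 : ContDiffAt ℝ ∞ q (‖D.w b y‖ ^ 2)) : SmAt I (al I ψ q (D.u b) (D.w b)) y :=
  have s := sa_nsq ((D.ch b).sw y hy)
  (((Lns4.smAt_om ((D.ch b).su y hy)).fsmul le_rfl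
    (h1.comp_contMDiffAt (f := fun y => ‖D.w b y‖ ^ 2) s)).add
    ((Lns4.smAt_om ((D.ch b).sw y hy)).fsmul le_rfl
      (h2.comp_contMDiffAt (f := fun y => ‖D.w b y‖ ^ 2) s))).congr (.of_forall fun _ => al_eq _ _)

theorem al_smul (c : ℝ) (u w : M → ℂ) :
    al I (fun x => c * ψ x) (fun x => c * q x) u w y = c • al I ψ q u w y := by
  rw [al_eq, al_eq, smul_add, smul_smul, smul_smul]

/-- the change of charts -/
theorem al_chg (hy : y ∈ D.O false ∩ D.O true) {c : ℝ}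
    (h : q (‖D.w false y‖ ^ 2) * ‖D.w false y‖ ^ 2 = ψ (‖D.w false y‖ ^ 2) / 4 + c) :
    al I ψ q (D.u true) (D.w true) y =
      al I ψ q (D.u false) (D.w false) y + (4 * c) • ang I (fun x => dir (D.u false x)) y := by
  have nb := ((D.ch false).op.inter (D.ch true).op).mem_nhds hy
  have su := (D.ch false).su y hy.1
  have k := Rod53.cm_dir su (D.ne false y hy)
  have e1 : ang I (fun x => dir (D.u true x)) y = -ang I (fun x => dir (D.u false x)) y :=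
    (Line51.ang_congr (eventually_of_mem nb D.du)).trans (Line51.ang_inv k)
  have e2 : om I (D.w true) y = om I (D.w false) y +
      ‖D.w false y‖ ^ 2 • ((4 : ℕ) : ℝ) • ang I (fun x => dir (D.u false x)) y := by
    rw [← Line51.ang_pow k]
    exact (Lns4.om_congr (eventually_of_mem nb D.tw)).trans
      (Lns4.om_circ ((D.ch false).sw y hy.1) (k.pow 4))
  have e3 : ‖D.u true y‖ ^ 2 = 1 - ‖D.u false y‖ ^ 2 := eq_sub_of_add_eq' (D.nrm y hy)
  rw [al_eq, al_eq, D.nw hy, e2, Lns4.om_dir su (D.ne false y hy),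
    Lns4.om_dir ((D.ch true).su y hy.2) (D.ne true y hy), e1, e3]
  match_scalars
  · linear_combination 4 * h
  · ring

end dsc

section ab
variable {ι : Type} [Fintype ι] {lam : Type} [Fintype lam] {B : Base M ι lam} {G : Geo I M ι lam}
  {r : ℕ} {c : Cfg M ι lam r} {ξ : M → c.m.A}

theorem sl_on (hB : B.OK I) (hG : G.OK B) (hΩ : IsClopen Ω) (A : Ab B G Ω c ξ) (ok : OK G.F B.o)
    (e : ∀ x ∈ Ω, c.m.p2 B x (c.m.Fg G.F c.W x) = 0)
    (i : IntegrableOn (c.m.kd B G.F c.W) Ω G.F.μ) (l : ∫ x in Ω, c.m.kd B G.F c.W x ∂G.F.μ = 1 / 4) :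
    Sl B G Ω (fm G.F c.m c.W ξ) := by
  obtain ⟨-, h2, h3, h4⟩ := Qa50.addStmt I M ι lam r B G Ω c ξ hB hG hΩ A
  have e' : ∀ x ∈ Ω, c.m.p2 B x (c.m.Fg G.F c.W x) - c.m.mu B x (c.Φ x) (c.Φ x) = 0 := fun x hx => by
    rw [e x hx, A.z x hx]
    simp [Md.mu, Md.q, rk1, ← Pi.zero_def]
  have a : ∀ x ∈ Ω, hs G.F B.o x (Qab60.c2 G.F (fm G.F c.m c.W ξ) x) = 0 := fun x hx =>
    PiLp.ext fun s => (smul_eq_zero.1 (congrArg (· s) ((h2 x hx).1.symm.trans (e' x hx)) :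
      _ • ξ x = 0)).resolve_right (h4 x hx)
  have k : ∀ x, ⟪Qab60.c2 G.F (fm G.F c.m c.W ξ) x, Qab60.st B.o x (Qab60.c2 G.F (fm G.F c.m c.W ξ) x)⟫_ℝ =
      Ω.indicator (fun x => -(8 * π ^ 2) * c.m.kd B G.F c.W x) x := fun x => by
    by_cases hx : x ∈ Ω
    · rw [indicator_of_mem hx, kd_ab hB hG A hx]; field_simp
    · rw [indicator_of_notMem hx, c2_of_zero (h3.off x hx), inner_zero_left]
  have n : ∀ x, ‖Qab60.c2 G.F (fm G.F c.m c.W ξ) x‖ ^ 2 =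
      Ω.indicator (fun x => (8 * π ^ 2) * c.m.kd B G.F c.W x) x := fun x => by
    by_cases hx : x ∈ Ω
    · have := k x
      rw [inner_st ok, a x hx, indicator_of_mem hx] at this
      rw [norm_c2_sq ok, a x hx, indicator_of_mem hx]
      simp only [norm_zero] at this ⊢
      linarith
    · rw [indicator_of_notMem hx, c2_of_zero (h3.off x hx), norm_zero, sq, mul_zero]
  refine ⟨h3, a, (memLp_two_iff_integrable_sq_norm (sm_c2 h3.fo.sm).continuous.aestronglyMeasurable).2 ?_,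
    ?_⟩
  · simp only [n]
    exact (integrable_indicator_iff hΩ.isOpen.measurableSet).2 (i.const_mul _)
  · rw [Qab60.integ_mul ok h3.fo.dg]
    simp only [k]
    rw [integral_indicator hΩ.isOpen.measurableSet, integral_const_mul, l]
    ring

end ab

variable {Y : Mf 3} [CompactSpace Y.M] {κ : Type} [Fintype κ] {lam : Type} [Fintype lam]
  [DecidableEq lam] {D : YD Y.I Y.M κ (lam ⊕ lam)}
  {B : Base M (Option κ) (lam ⊕ lam)} {G : Geo I M (Option κ) (lam ⊕ lam)} {K : Nk D B G}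
  {d : Mdl K Ω} (hd : d.OK) {b : Bool} {x : M}
include hd

theorem en : Qab60.En K Ω :=
  ⟨hd.ins.hD, Qd40.volY hd.ins.hD.G.vol, hd.ins.tam, hd.ins.hG, hd.ins.one⟩

theorem D_tm (hx : 0 < K.tm x) (a : Option κ) : G.F.D a K.tm x = a.elim 1 fun _ => 0 := by
  have t := (en hd).tgt hx
  rw [K.rel'.D t a (u' := fun z => id z.2) ((K.ψ.open_target.eventually_mem t).mono fun y hy =>
    (K.snd_symm hy).symm)]
  cases a
  · exact (congrFun (D_none_snd D.F.toPre contDiff_id) _).trans (deriv_id _)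
  · exact congrFun (D_some_snd D.F.toPre contDiff_id _) _

theorem line (y : Y.M) : ∃ b, ∀ t, 0 < t → K.ψ (y, t) ∈ d.Ds.O b ∧ d.Ds.w b (K.ψ (y, t)) ≠ 0 := by
  obtain ⟨z, rfl⟩ := hd.cv.sj y
  obtain ⟨b, hb⟩ : ∃ b, (Th b z).2 ≠ 0 := by
    by_contra! h
    have : (z : Rod53.E4) = 0 := Rod53.L4.map_eq_zero_iff.1 (Prod.ext (h true) (h false))
    simpa [this] using z.2
  refine ⟨b, fun t ht => ⟨(hd.nk b z t ht hb).1, ?_⟩⟩
  obtain ⟨ρ, h0, e⟩ := (hd.nk b z t ht hb).2.2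
  rw [e]
  exact mul_ne_zero (by simpa using h0.ne') (Circle.coe_ne_zero _)

/-- the radial function on the neck -/
theorem neck : ∃ R : ℝ → ℝ, (∀ t, 0 < t → R t ∈ Rg d.Ds ∧ 0 < R t ∧ d.P.f (R t) = 1 ∧
      ∃ r, HasDerivAt R r t ∧ d.h (R t) * r = 1) ∧
    ∀ b, ∀ x ∈ d.Ds.O b, 0 < K.tm x → ‖d.Ds.w b x‖ ^ 2 = R (K.tm x) ∧
      ∀ a, G.F.D a K.tm x = d.Ds.V d.P d.h G.F.e b 0 a x := by
  obtain ⟨R, mo, hR⟩ := hd.rad
  have e := en hd
  have k1 : ∀ b, ∀ x ∈ d.Ds.O b, 0 < K.tm x → ‖d.Ds.w b x‖ ^ 2 = R (K.tm x) := fun b x hx t => by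
    have := hR b (K.ψ.symm x) ((e.symm2 t).symm ▸ t)
    rw [K.ψ.right_inv (e.tgt t), e.symm2 t] at this
    exact this hx
  have y : Y.M := d.cv (Classical.arbitrary _)
  obtain ⟨β, hβ⟩ := line hd y
  have k2 : ∀ t, 0 < t → 0 < R t := fun t ht => by
    rw [← hR β (y, t) ht (hβ t ht).1]; have := (hβ t ht).2; positivity
  have k3 : ∀ t, 0 < t → HasDerivAt R (deriv R t) t := fun t ht => by
    have s : ContMDiffAt 𝓘(ℝ, ℝ) 𝓘(ℝ, ℝ) ∞ (fun s => ‖d.Ds.w β (K.ψ (y, s))‖ ^ 2) t :=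
      ContMDiffAt.comp (g := fun x => ‖d.Ds.w β x‖ ^ 2) t (sa_nsq ((d.Ds.ch β).sw _ (hβ t ht).1))
        ((e.smψ (q := (y, t)) ht).comp t (contMDiffAt_const.prodMk contMDiffAt_id))
    exact ((s.contDiffAt.differentiableAt (by simp)).congr_of_eventuallyEq
      (eventually_of_mem (Ioi_mem_nhds ht) fun s hs => (hR β (y, s) hs (hβ s hs).1).symm)).hasDerivAt
  have k4 : ∀ b, ∀ x ∈ d.Ds.O b, 0 < K.tm x → ∀ a, d.Ds.V d.P d.h G.F.e b 0 a x =
      d.h (R (K.tm x)) * deriv R (K.tm x) * G.F.D a K.tm x := fun b x hx t a => by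
    have : dv I (G.F.e a) (fun y => ‖d.Ds.w b y‖ ^ 2) x = deriv R (K.tm x) * G.F.D a K.tm x := by
      rw [dv_congr (v := fun y => R (K.tm y)) (by
        filter_upwards [(d.Ds.ch b).op.mem_nhds hx,
          (isOpen_lt continuous_const K.cont).mem_nhds t] with y h1 h2 using k1 b y h1 h2)]
      exact (dv_comp ((e.sm_tm t).mdifferentiableAt (by simp)) (k3 _ t).hasFDerivAt).trans
        (mul_comm _ _)
    rw [mul_assoc, ← this, ← k1 b x hx t]; rfl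
  have k5 : ∀ b, ∀ x ∈ d.Ds.O b, 0 < K.tm x → d.h (R (K.tm x)) * deriv R (K.tm x) = 1 :=
    fun b x hx t => by
      have w0 : d.Ds.w b x ≠ 0 := fun h => (k2 _ t).ne' (by rw [← k1 b x hx t, h]; simp)
      have := (hd.mo.on0 hx w0).on 0 0
      simp only [k4 b x hx t, D_tm hd t, Fintype.sum_option, Option.elim, mul_zero, mul_one,
        Finset.sum_const_zero, add_zero, if_true] at this
      refine (mul_self_eq_one_iff.1 this).resolve_right fun h => ?_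
      have p := (hd.mo.pr b x hx w0).ph
      rw [k1 b x hx t] at p
      have n := mo.derivWithin_nonneg (x := K.tm x)
      rw [derivWithin_of_mem_nhds (Ioi_mem_nhds t)] at n
      linarith [mul_nonneg p.le n]
  refine ⟨R, fun t ht => ?_, fun b x hx t => ⟨k1 b x hx t, fun a => by
    rw [k4 b x hx t, k5 b x hx t, one_mul]⟩⟩
  have tm := e.tm (q := (y, t)) ht
  have := k5 β _ (hβ t ht).1 (tm.symm ▸ ht)
  rw [tm] at this
  exact ⟨hR β (y, t) ht (hβ t ht).1 ▸ mem_rg _ (hβ t ht).1, k2 t ht,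
    hR β (y, t) ht (hβ t ht).1 ▸ (hd.fl β _ (hβ t ht).1 (tm.symm ▸ ht)).1, _, k3 t ht, this⟩

/-- `d tm = e⁰` -/
theorem rad (hx : x ∈ d.Ds.O b) (t : 0 < K.tm x) (a : Option κ) :
    G.F.D a K.tm x = d.Ds.V d.P d.h G.F.e b 0 a x :=
  let ⟨_, _, h⟩ := neck hd; (h b x hx t).2 a

theorem w_ne (hx : x ∈ d.Ds.O b) (t : 0 < K.tm x) : d.Ds.w b x ≠ 0 := fun h => by
  obtain ⟨R, h1, h2⟩ := neck hd
  exact (h1 _ t).2.1.ne' (by rw [← (h2 b x hx t).1, h]; simp)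

theorem ex_ode : ∃ g q φ, Ode d.P d.h (Rg d.Ds) g q φ :=
  ode (rg_oc _ hd.ins.sc.1) (rg_nn _) hd.hH fun _ ⟨b, y, hy, e⟩ h0 =>
    e ▸ hd.mo.pr b y hy fun k => h0.ne' (by rw [← e, k]; simp)

variable {g q φ : ℝ → ℝ} (o : Ode d.P d.h (Rg d.Ds) g q φ)
include o

theorem dcy : ∃ C, ∀ b, ∀ x ∈ d.Ds.O b, 0 < K.tm x →
    |g (‖d.Ds.w b x‖ ^ 2)| ≤ C * Real.exp (-2 * K.tm x) ∧
      φ (‖d.Ds.w b x‖ ^ 2) ≤ C * Real.exp (-2 * K.tm x) := by
  obtain ⟨R, h1, h2⟩ := neck hd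
  exact (o.dec h1).imp fun C h b x hx t => (h2 b x hx t).1 ▸ h _ t

/-- the change of the connection -/
theorem pot : ∃ a, Fo I 1 a ∧ Off Ω a ∧ ∀ b, ∀ x ∈ d.Ds.O b,
    d.al b x + a x = (-2 * d.μ) • al I g q (d.Ds.u b) (d.Ds.w b) x := by
  obtain ⟨a, h1, h2⟩ := glue d.Ds
    (f := fun b => (-2 * d.μ) • al I g q (d.Ds.u b) (d.Ds.w b) - d.al b) fun y hy => by
      simp only [Pi.sub_apply, Pi.smul_apply, Mdl.al]
      rw [al_chg _ hy (o.eq0 (mem_rg _ hy.1) (sq_nonneg _)), Lns4.al_chg _ _ _ (by norm_num) hy]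
      push_cast
      module
  refine ⟨a, ?_, h1, fun b x hx => by rw [(h2 b x hx).self_of_nhds]; simp⟩
  rw [← indicator_eq_self.2 fun x hx => by_contra fun k => hx (h1 x k)]
  refine fo_ind hd.ins.cl (fun x hx => ?_) fun x hx => ?_ <;> obtain ⟨b, k⟩ := (d.Ds.cov x).1 hx
  · exact (((sm_al _ k (o.sg _ (mem_rg _ k)) (o.sq _ (mem_rg _ k))).smul _).sub
      (Lns4.smAt_al _ _ ((d.Ds.ch b).su x k) ((d.Ds.ch b).sw x k))).congr (h2 b x k)
  · rw [(h2 b x k).self_of_nhds]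
    rw [sub_eq_add_neg, ← neg_one_smul ℝ]
    exact ((Dr59.isDeg_io _).smul _).add ((Dr59.isDeg_io _).smul _)

variable {a : M → Ext E} (ha : Fo I 1 a) (h0 : Off Ω a)
  (e : ∀ b, ∀ x ∈ d.Ds.O b, d.al b x + a x = (-2 * d.μ) • al I g q (d.Ds.u b) (d.Ds.w b) x)
include ha e

theorem fr (b : Bool) : (d.L.shift a).Fr I (d.s b)
    ((-2 * d.μ) • al I g q (d.Ds.u b) (d.Ds.w b)) (d.Ds.O b) :=
  ⟨((hd.fr b).sfr a).toUni, fun x hx => (((hd.fr b).sfr a).par x hx).trans (e b x hx)⟩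

theorem lon : (d.L.shift a).On I univ :=
  ⟨hd.lo.sm, hd.lo.prj, hd.lo.tr, hd.lo.sa.add fun x _ => ha.sm x, hd.lo.dg.add fun x _ => ha.dg x⟩

theorem F_eq (hx : x ∈ Ω) : (d.L.shift a).F I x = d.w x + dM I a x := by
  obtain ⟨b, k⟩ := (d.Ds.cov x).1 hx
  rw [((hd.fr b).sfr a).F_fr (d.Ds.ch b).op ((lon hd o ha e).sa.mono (subset_univ _)) k, hd.wa b x k]
  exact Dr59.dM_add Dr59.ne0 (Lns4.smAt_al _ _ ((d.Ds.ch b).su x k) ((d.Ds.ch b).sw x k)) (ha.sm x)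

theorem tw (hx : x ∈ d.Ds.O b) (w0 : d.Ds.w b x ≠ 0) (s : Option κ × Option κ) :
    k2 G.F (d.w + dM I a) s.1 s.2 x =
      -(-4 * d.μ * g (‖d.Ds.w b x‖ ^ 2)) * wq (d.Ds.V d.P d.h G.F.e b · · x) 0 1 s.1 s.2 +
        -4 * d.μ * g (‖d.Ds.w b x‖ ^ 2) * wq (d.Ds.V d.P d.h G.F.e b · · x) 2 3 s.1 s.2 := by
  have l : d.Ds.LF (d.L.shift a) (fun x => -2 * d.μ * g x) fun x => -2 * d.μ * q x := fun b =>
    ⟨d.s b, (fr hd o ha e b).toUni, fun y hy =>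
      ((fr hd o ha e b).par y hy).trans (al_smul (I := I) (-2 * d.μ) (d.Ds.u b) (d.Ds.w b)).symm⟩
  have := l.tw (P := d.P) (h := d.h) (ψ1 := fun x => -2 * d.μ * (-2 * d.P.f x * g x)) (c := -d.μ)
    ((lon hd o ha e).mono (subset_univ _)) (Wz78.gfrm hd.mo.hG) (fun b y hy h0 =>
      ⟨(hd.mo.pr b y hy h0).pf.ne', contDiffAt_const.mul (o.sg _ (mem_rg _ hy)),
        ((o.dg _ (mem_rg _ hy) (by positivity)).const_mul _).congr_deriv (mul_assoc ..).symm⟩)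
    (fun x hx => by push_cast; linear_combination -2 * d.μ * o.eq x hx) b x hx w0 s
  have p := (hd.mo.pr b x hx w0).pf.ne'
  beta_reduce at this
  rw [F_eq hd o ha e (d.Ds.sub b hx)] at this
  refine Eq.trans this ?_
  field_simp
  ring

theorem asd (hx : x ∈ Ω) : hs G.F B.o x (c2 G.F (d.w + dM I a) x) = 0 := by
  obtain ⟨b, k⟩ := (d.Ds.cov x).1 hx
  have c := Loc8.cont_hs hd.ins.tam.ok ((cz_of_cs hd.ins.cs).fo.add ha.d).sm
  refine norm_eq_zero.1 (pow_eq_zero_iff two_ne_zero |>.1 (tendsto_nhds_unique_of_frequently_eq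
    (c.tendsto x) tendsto_const_nhds (((d.Ds.ch b).dense k).mono fun z hz => ?_)))
  have := sdn_two (hd.mo.ox hz.1 hz.2) (tw hd o ha e hz.1 hz.2)
  rw [neg_add_cancel, abs_zero, sdn, Real.sqrt_eq_zero (by positivity)] at this
  exact (Loc8.norm_hs hd.mo.hG _ z).trans this

include h0 in
theorem sq : Sq G.F (d.w + dM I a) := by
  have z := (cz_of_cs hd.ins.cs).add (cz_d hd.ins.cl ha h0)
  have c := (sm_c2 (F := G.F) z.fo.sm).continuous
  obtain ⟨C, hC⟩ := dcy hd o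
  refine (memLp_two_iff_integrable_sq_norm c.aestronglyMeasurable).2
    ((hd.ins.one.int (δ := 4) (C := 16 * C ^ 2) (c.norm.pow 2).continuousOn four_pos
      fun x hx => ?_).integrable_of_forall_notMem_eq_zero fun x hx => by
        simp [c2_of_zero (z.off x hx)])
  have t : 0 < K.tm x := by simpa using hx
  obtain ⟨b, k⟩ := (d.Ds.cov x).1 ((en hd).mem t)
  have w0 := w_ne hd k t
  have n := (hd.mo.on0 k w0)
  have m : d.μ ^ 2 = 1 / 4 := by rw [← sq_abs, hd.hμ]; norm_num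
  have : ‖c2 G.F (d.w + dM I a) x‖ ^ 2 = 16 * g (‖d.Ds.w b x‖ ^ 2) ^ 2 := by
    rw [PiLp.norm_sq_eq_of_L2]
    have r : ∀ u v w : ℝ, (-u * v + u * w) ^ 2 = u ^ 2 * (v * v - 2 * (v * w) + w * w) :=
      fun u v w => by ring
    simp only [Qab60.c2, Real.norm_eq_abs, sq_abs, tw hd o ha e k w0, r, Finset.sum_add_distrib,
      Finset.sum_sub_distrib, ← Finset.mul_sum, wq_wq n, mul_pow, m]
    simp
    ring
  have h := pow_le_pow_left₀ (abs_nonneg _) (hC b x k t).1 2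
  rw [sq_abs, mul_pow, ← Real.exp_nat_mul] at h
  rw [Pi.pow_apply, Real.norm_eq_abs, abs_of_nonneg (sq_nonneg _), this, mul_assoc]
  refine mul_le_mul_of_nonneg_left (h.trans_eq ?_) (by norm_num)
  congr 2; push_cast; ring

omit o ha e

/-- **the abelian solution of level `1/4` is the explicit one** -/
theorem main {r : ℕ} {c : Cfg M (Option κ) (lam ⊕ lam) r} {ξ : M → c.m.A} (A : Ab B G Ω c ξ)
    (as : ∀ x ∈ Ω, c.m.p2 B x (c.m.Fg G.F c.W x) = 0)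
    (int : IntegrableOn (c.m.kd B G.F c.W) Ω G.F.μ)
    (lev : ∫ x in Ω, c.m.kd B G.F c.W x ∂G.F.μ = 1 / 4) :
    ∃ (g q φ : ℝ → ℝ) (a₁ : M → Ext E) (ε : ℝ), (ε = 1 ∨ ε = -1) ∧ Ode d.P d.h (Rg d.Ds) g q φ ∧
      Fo I 1 a₁ ∧ (∀ b, ∀ x ∈ d.Ds.O b,
        d.al b x + a₁ x = (-2 * d.μ) • al I g q (d.Ds.u b) (d.Ds.w b) x) ∧
      (∀ x ∈ Ω, (2 * ε) • fm G.F c.m c.W ξ x = d.w x + dM I a₁ x) ∧
      ∃ C, ∀ b, ∀ x ∈ d.Ds.O b, 0 < K.tm x → φ (‖d.Ds.w b x‖ ^ 2) ≤ C * Real.exp (-K.tm x) := by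
  obtain ⟨g, q, φ, o⟩ := ex_ode hd
  obtain ⟨a, ha, h0, e⟩ := pot hd o
  have i := hd.ins
  have S := sl_on i.hB i.hG i.cl A i.tam.ok as int lev
  obtain ⟨ε, -, -, α, hε, -, -, h1, h2, h3, -⟩ := (Sep15.Cls.cls B G K Ω d.w _ i S).1
  have u := Sep15.Cls.uq (Sep15.Cls.pc (en hd) i.cs i.span (by rw [i.sq, neg_lt_zero]; positivity))
    i.cs S.sq (f' := (ε / 2) • (d.w + dM I a)) (by
      rw [Sq, Qab60.c2_smul]; exact (sq hd o ha h0 e).const_smul _) S.asd (fun x hx => by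
      rw [Qab60.c2_smul, Pi.smul_apply, map_smul, asd hd o ha e hx, smul_zero]) h1 h2 h3
    (ha.smul (ε / 2)) (h0.smul _) (by rw [ha.d_smul, smul_add])
  obtain ⟨C, hC⟩ := dcy hd o
  refine ⟨g, q, φ, a, ε, hε, o, ha, e, fun x _ => ?_, |C|, fun b x hx t => (hC b x hx t).2.trans
    (mul_le_mul (le_abs_self C) (Real.exp_le_exp.2 (by linarith)) (Real.exp_pos _).le (abs_nonneg _))⟩
  rw [← u, Pi.smul_apply, smul_smul, show 2 * ε * (ε / 2) = 1 by
    rcases hε with rfl | rfl <;> norm_num, one_smul, Pi.add_apply]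

end Crest.Agent.X212.Kr20
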