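import Crest.Agent.X212.Lk34.Cur
import Crest.Agent.X212.Kb50.Tr

/-!
# Row 212, LIX-KER (helper20), part C: the complex one-forms of the kernel
-/

set_option autoImplicit false
set_option linter.unusedSectionVars false
noncomputable section
open Set Function Filter Topology
open scoped ContDiff Manifold

namespace Crest.Agent.X212.Kr20
open An Nd18 Sob92 Wz78 Lns95 Lix26 Lk34
open M (Mf)
open Line51 (fsm_re fsm_im)

variable {Y : Mf 3} [CompactSpace Y.M] {κ : Type} [Fintype κ] {lam : Type} [Fintype lam]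
  [DecidableEq lam] {E : Type} [NormedAddCommGroup E] [NormedSpace ℝ E] [FiniteDimensional ℝ E]
  [MeasurableSpace E] [BorelSpace E]
  {HM : Type} [TopologicalSpace HM] {I : ModelWithCorners ℝ E HM} [I.Boundaryless]
  {M : Type} [TopologicalSpace M] [ChartedSpace HM M] [IsManifold I ∞ M] [T2Space M]
  [MeasurableSpace M] [BorelSpace M] [SecondCountableTopology M]
  {D : YD Y.I Y.M κ (lam ⊕ lam)} {B : Base M (Option κ) (lam ⊕ lam)}
  {G : Geo I M (Option κ) (lam ⊕ lam)} {K : Nk D B G} {Ω : Set M} {d : Mdl K Ω}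
  {y : M} {b : Bool} {g Q Φ : ℝ → ℝ}

variable (d Φ) in
/-- the amplitude -/
abbrev am (y : M) : ℝ := Real.exp (-Φ (xx d.Ds y))

variable (d Φ) in
/-- the form -/
abbrev tz (b : Bool) (a : Option κ) (y : M) : ℂ := (am d Φ y : ℂ) * th d.Ds G.F.e b a y

variable (ok : d.OK) (r : Rf d.P d.h (xx d.Ds '' Ω) g Q Φ) (hy : y ∈ d.Ds.O b)
include ok r hy

theorem sa_am : SA I (am d Φ) y :=
  (r.sΦ _ ⟨y, d.Ds.sub b hy, rfl⟩).neg.exp.comp_contMDiffAt (f := xx d.Ds) (sa_xx hy)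

omit ok r in
theorem tz_eq (a : Option κ) : tz d Φ b a =ᶠ[𝓝 y] fun z =>
    ((am d Φ z * d.Ds.V d.P d.h G.F.e b 2 a z : ℝ) : ℂ) +
      ((am d Φ z * d.Ds.V d.P d.h G.F.e b 3 a z : ℝ) : ℂ) * Complex.I :=
  ((d.Ds.ch b).op.eventually_mem hy).mono fun z hz => by
    beta_reduce
    rw [← th_re hz, ← th_im hz]
    rw [Complex.ofReal_mul, Complex.ofReal_mul, mul_assoc, ← mul_add, Complex.re_add_im]

theorem sa_tz (a : Option κ) : SA I (tz d Φ b a) y :=
  have k : ∀ {f : M → ℝ}, SA I f y → SA I (fun z => (f z : ℂ)) y := fun h =>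
    Complex.ofRealCLM.contDiff.contDiffAt.comp_contMDiffAt h
  ((k ((sa_am ok r hy).mul (sa_V2 (gfrm ok.mo.hG) hy _ _ a))).add (SA.mul
    (k ((sa_am ok r hy).mul (sa_V3 (gfrm ok.mo.hG) hy _ _ a))) contMDiffAt_const)).congr_of_eventuallyEq
    (tz_eq hy a)

theorem dv_tz (a c : Option κ) : dv I (G.F.e a) (tz d Φ b c) y =
    ((dv I (G.F.e a) (am d Φ) y * d.Ds.V d.P d.h G.F.e b 2 c y +
      am d Φ y * dv I (G.F.e a) (d.Ds.V d.P d.h G.F.e b 2 c) y : ℝ) : ℂ) +
    ((dv I (G.F.e a) (am d Φ) y * d.Ds.V d.P d.h G.F.e b 3 c y +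
      am d Φ y * dv I (G.F.e a) (d.Ds.V d.P d.h G.F.e b 3 c) y : ℝ) : ℂ) * Complex.I := by
  have e := tz_eq (Φ := Φ) hy c
  rw [← dv_mul (sa_am ok r hy) (sa_V2 (gfrm ok.mo.hG) hy _ _ c),
    ← dv_mul (sa_am ok r hy) (sa_V3 (gfrm ok.mo.hG) hy _ _ c),
    ← Complex.re_add_im (dv I (G.F.e a) (tz d Φ b c) y), ← dv_re (sa_tz ok r hy c),
    ← dv_im (sa_tz ok r hy c), dv_congr (e.mono fun z hz => (congrArg Complex.re hz :)),
    dv_congr (e.mono fun z hz => (congrArg Complex.im hz :))]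
  simp only [Complex.add_re, Complex.add_im, Complex.mul_re, Complex.mul_im, Complex.ofReal_re,
    Complex.ofReal_im, Complex.I_re, Complex.I_im, mul_zero, mul_one, sub_zero, add_zero, zero_add]

theorem pr_tz (a : Option κ) : ∑ c, B.P a c y • tz d Φ b c y = tz d Φ b a y := by
  have k := fun φ ψ : M → ℝ => pr_wd (y := y) (gfrm ok.mo.hG) φ ψ a
  simp only [fun a => (tz_eq (Φ := Φ) hy a).self_of_nhds, Complex.real_smul, mul_add, ← mul_assoc,
    Finset.sum_add_distrib, ← Finset.sum_mul, ← Complex.ofReal_mul, ← Complex.ofReal_sum]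
  simp only [mul_assoc, mul_left_comm (B.P a _ y), ← Finset.mul_sum, Dsc.V, vG, Matrix.cons_val, k]

section off
variable (h0 : d.Ds.w b y ≠ 0)
include h0

theorem loc : ∃ k : ℝ, (∀ a, dv I (G.F.e a) (am d Φ) y =
      -k * am d Φ y * d.Ds.V d.P d.h G.F.e b 0 a y) ∧
    ∀ a, a0 d g Q b a y = k * d.Ds.V d.P d.h G.F.e b 1 a y - 2 * mu I G.F.e (d.Ds.u b) a y := by
  have f0 := (ok.mo.pr b y hy h0).pf.ne'
  refine ⟨(2 - 2 * Real.exp (-2 * g (‖d.Ds.w b y‖ ^ 2))) / d.P.f (‖d.Ds.w b y‖ ^ 2), fun a => ?_,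
    fun a => ?_⟩
  · rw [dv_congr (v := fun z => (fun x => Real.exp (-Φ x)) (‖d.Ds.w b z‖ ^ 2))
      ((xx_ev hy).mono fun z hz => by simp only [am, hz]), dv_x (φ := fun x => Real.exp (-Φ x)) ((d.Ds.ch b).sw y hy)
      (r.dΦ _ (mem_R hy) (by simpa)).neg.exp, am, xx_eq hy]
    simp only [Dsc.V, vG, Matrix.cons_val, Pi.neg_apply]
    ring
  · rw [a0, pt_eq hy h0 (hq0 r _ (mem_R hy))]
    simp only [Dsc.V, vG, Matrix.cons_val, sg1]
    field_simp
    push_cast
    ring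

theorem c_off (t : Option κ × Option κ) : ∑ s, B.sd y t s • (d1 I G.F.e G.F.c (tz d Φ b) s.1 s.2 y +
    Complex.I * (a0 d g Q b s.1 y * tz d Φ b s.2 y - a0 d g Q b s.2 y * tz d Φ b s.1 y)) = 0 := by
  obtain ⟨k, h1, h2⟩ := loc ok r hy h0
  have C := ok.mo.cz b
  have o := ok.mo.ox hy h0
  have d2 := C.d2 y ⟨hy, h0⟩
  have d3 := C.d3 y ⟨hy, h0⟩
  set U : Fin 4 → Option κ → ℝ := (d.Ds.V d.P d.h G.F.e b · · y) with hU
  have e : ∀ s : Option κ × Option κ, d1 I G.F.e G.F.c (tz d Φ b) s.1 s.2 y +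
      Complex.I * (a0 d g Q b s.1 y * tz d Φ b s.2 y - a0 d g Q b s.2 y * tz d Φ b s.1 y) =
      (wq U 0 2 s.1 s.2 - wq U 3 1 s.1 s.2) • ((-k * am d Φ y : ℝ) : ℂ) +
        (wq U 0 3 s.1 s.2 - wq U 1 2 s.1 s.2) • (((-k * am d Φ y : ℝ) : ℂ) * Complex.I) := fun s => by
    have e2 := d2 s.1 s.2
    have e3 := d3 s.1 s.2
    simp only [d1, smul_eq_mul] at e2 e3
    simp only [d1, dv_tz ok r hy, h1, h2, fun a => (tz_eq (Φ := Φ) hy a).self_of_nhds, wq, hU]
    refine Complex.ext ?_ ?_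
    · simp [mul_left_comm _ (am d Φ y), ← Finset.mul_sum, -Complex.ofReal_exp, -Fintype.sum_option]
      linear_combination am d Φ y * e2
    · simp [mul_left_comm _ (am d Φ y), ← Finset.mul_sum, -Complex.ofReal_exp, -Fintype.sum_option]
      linear_combination am d Φ y * e3
  have z : ∀ i j l m : Fin 4, (∀ n, ∑ s, sdb U n s * (wq U i j s.1 s.2 - wq U l m s.1 s.2) = 0) →
      ∑ s, B.sd y t s * (wq U i j s.1 s.2 - wq U l m s.1 s.2) = 0 := fun i j l m h => by
    simp [sd_sum o, h]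
  have z1 := z 0 2 3 1 fun n => by
    fin_cases n <;> simp [sdb, add_mul, mul_sub, Finset.sum_add_distrib, wq_wq o.toOn0]
  have z2 := z 0 3 1 2 fun n => by
    fin_cases n <;> simp [sdb, add_mul, mul_sub, Finset.sum_add_distrib, wq_wq o.toOn0]
  simp only [e, smul_add, smul_smul, Finset.sum_add_distrib, ← Finset.sum_smul, z1, z2, zero_smul,
    add_zero]

theorem r_off : ∑ a, (G.F.D a (tz d Φ b a) y + G.F.dv a y • tz d Φ b a y +
    Complex.I * (a0 d g Q b a y * tz d Φ b a y)) = 0 := by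
  obtain ⟨k, h1, h2⟩ := loc ok r hy h0
  have C := ok.mo.cz b
  have hG := ok.mo.hG
  have n := ok.mo.on0 hy h0
  have dv' : ∀ i, ∑ a, (dv I (G.F.e a) (d.Ds.V d.P d.h G.F.e b i a) y +
      G.F.dv a y * d.Ds.V d.P d.h G.F.e b i a y) = ∑ a, cv0 I G.F.e G.F.Gam
        (d.Ds.V d.P d.h G.F.e b i) a a y := fun i => by
    have := (glc hG).div_sum (gfrm hG) (dv_gam hG.vol y) (on_PU n i)
    simp only [smul_eq_mul] at this
    simp only [cv0, Finset.sum_add_distrib, Finset.sum_sub_distrib, this, sub_neg_eq_add]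
  have e2 := dv' 2
  have e3 := dv' 3
  have o := n.on
  simp only [C.cv ⟨hy, h0⟩ (glc hG) (gfrm hG) (gsep hG), cn, Fin.sum_univ_four, Matrix.cons_val,
    add_mul, neg_mul, mul_assoc, zero_mul, Finset.sum_add_distrib, Finset.sum_neg_distrib,
    ← Finset.mul_sum, o] at e2 e3
  simp only [Pre.D_def, dv_tz ok r hy, h1, h2, fun a => (tz_eq (Φ := Φ) hy a).self_of_nhds]
  refine Complex.ext ?_ ?_
  · simp [mul_left_comm _ (am d Φ y), ← Finset.mul_sum, -Complex.ofReal_exp, -Fintype.sum_option,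
      Finset.sum_add_distrib, sub_mul, mul_assoc, o] at e2 ⊢
    linear_combination am d Φ y * e2
  · simp [mul_left_comm _ (am d Φ y), ← Finset.mul_sum, -Complex.ofReal_exp, -Fintype.sum_option,
      Finset.sum_add_distrib, sub_mul, mul_assoc, o] at e3 ⊢
    linear_combination am d Φ y * e3

end off

omit hy in
/-- **KER (C)** -/
theorem fz (hp : K.p = some 0) {δ : ℝ} {ψ : M → ℝ} (hψ : ∀ x ∈ Ω, ψ x = δ * K.τ x) (b : Bool) :
    Kb50.Fz B G.F ψ (d.Ds.O b) (a0 d g Q b)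
      fun a y => (Real.exp (-Φ (xx d.Ds y)) : ℂ) * th d.Ds G.F.e b a y := by
  have F := gfrm ok.mo.hG
  have ds : ∀ {f : M → ℂ} {x}, x ∈ d.Ds.O b → ContinuousAt f x →
      (∀ z ∈ d.Ds.O b, d.Ds.w b z ≠ 0 → f z = 0) → f x = 0 := fun hx c h =>
    tendsto_nhds_unique_of_frequently_eq c.tendsto tendsto_const_nhds
      (((d.Ds.ch b).dense hx).mono fun z hz => h z hz.1 hz.2)
  refine ⟨fun x hx => sa_tz ok r hx, fun x hx => pr_tz ok r hx, fun x hx t => ?_, fun x hx => ?_,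
    fun x hx => ?_⟩
  · have h1 := fun s t => (ct_sd ok.mo.hB s t).continuousAt (x := x)
    have h2 := fun a => (sa_tz ok r hx a).continuousAt
    have h3 := fun a c => (F.sD a (sa_tz ok r hx c)).continuousAt
    have h4 := fun a => (sa_a0 ok r hx a).continuousAt
    have h5 := fun a c k => (F.sc a c k x).continuousAt
    refine ds hx ?_ fun z hz h0 => c_off ok r hz h0 t
    unfold d1
    fun_prop
  · have h2 := fun a => (sa_tz ok r hx a).continuousAt
    have h3 : ∀ a, ContinuousAt (G.F.D a (tz d Φ b a)) x := fun a =>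
      (F.sD a (sa_tz ok r hx a)).continuousAt
    have h4 := fun a => (sa_a0 ok r hx a).continuousAt
    have h5 := fun a => (G.F.dv_sm a x).continuousAt
    refine ds hx ?_ fun z hz h0 => r_off ok r hz h0
    fun_prop
  · have e : ∀ a, G.F.D a ψ x = δ * G.F.D a K.τ x := fun a =>
      (dv_congr (v := fun z => δ • K.τ z) ((ok.ins.cl.isOpen.eventually_mem (d.Ds.sub b hx)).mono
        hψ)).trans (dv_const_smul _ ((K.sm_τ x).mdifferentiableAt (by simp)))
    simp only [e, Fintype.sum_option, K.D_τ_some, K.D_τ_none, Pi.zero_apply, mul_zero, zero_smul,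
      Finset.sum_const_zero, add_zero]
    rcases le_or_gt (K.tm x) 0 with t | t
    · rw [image_eq_zero_of_notMem_tsupport (f := deriv (tf K.p K.q)) fun h => by
        linarith [(tsupport_dtf K.len h).1 0 hp], mul_zero, zero_smul]
    · obtain ⟨-, -, -, h⟩ := neck ok
      rw [show th d.Ds G.F.e b none x = 0 from Complex.ext
        ((th_re hx d.P d.h _).trans (h b x hx t 2 (by decide)))
        ((th_im hx d.P d.h _).trans (h b x hx t 3 (by decide))), mul_zero, smul_zero]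

end Crest.Agent.X212.Kr20
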