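import Crest.Agent.X212.M.Lvi
import Crest.Agent.X212.Cmp73.Kg

/-!
# Row 212, layer M: approximation by global connections on the limit module
-/

set_option autoImplicit false
set_option linter.unusedSectionVars false
noncomputable section
open Set Function Filter Topology MeasureTheory
open scoped ContDiff Manifold

namespace Crest.Agent.X212.M
open An Cmp73 Eqv71 Pj41 Loc66

section kg
variable {Z Z' Z'' : Mf 4} {ι lam : Type} [Fintype ι] [Fintype lam] {B : Base Z.M ι lam}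
  {G : Geo Z.I Z.M ι lam} {B' : Base Z'.M ι lam} {G' : Geo Z'.I Z'.M ι lam} {B'' : Base Z''.M ι lam}
  {G'' : Geo Z''.I Z''.M ι lam} {O s : Set Z.M} {O' : Set Z'.M} {O'' : Set Z''.M} {φ : Z.M → Z'.M}
  {ψ : Z'.M → Z.M} {U : Z.M → ι → ι → ℝ} {v : Z.M → CL (Eu lam) (Eu lam)}

section
variable (g : KG B G B' G' O O' φ ψ U v) (hs : s ⊆ O)
include g hs

theorem kg_img : φ '' s = O' ∩ ψ ⁻¹' s := Subset.antisymm
  (forall_mem_image.2 fun x hx => ⟨g.inv.maps (hs hx), by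
    rw [mem_preimage, g.inv.linv x (hs hx)]; exact hx⟩)
  fun y hy => ⟨_, hy.2, g.inv.rinv y hy.1⟩

theorem kg_pre : φ ⁻¹' (φ '' s) ∩ O = s := Subset.antisymm
  (fun x ⟨⟨y, hy, e⟩, hx⟩ => g.inv.linv x hx ▸ e ▸ (g.inv.linv y (hs hy)).symm ▸ hy)
  fun x hx => ⟨⟨x, hx, rfl⟩, hs hx⟩

theorem kg_open (h : IsOpen s) : IsOpen (φ '' s) := kg_img g hs ▸ ContinuousOn.isOpen_inter_preimage
  (fun y hy => (g.inv.sψ y hy).continuousAt.continuousWithinAt) g.inv.opn' h

theorem kg_cpt (h : IsCompact s) : IsCompact (φ '' s) :=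
  h.image_of_continuousOn fun x hx => (g.rot.sφ x (hs hx)).continuousAt.continuousWithinAt

theorem kg_mono (h : IsOpen s) : KG B G B' G' s (φ '' s) φ ψ U v :=
  have k : φ '' s ⊆ O' := image_subset_iff.2 fun _ hx => g.inv.maps (hs hx)
  ⟨g.toLG.mono h hs, ⟨kg_open g hs h, mapsTo_image _ _, fun _ hy => (kg_img g hs ▸ hy).2,
    fun x hx => g.inv.linv x (hs hx), fun y hy => g.inv.rinv y (k hy), fun y hy => g.inv.sψ y (k hy)⟩,
    map_restr g.rot.opn (fun x hx => (g.rot.sφ x hx).continuousAt) g.μ (kg_open g hs h) k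
      (kg_pre g hs)⟩

theorem kg_int (h : MeasurableSet s) (h' : MeasurableSet (φ '' s)) (f : Z'.M → ℝ) :
    ∫ y in φ '' s, f y ∂G'.F.μ = ∫ x in s, f (φ x) ∂G.F.μ := by
  have := g.integral ((φ '' s).indicator f)
  rwa [setIntegral_indicator h', inter_eq_right.2 (image_subset_iff.2 fun _ hx => g.inv.maps (hs hx)),
    setIntegral_congr_fun g.rot.opn.measurableSet (g := s.indicator fun x => f (φ x)) fun x hx => ?_,
    setIntegral_indicator h, inter_eq_right.2 hs] at this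
  by_cases e : x ∈ s
  · rw [indicator_of_mem e, indicator_of_mem (mem_image_of_mem _ e)]
  · rw [indicator_of_notMem e, indicator_of_notMem (s := φ '' s) (a := φ x) fun k =>
      e ((kg_pre g hs).subset ⟨k, hx⟩)]

end

theorem kg_trans (g : KG B G B' G' O O' φ ψ U v) {φ' ψ' U' v'}
    (g' : KG B' G' B'' G'' O' O'' φ' ψ' U' v') : KG B G B'' G'' O O'' (φ' ∘ φ) (ψ ∘ ψ')
      (fun x d a => ∑ b, U' (φ x) d b * U x b a) fun x => v' (φ x) ∘L v x :=
  ⟨g.toLG.trans g'.toLG g.inv.maps, ⟨g'.inv.opn', g'.inv.maps.comp g.inv.maps,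
    g.inv.maps'.comp g'.inv.maps', fun x hx => by
      simp only [comp_apply, g'.inv.linv _ (g.inv.maps hx), g.inv.linv x hx],
    fun y hy => by simp only [comp_apply, g.inv.rinv _ (g'.inv.maps' hy), g'.inv.rinv y hy],
    fun y hy => (g.inv.sψ _ (g'.inv.maps' hy)).comp y (g'.inv.sψ y hy)⟩, by
    rw [← g'.μ, ← g.μ, AEMeasurable.map_map_of_aemeasurable (g.μ ▸ aem_of_cont g'.rot.opn
      fun x hx => (g'.rot.sφ x hx).continuousAt)
      (aem_of_cont g.rot.opn fun x hx => (g.rot.sφ x hx).continuousAt)]⟩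

variable (hB : B.OK Z.I) (hG : G.OK B) (hB' : B'.OK Z'.I) (hG' : G'.OK B')
include hB hG hB' hG'

theorem grel_lg (h : GRel B G B' G' φ O) : LG B G B' G' O φ (fun x b a => B.P b a x) B.l :=
  have l := lg_refl hB hG h.fr.op
  ⟨hB, hG, hB', hG', ⟨h.fr.op, fun x hx => (h.fr.ld x hx).contMDiffAt, l.rot.sU, fun b x hx => by
      rw [← h.fr.e b x hx, ← (geo_frm hG).proj b x, map_sum]; simp only [map_smul],
      l.rot.UU, fun a b x hx => (l.rot.UU' a b x hx).trans (h.P a b x hx)⟩,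
    fun x hx => have b := l.be x hx
      ⟨b.UU, fun a a' => (b.UU' a a').trans (h.P a a' x hx), fun _ _ _ _ =>
        (h.o _ _ _ _ x hx).symm.trans (b.o ..), b.vv, b.vv'.trans (h.l x hx), h.il ▸ b.il⟩,
    l.sv, fun x hx a => by
      have := l.par x hx a
      simpa only [pb, h.a _ x hx, id] using this⟩

theorem grel_kg {φ : OpenPartialHomeomorph Z.M Z'.M} (h : GRel B G B' G' φ φ.source) :
    KG B G B' G' φ.source φ.target φ φ.symm (fun x b a => B.P b a x) B.l :=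
  have i := h.fr.iso hG.vol hG'.vol
  ⟨grel_lg hB hG hB' hG' h, ⟨φ.open_target, φ.mapsTo, φ.symm.mapsTo, fun _ => φ.left_inv,
    fun _ => φ.right_inv, fun _ hy => i.sm'.contMDiffAt (φ.open_target.mem_nhds hy)⟩, i.μ⟩

theorem grel_lm (h : GRel B G B' G' φ O) {m : Md Z.M ι lam} {m' : Md Z'.M ι lam} {W : m.Cn}
    {W' : m'.Cn} (ok : m.OK Z.I B) (ok' : m'.OK Z'.I B') (cn : m.IsConn B G W)
    (cn' : m'.IsConn B' G' W') {t : Z.M → CL m.V m'.V} (i : Iso0 Z.I m (cmM φ m') O t)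
    (p : Par0 G.F (m' := cmM φ m') W (fun a x => W' a (φ x)) O t) :
    LM B G B' G' O φ (fun x b a => B.P b a x) B.l W W' t :=
  ⟨grel_lg hB hG hB' hG' h, ok, ok', cn, cn', i.su, fun x hx =>
    ⟨by rw [← ad_trn]; exact (i.iso x hx).src, by rw [← ad_trn]; exact (i.iso x hx).tgt,
      (i.J x hx).symm, fun b => by rw [(ok.cl x).proj b]; exact i.ρ x hx b,
      fun s => by
        rw [h.l x hx, ok'.jl]; exact i.j x hx s⟩, fun x hx a => by
      have e : pb φ (fun b a x => B.P b a x) W' a x = W' a (φ x) := by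
        rw [← cn'.cc.proj a (φ x)]
        exact Finset.sum_congr rfl fun b _ => by rw [← h.P a b x hx, (hB.pr x).symm a b]
      rw [e]
      exact sub_eq_zero.1 (p x hx a)⟩

end kg

/-- **APX** -/
theorem apx (ι lam : Type) [Fintype ι] [Fintype lam] : ApxStmt ι lam := by
  intro Z Y Z₀ α r g h b S u L k hl hL hS
  have hg := k.bk.ok
  obtain ⟨O, o1, o2, o3, o4⟩ := hg.nhd hL (hS.trans hl.sub)
  have bu := hl.bub hg k.bk.adm o1 o4 o3
  obtain ⟨A, a1, a2, a3, a4⟩ := bu.iso_cpt hL fun x hx => ⟨o2 hx, hS hx⟩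
  have a5 : A ⊆ O := fun _ h => (a3 h).1
  obtain ⟨χ, c1, -, c3, -, c5⟩ := Met55.exists_cut (I := Z₀.I) hL a1 a2
  let R := Bub.rf g.H g.G₀ b.W
  let V := fun n => vv (g.H n).F (g.pW h.x n) b.W (R n) (u n)
  have cR : ∀ a, Cv Z₀.I g.l univ (fun n => R n a) (b.W a) := fun a =>
    ((cv_can (Shi84.fcv hg) isOpen_univ hg.a bu.hm a).add (Cv.fixed' fun x => (bu.hW.cc.sm a x).sub
      ((Spn45.isConn_can bu.hB bu.hG bu.hm).cc.sm a x))).congr' isOpen_univ
      (.of_forall fun _ _ _ => rfl) fun x _ => by abel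
  have o5 : IsOpen (A ∩ {x | ∀ᶠ y in 𝓝 x, χ y = 1}) := a1.inter isOpen_setOfPred_eventually_nhds
  refine ⟨_, o5, fun x hx => ⟨a2 hx, c5 x hx⟩, fun x hx => (a3 hx.1).2, fun n => mix χ (R n) (V n),
    fun a => Cv.of_local fun x _ => ?_, ?_⟩
  · by_cases hx : x ∈ tsupport χ
    · have k := (cR a).mono le_rfl (subset_univ A)
      exact ⟨A, c3 hx, (k.add ((Cv.fixed' c1).smul (((bu.cv_vv a).mono le_rfl a3).sub k))).congr' a1
        (.of_forall fun _ _ _ => rfl) fun _ _ => by simp⟩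
    · exact ⟨_, hx, ((cR a).mono le_rfl (subset_univ _)).congr' (isClosed_tsupport χ).isOpen_compl
        (.of_forall fun _ y hy => (mix_zero hy _ _ a).eq_of_nhds) fun _ _ => rfl⟩
  filter_upwards [a4, bu.ev_vv a1 a5 a4, bu.ok, hg.ev_src o4 o3] with n k1 k2 k3 k4
  have s : A ∩ {x | ∀ᶠ y in 𝓝 x, χ y = 1} ⊆ (g.ψ n).source :=
    inter_subset_left.trans (a5.trans (subset_closure.trans k4))
  have g1 := kg_mono (grel_kg hg.B₀ (hg.H n) (hg.B n) (hg.G n) (hg.grel n)) s o5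
  have p := k.pb n
  have g2 := kg_trans g1 (kg_mono p.kg (subset_univ _) g1.inv.opn')
  have cV := (connOn_mix (O := univ) c1 isOpen_univ a1 (bu.conn_rf k3.1) k2.1
    (fun _ _ => .inl trivial) fun z _ => (em _).imp_left fun h => c3 h).isConn bu.hm
  have m1 := k3.2.1.mono (inter_subset_left.trans a5 : A ∩ {x | ∀ᶠ y in 𝓝 x, χ y = 1} ⊆ O)
  have i1 := k1.mono (inter_subset_left (t := {x | ∀ᶠ y in 𝓝 x, χ y = 1}))
  have l1 := grel_lm hg.B₀ (hg.H n) (hg.B n) (hg.G n) ((hg.grel n).mono o5 s) bu.hm p.lm.ok cV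
    p.lm.cn (i1.symm m1 (OK.on bu.hm _)) (Par0.symm (W' := mix χ (R n) (V n)) (fun x hx a => by
      rw [(mix_one hx.2 _ _ a).eq_of_nhds]; exact k2.2 x hx.1 a) i1.su
      (fun a x _ => p.lm.cn.sk a _) fun a x _ => cV.sk a x)
  exact ⟨_, _, _, _, by rw [image_comp]; exact g2, l1.trans p.lm (mapsTo_univ _ _)⟩

end Crest.Agent.X212.M
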