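import Crest.Agent.X212.Cmp73.Top
import Crest.Agent.X212.Dfl49.Top
import Crest.Agent.X212.Loc66.Kt
import Crest.Agent.X212.Pat85.Vol

/-!
# Row 212, layer M: the level lost at a pinch, the four leaves
-/

set_option autoImplicit false
set_option linter.unusedSectionVars false
noncomputable section
open Set Function Filter Topology MeasureTheory
open scoped ContDiff Manifold NNReal

namespace Crest.Agent.X212.M
open An An.Job Cmp73 Eqv71 Pj41 Cyl58 Cyf70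

section gen
variable (ι lam : Type) [Fintype ι] [Fintype lam]

/-- LEAF BAND: the level of a band `Y × [-a, a]` with flat collars is an integer -/
def BandStmt : Prop := ∀ (Z : Mf 4) (Y : Mf 3) [CompactSpace Y.M] (B : Base Z.M ι lam)
  (G : Geo Z.I Z.M ι lam) (m : Md Z.M ι lam) (W : m.Cn) (ν : Y.M × ℝ → Z.M) (δ a b : ℝ),
  B.OK Z.I → G.OK B → m.OK Z.I B → m.IsConn B G W →
  (∀ q : Y.M × ℝ, |q.2| < δ → IsLocalDiffeomorphAt (IC Y.I) Z.I ∞ ν q) →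
  InjOn ν {q | |q.2| < δ} → Dfl49.Frs Z.I B (ν '' {q | |q.2| < δ}) →
  (∀ s t : ℝ, ∀ q ∈ (univ : Set Y.M) ×ˢ Ioo s t, Dfl49.Sur {q} (univ ×ˢ Ioo s t)) →
  0 < a → a < b → 8 * b < δ → (∀ q : Y.M × ℝ, a < |q.2| → |q.2| < b → m.Fg G.F W (ν q) = 0) →
  ∃ k : ℤ, ∫ x in ν '' {q | |q.2| ≤ a}, m.kd B G.F W x ∂G.F.μ = k

/-- LEAF FLAT: flat connections near a finite set -/
def FlatStmt : Prop := ∀ (Z : Mf 4) (B : Base Z.M ι lam) (m : Md Z.M ι lam) (P : Set Z.M),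
  B.OK Z.I → m.OK Z.I B → P.Finite → ∃ D, IsOpen D ∧ P ⊆ D ∧ ∀ G : Geo Z.I Z.M ι lam, G.OK B →
    ∃ φ : m.Cn, ConnOn B G m φ D ∧ ∀ x ∈ D, m.Fg G.F φ x = 0

/-- LEAF MOD: compactly supported changes of a connection are transported -/
def ModStmt : Prop := ∀ (Z Z' : Mf 4) (B : Base Z.M ι lam) (G : Geo Z.I Z.M ι lam)
  (B' : Base Z'.M ι lam) (G' : Geo Z'.I Z'.M ι lam) (O : Set Z.M) (O' : Set Z'.M)
  (φ : Z.M → Z'.M) (ψ : Z'.M → Z.M) U v (m : Md Z.M ι lam) (m' : Md Z'.M ι lam) (W ξ : m.Cn)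
  (W' : m'.Cn) u (K : Set Z.M), KG B G B' G' O O' φ ψ U v → LM B G B' G' O φ U v W W' u →
  Loc66.Cmt Z.I B m ξ univ → (∀ a x, ξ a x * m.p x = ξ a x) → IsCompact K → K ⊆ O →
  (∀ x ∉ K, ∀ a, ξ a x = 0) → ∃ V' : m'.Cn, (∀ y ∉ φ '' K, ∀ a, V' a =ᶠ[𝓝 y] W' a) ∧
    LM B G B' G' O φ U v (m := m) (fun a x => W a x + ξ a x) V' u

/-- LEAF APX: near a compact set of smooth convergence the members are equivalent to global
connections on the limit module that converge everywhere -/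
def ApxStmt : Prop := ∀ (Z Y Z₀ : Mf 4) (α : Type) (r : ℕ)
  (g : Gs Y.I Z₀.I Z₀.M ι lam fun _ : α => Y.M) (h : Up Z.I (fun _ : α => Z.M) g r)
  (b : Cfg Z₀.M ι lam r) (S : Set Z₀.M) u (L : Set Z₀.M), h.OK → g.Lim h.x b S u → IsCompact L →
  L ⊆ Sᶜ → ∃ A, IsOpen A ∧ L ⊆ A ∧ A ⊆ Sᶜ ∧ ∃ V : α → b.m.Cn,
    (∀ a, Cv Z₀.I g.l univ (fun n => V n a) (b.W a)) ∧ ∀ᶠ n in (g.l : Filter α), ∃ Ψ U v t,
      KG g.B₀ (g.H n) (h.B n) (h.G n) A ((h.φ n ∘ g.ψ n) '' A) (h.φ n ∘ g.ψ n) Ψ U v ∧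
      LM g.B₀ (g.H n) (h.B n) (h.G n) A (h.φ n ∘ g.ψ n) U v (V n) (h.y n).W t

end gen

variable {Wi : Type} {X : Mf 4} {A κ lam : Type} [Fintype A] [Fintype κ] [Fintype lam]
  [DecidableEq lam] {M : Mark X A κ} {W : World M} {N : ML M lam} {Λ : Lns W N} {A' h : Type}
  [Fintype A'] [DecidableEq A'] [Fintype h] {r n : ℕ} (J : Job Wi Λ A' h r n)
  (Adm : (Wi →₀ ℝ) → Prop)

/-- LEAF EST: energies of a pinching band -/
def EstStmt : Prop := AllF J Adm fun _ c c₀ F => ∀ a ∈ c₀.1, a ∉ c.1 → M.pin a →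
  (∀ ε > 0, ∀ᶠ ρ in 𝓝[>] (0 : ℝ), ∀ᶠ i in (F.l : Filter _),
    ∫⁻ z in W.nj c a '' {q | |q.2| ≤ ρ}, ENNReal.ofReal (‖(F.y i).x.m.p2 (J.B c) z
      ((F.y i).x.m.Fg (J.G c (F.y i).s).F (F.y i).x.W z)‖ ^ 2) ∂(J.G c (F.y i).s).F.μ ≤
        ENNReal.ofReal ε) ∧
  ∃ C : ℝ≥0, ∀ᶠ i in (F.l : Filter _), ∫⁻ z in W.nj c a '' {q | |q.2| ≤ 1}, ENNReal.ofReal
    (‖(F.y i).x.m.Fg (J.G c (F.y i).s).F (F.y i).x.W z‖ ^ 2) ∂(J.G c (F.y i).s).F.μ ≤ C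

/-- LEAF GEO: frames and simple connectivity of a pinching band -/
def GeoStmt (W : World M) (Λ : Lns W N) : Prop := ∀ (m c : M.Cl) a, a ∈ M.sys.fr c.1 → M.pin a →
  Dfl49.Frs (W.Z c).I (Λ.B m c) (W.nj c a '' {q | |q.2| < 1}) ∧
  ∀ s t : ℝ, ∀ q ∈ (univ : Set (M.bn a).Y.M) ×ˢ Ioo s t, Dfl49.Sur {q} (univ ×ˢ Ioo s t)

end Crest.Agent.X212.M
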