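import Crest.Agent.X212.M.Lvp
import Crest.Agent.X212.Cmp73.Lv0

/-!
# Row 212, layer M: PINCH and NULL
-/

set_option autoImplicit false
set_option linter.unusedSectionVars false
noncomputable section
open Set Function Filter Topology MeasureTheory
open scoped ContDiff Manifold NNReal

namespace Crest.Agent.X212.M
open An An.Job Cmp73 Eqv71 Pj41 Loc66 Cyl58 Cyf70

variable {Wi : Type} {X : Mf 4} {A κ lam : Type} [Fintype A] [Fintype κ] [Fintype lam]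
  [DecidableEq lam] {M : Mark X A κ} {W : World M} {N : ML M lam} {Λ : Lns W N} {A' h : Type}
  [Fintype A'] [DecidableEq A'] [Fintype h] {r n : ℕ} {J : Job Wi Λ A' h r n}
  {Adm : (Wi →₀ ℝ) → Prop} {α : Type} {c c₀ : M.Cl} {F : Fam J α c c₀} {S : F.Sc} {a : A}

theorem sc_P (k : F.Src S) : S.P = W.nw c c₀ := by
  rcases k with ⟨h'⟩ | ⟨hJ, h, h', k, H, O, hc⟩
  · exact Set.ext fun _ => ⟨fun e => e.elim, fun ⟨a, h1, h2, h3, _⟩ => (h2 (h'.2 a h1 h3)).elim⟩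
  · exact Set.ext fun z => ⟨fun ⟨a, h1, h2, h3, b, e⟩ => ⟨a, h'.1 h1, h2, h3, b,
      (W.up_oe h').inj (e.trans (W.up_β h' (h'.1 h1) h3 b 0).symm)⟩, fun ⟨a, h1, h2, h3, b, e⟩ =>
      ⟨a, h'.2 a h1 h3, h2, h3, b, e ▸ W.up_β h' h1 h3 b 0⟩⟩

theorem nj_oe (ha : a ∈ M.sys.fr c.1) : IsOE (IC (M.bn a).Y.I) (W.Z c).I (W.nj c a) :=
  ⟨fun _ _ e => (M.bn a).oe.inj (caps_inj W.toCaps (j_not_mem_cores ha _) (j_not_mem_cores ha _) e),
    fun _ => W.ld_nj (j_not_mem_cores ha _)⟩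

theorem sc_pw (k : S.OK) (hc : c.1 ⊆ c₀.1) (h1 : a ∈ c₀.1) (h2 : a ∉ c.1) (h3 : M.pin a) :
    Pw (W.β c₀ a) (W.nj c a) (S.j ∘ S.f) := by
  have e : ∀ b y s, 0 < s → (S.j ∘ S.f) (W.β c₀ a b (s • M.th a y)) = W.nj c a (y, pm b * s) :=
    fun b y s hs => by
      rw [W.βφ c₀ a h1 h3 b y s hs]; exact (k.jf.e _ (half_not_mem h1 b y hs)).1
  refine ⟨W.βoe c₀ a h1 h3, fun _ _ _ _ e => (caps_disj W.toCaps h1 h3 h1 h3 e).2,
    nj_oe (Mark.mem_fr hc h1 h2), fun b v hv => ?_, fun q hq => ?_⟩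
  · obtain ⟨y, hy⟩ := rnd_exists (M.rnd a h3) hv
    exact ⟨(y, pm b * ‖v‖), by rw [abs_mul, abs_pm, one_mul, abs_norm],
      by rw [← e b y _ (norm_pos_iff.2 hv), hy]⟩
  · obtain ⟨b, hb⟩ : ∃ b, pm b * |q.2| = q.2 := (abs_cases q.2).elim
      (fun h => ⟨true, by simp [pm, h.1]⟩) fun h => ⟨false, by simp [pm, h.1]⟩
    exact ⟨b, |q.2| • M.th a q.1, by rw [norm_smul, (M.rnd a h3).nrm, mul_one, Real.norm_eq_abs, abs_abs],
      by rw [e b q.1 _ (abs_pos.2 hq), hb]⟩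

variable (J Adm)

/-- **NULL** -/
theorem null : NULL J Adm := fun _ c c₀ _ k S hS s => by
  refine measure_mono_null (t := (⋃ a : {a // a ∈ c₀.1 ∧ a ∉ c.1}, range fun y => W.nj c a (y, 0)) ∪
    ⋃ p : A × Bool, range fun _ : (M.bn p.1).Y.M => W.β c p.1 p.2 0) (fun z hz => ?_)
    (measure_union_null (measure_iUnion_null fun a => null_image _
      ((nj_oe (Mark.mem_fr k.sub a.2.1 a.2.2)).contMDiff.comp (contMDiff_id.prodMk contMDiff_const)))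
      (measure_iUnion_null fun p => null_image _ contMDiff_const))
  rcases caps_surj W.toCaps z with ⟨x, h1, rfl⟩ | ⟨a, -, h2, b, rfl⟩
  · obtain ⟨a, ha, y, rfl⟩ := mem_cores.1 (by_contra fun e => hz ⟨_, (hS.jf.e x e).2, (hS.jf.e x e).1⟩)
    exact .inl (mem_iUnion.2 ⟨⟨a, ha, fun e => h1 ((j_mem_cores e).2 rfl)⟩, y, rfl⟩)
  · exact .inr (mem_iUnion.2 ⟨(a, b), (M.bn a).con.toNonempty.some, rfl⟩)

variable {J Adm}

/-- **PINCH** -/
theorem pinch (hb : BandStmt (Option κ) (lam ⊕ lam)) (hf : FlatStmt (Option κ) (lam ⊕ lam))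
    (hm : ModStmt (Option κ) (lam ⊕ lam)) (he : EstStmt J Adm) (hg : GeoStmt W Λ) :
    PINCH J Adm := fun α c c₀ F k S hS b u hl N hN => by
  let T := {a // a ∈ c₀.1 ∧ a ∉ c.1 ∧ M.pin a}
  have : Fintype T := .ofFinite _
  have w := fun a : T => sc_pw hS k.sub a.2.1 a.2.2.1 a.2.2.2
  have fr := fun a : T => Mark.mem_fr k.sub a.2.1 a.2.2.1
  have eP := sc_P hS.src
  have mP : ∀ (a : T) e, W.β c₀ a e 0 ∈ S.P := fun a e => eP ▸ ⟨a, a.2.1, a.2.2.1, a.2.2.2, e, rfl⟩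
  have L := fun a : T => have g := hg J.m c a (fr a) a.2.2.2
    have e := he α c c₀ F k a a.2.1 a.2.2.1 a.2.2.2
    (((w a).lim hb hm g.2 hf (h := S.up) hS.up hl.lb.lim (fun _ => rfl) (fun _ => g.1) (e.1 1 one_pos)
      e.2.choose_spec).and (nhdsWithin_le_nhds (((w a).ev fun e =>
        mem_nhdsSet_iff_forall.1 hN _ (mP a e)).and ((w a).ev_S hl.lb.lim.fin))))
  obtain ⟨ρ, h1, r0⟩ := ((eventually_all.2 L).and self_mem_nhdsWithin).exists
  choose m hm using fun a => (h1 a).1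
  have K := fun a : T => (w a).cp_sh (I := Iic ρ) isClosed_Iic subset_rfl
  have e1 : (⋃ a : T, Sh (W.β c₀ a) (Iic ρ)) \ S.P = ⋃ a : T, Sh (W.β c₀ a) (Iic ρ \ Iic 0) := by
    refine Subset.antisymm (fun x hx => ?_) (iUnion_subset fun a x hx => ?_)
    · obtain ⟨a, ha⟩ := mem_iUnion.1 hx.1
      obtain ⟨e, v, hv, rfl⟩ := of_sh ha
      exact mem_iUnion.2 ⟨a, (w a).mem_sh.2 ⟨hv, fun k => hx.2 (norm_le_zero_iff.1 k ▸ mP a e)⟩⟩
    · refine ⟨mem_iUnion.2 ⟨a, sh_mono sdiff_subset hx⟩, fun hP => ?_⟩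
      obtain ⟨e, v, hv, rfl⟩ := of_sh hx
      obtain ⟨a', h1, -, h3, e', k⟩ := eP.subset hP
      obtain ⟨rfl, rfl⟩ := caps_disj W.toCaps a.2.1 a.2.2.2 h1 h3 k
      exact hv.2 (by simp [((w a).oe e).inj k])
  refine ⟨_, isCompact_iUnion K, mem_nhdsSet_iff_forall.2 fun x hx => ?_,
    iUnion_subset fun a => (h1 a).2.1, fun x hx => ?_, ∑ a, m a, ?_⟩
  · obtain ⟨a, h1, h2, h3, e, rfl⟩ := eP.subset hx
    exact mem_of_superset ((w ⟨a, h1, h2, h3⟩).nhds e r0) (subset_iUnion (fun a : T =>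
      Sh (W.β c₀ a) (Iic ρ)) ⟨a, h1, h2, h3⟩)
  · obtain ⟨a, ha⟩ := mem_iUnion.1 hx.1
    obtain ⟨e, v, hv, rfl⟩ := of_sh ((h1 a).2.2 ⟨ha, hx.2⟩)
    exact norm_le_zero_iff.1 hv ▸ mP a e
  rw [integral_iUnion_fintype (f := F.kd b) (fun a => (K a).measurableSet) (fun a a' e => disjoint_left.2
    fun x h1 h2 => e ?_) fun a => (sm_kd hS.up.bk.ok.B₀ hS.up.bk.ok.G₀ hl.lb.lim.adm.ok
      hl.lb.lim.adm.conn).continuous.continuousOn.integrableOn_compact (K a), Nat.cast_sum,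
    ← Finset.sum_add_distrib]
  · refine (tendsto_finsetSum _ fun a _ => hm a).congr fun i => ?_
    have l := (hS.up.pb i).lm
    rw [e1, image_iUnion, Obc.kap, iUnion_congr fun a => ((w a).img (I := Iic ρ \ Iic 0)
      fun k => k.2 self_mem_Iic).trans (w a).sl_diff, integral_iUnion_fintype (f := (F.y i).kd) (fun a => ((w a).cp_sl _).measurableSet.diff
        ((w a).cp_sl _).measurableSet) (fun a a' e => disjoint_left.2 fun x h1 h2 => e ?_) fun a =>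
      ((sm_kd l.hB' l.hG' l.ok' l.cn').continuous.continuousOn.integrableOn_compact
        ((w a).cp_sl _)).mono_set sdiff_subset]
    · exact Finset.sum_congr rfl fun a _ =>
        (setIntegral_congr_set (sdiff_null_ae_eq_self ((w a).null _))).symm
    · obtain ⟨⟨q, -, rfl⟩, -⟩ := h1
      obtain ⟨⟨q', -, k⟩, -⟩ := h2
      exact Subtype.ext (band_eq a.2.1 a'.2.1 (caps_inj W.toCaps (j_not_mem_cores (fr a) _)
        (j_not_mem_cores (fr a') _) k.symm))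
  · obtain ⟨_, _, -, rfl⟩ := of_sh h1
    obtain ⟨_, _, -, k⟩ := of_sh h2
    exact Subtype.ext (caps_disj W.toCaps a.2.1 a.2.2.2 a'.2.1 a'.2.2.2 k.symm).1

end Crest.Agent.X212.M
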