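import Crest.Agent.X212.M.Lva
import Crest.Agent.X212.Line51.Ms

/-!
# Row 212, layer M: the level lost at one pinching band
-/

set_option autoImplicit false
set_option linter.unusedSectionVars false
noncomputable section
open Set Function Filter Topology MeasureTheory
open scoped ContDiff Manifold NNReal

namespace Crest.Agent.X212.M
open An Cmp73 Eqv71 Pj41 Loc66 Cyl58 Cyf70

/-- smooth images of manifolds of smaller dimension are null -/
theorem null_image {Z : Mf 4} {Y : Mf 3} {ι : Type} [Fintype ι] (F : Pre Z.I Z.M ι) {f : Y.M → Z.M}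
    (hf : ContMDiff Y.I Z.I ∞ f) : F.μ (range f) = 0 := by
  refine measure_null_of_locally_null _ fun x _ => ?_
  obtain ⟨O, ρ, ⟨h1, h2, h3, h4⟩, -⟩ := F.dens x
  refine ⟨_, inter_mem_nhdsWithin _ (h1.mem_nhds h2), ?_⟩
  have k : leb Z.E ((extChartAt Z.I x ∘ f) '' (f ⁻¹' O)) = 0 := by
    refine measure_zero_of_dimH_lt (d := ((Module.finrank ℝ Z.E : ℕ) : ℝ≥0)) ?_
      ((Line51.dimH_image_le_mf (I := Y.I) fun y hy => (contMDiffAt_extChartAt' (by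
        simpa using h3 hy)).comp y (hf y)).trans_lt (by rw [Y.dim, Z.dim]; norm_cast))
    rw [NNReal.coe_natCast, leb]
    exact Measure.absolutelyContinuous_isAddHaarMeasure _ _
  have k' := ((withDensity_absolutelyContinuous _ fun y => ENNReal.ofReal (ρ y)).trans
    (Measure.absolutelyContinuous_of_le (Measure.restrict_le_self
      (s := extChartAt Z.I x '' O)))) k
  rw [← h4] at k'
  rw [← Measure.restrict_apply' h1.measurableSet]
  refine le_zero_iff.1 ?_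
  rw [← k', Measure.restrict_apply' h1.measurableSet]
  refine le_trans ?_ (Measure.le_map_apply (((continuousOn_extChartAt x).mono h3).aemeasurable
    h1.measurableSet) _)
  rw [Measure.restrict_apply' h1.measurableSet]
  exact measure_mono fun _ ⟨⟨y, e⟩, k⟩ => ⟨⟨y, show f y ∈ O from e ▸ k, congrArg _ e⟩, k⟩

variable {Z Z₀ : Mf 4} {Y : Mf 3} [CompactSpace Y.M] {ι lam : Type} [Fintype ι] [Fintype lam]

/-- the shells of two balls -/
def Sh (β : Bool → V4 → Z₀.M) (I : Set ℝ) : Set Z₀.M := ⋃ b, β b '' {v | ‖v‖ ∈ I}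

/-- the slabs of a band -/
def Sl (ν : Y.M × ℝ → Z.M) (I : Set ℝ) : Set Z.M := ν '' {q | |q.2| ∈ I}

/-- two balls whose punctured parts are the halves of a band -/
structure Pw (β : Bool → V4 → Z₀.M) (ν : Y.M × ℝ → Z.M) (Φ : Z₀.M → Z.M) : Prop where
  oe : ∀ b, IsOE 𝓘(ℝ, V4) Z₀.I (β b)
  dj : ∀ b b' v w, β b v = β b' w → b = b'
  oν : IsOE (IC Y.I) Z.I ν
  p1 : ∀ b v, v ≠ 0 → ∃ q, |q.2| = ‖v‖ ∧ Φ (β b v) = ν q
  p2 : ∀ q, q.2 ≠ 0 → ∃ b v, ‖v‖ = |q.2| ∧ Φ (β b v) = ν q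

variable {β : Bool → V4 → Z₀.M} {ν : Y.M × ℝ → Z.M} {Φ : Z₀.M → Z.M} {I I' : Set ℝ} {r : ℝ}

theorem sh_mono (h : I ⊆ I') : Sh β I ⊆ Sh β I' := iUnion_mono fun _ => image_mono fun _ k => h k

theorem sl_mono (h : I ⊆ I') : Sl ν I ⊆ Sl ν I' := image_mono fun _ k => h k

theorem of_sh {x : Z₀.M} (h : x ∈ Sh β I) : ∃ b v, ‖v‖ ∈ I ∧ β b v = x :=
  let ⟨b, v, k⟩ := mem_iUnion.1 h; ⟨b, v, k⟩

theorem kd_bd {B : Base Z.M ι lam} {G : Geo Z.I Z.M ι lam} {m : Md Z.M ι lam} {W : m.Cn}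
    (hB : B.OK Z.I) (hG : G.OK B) (ok : m.OK Z.I B) (cn : m.IsConn B G W) {K : Set Z.M}
    (hK : IsCompact K) {C : ℝ≥0}
    (h1 : ∫⁻ z in K, ENNReal.ofReal (‖m.p2 B z (m.Fg G.F W z)‖ ^ 2) ∂G.F.μ ≤ ENNReal.ofReal 1)
    (h2 : ∫⁻ z in K, ENNReal.ofReal (‖m.Fg G.F W z‖ ^ 2) ∂G.F.μ ≤ C) :
    -(1 / 2) ≤ ∫ z in K, m.kd B G.F W z ∂G.F.μ ∧ ∫ z in K, m.kd B G.F W z ∂G.F.μ ≤ C := by
  have s := Mp86.sm_Fg hB hG ok cn
  have i1 : IntegrableOn (fun z => ‖m.p2 B z (m.Fg G.F W z)‖ ^ 2) K G.F.μ :=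
    (((Std94.sm_p2 hB ok).clm_apply s).continuous.norm.pow 2).continuousOn.integrableOn_compact hK
  have i2 : IntegrableOn (fun z => ‖m.Fg G.F W z‖ ^ 2) K G.F.μ :=
    (s.continuous.norm.pow 2).continuousOn.integrableOn_compact hK
  have i3 := (sm_kd hB hG ok cn).continuous.continuousOn.integrableOn_compact (μ := G.F.μ) hK
  rw [← ofReal_integral_eq_lintegral_ofReal i1 (.of_forall fun x => by positivity),
    ENNReal.ofReal_le_ofReal_iff zero_le_one] at h1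
  rw [← ofReal_integral_eq_lintegral_ofReal i2 (.of_forall fun x => by positivity),
    ENNReal.ofReal_le_coe] at h2
  have e := setIntegral_congr_fun (μ := G.F.μ) hK.measurableSet fun x (_ : x ∈ K) =>
    norm_Fg_on hB hG isOpen_univ (IsConn.on cn _) (mem_univ x)
  rw [integral_add (i1.const_mul _) (i3.const_mul _), integral_const_mul, integral_const_mul] at e
  have n1 : 0 ≤ ∫ z in K, ‖m.p2 B z (m.Fg G.F W z)‖ ^ 2 ∂G.F.μ := integral_nonneg fun _ => by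
    positivity
  have n2 : 0 ≤ ∫ z in K, ‖m.Fg G.F W z‖ ^ 2 ∂G.F.μ := integral_nonneg fun _ => by positivity
  have p : 4 ≤ 128 * Real.pi ^ 2 := by nlinarith [Real.pi_gt_three]
  constructor <;> nlinarith [C.2]

namespace Pw
variable (w : Pw β ν Φ)
include w

theorem mem_sh {b : Bool} {v : V4} : β b v ∈ Sh β I ↔ ‖v‖ ∈ I :=
  ⟨fun h => by
    obtain ⟨b', v', k, e⟩ := of_sh h
    obtain rfl := w.dj _ _ _ _ e
    exact (w.oe _).inj e ▸ k, fun h => mem_iUnion.2 ⟨b, v, h, rfl⟩⟩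

theorem mem_sl {q : Y.M × ℝ} : ν q ∈ Sl ν I ↔ |q.2| ∈ I := w.oν.inj.mem_set_image

theorem sh_diff : Sh β (I \ I') = Sh β I \ Sh β I' := Subset.antisymm
  (fun _ h => let ⟨_, _, k, e⟩ := of_sh h; e ▸ ⟨w.mem_sh.2 k.1, mt w.mem_sh.1 k.2⟩)
  fun _ h => let ⟨_, _, k, e⟩ := of_sh h.1; e ▸ w.mem_sh.2 ⟨k, fun k' => h.2 (e ▸ w.mem_sh.2 k')⟩

theorem sl_diff : Sl ν (I \ I') = Sl ν I \ Sl ν I' := image_diff w.oν.inj _ _

theorem img (h : 0 ∉ I) : Φ '' Sh β I = Sl ν I := by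
  refine Subset.antisymm (forall_mem_image.2 fun x hx => ?_) (forall_mem_image.2 fun q hq => ?_)
  · obtain ⟨b, v, k, rfl⟩ := of_sh hx
    obtain ⟨q, e, e'⟩ := w.p1 b v (by rintro rfl; exact h (norm_zero (E := V4) ▸ k))
    exact ⟨q, show |q.2| ∈ I from e ▸ k, e'.symm⟩
  · obtain ⟨b, v, e, e'⟩ := w.p2 q fun e => h (by simpa [e] using hq)
    exact ⟨_, w.mem_sh.2 (e ▸ hq), e'⟩

theorem op_sh (h : IsOpen I) : IsOpen (Sh β I) :=
  isOpen_iUnion fun b => (w.oe b).isOpen_image (h.preimage continuous_norm)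

theorem cp_b (h : IsClosed I) (hr : I ⊆ Iic r) (b : Bool) : IsCompact (β b '' {v | ‖v‖ ∈ I}) :=
  ((isCompact_closedBall 0 r).of_isClosed_subset (h.preimage continuous_norm) fun _ k =>
    mem_closedBall_zero_iff.2 (hr k)).image (w.oe b).continuous

theorem cp_sh (h : IsClosed I) (hr : I ⊆ Iic r) : IsCompact (Sh β I) :=
  isCompact_iUnion (w.cp_b h hr)

theorem cp_sl (r : ℝ) : IsCompact (Sl ν (Iic r)) :=
  ((isCompact_univ.prod (isCompact_Icc (a := -r) (b := r))).of_isClosed_subset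
    (isClosed_Iic.preimage continuous_snd.abs) fun _ k => ⟨trivial, abs_le.1 k⟩).image
    w.oν.continuous

theorem null (F : Pre Z.I Z.M ι) : F.μ (Sl ν (Iic 0)) = 0 :=
  measure_mono_null (t := range fun y => ν (y, 0))
    (forall_mem_image.2 fun q hq => ⟨q.1, by rw [← abs_nonpos_iff.1 hq]⟩)
    (null_image F (w.oν.contMDiff.comp (contMDiff_id.prodMk contMDiff_const)))

theorem nhds (b : Bool) (hr : 0 < r) : Sh β (Iic r) ∈ 𝓝 (β b 0) :=
  mem_of_superset ((w.op_sh isOpen_Iio).mem_nhds (w.mem_sh.2 (by simpa using hr)))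
    (sh_mono Iio_subset_Iic_self)

theorem ev {N : Set Z₀.M} (hN : ∀ b, N ∈ 𝓝 (β b 0)) : ∀ᶠ r in 𝓝 (0 : ℝ), Sh β (Iic r) ⊆ N := by
  simp only [Sh, iUnion_subset_iff, eventually_all, image_subset_iff]
  intro b
  obtain ⟨ε, h1, h2⟩ := Metric.mem_nhds_iff.1 ((w.oe b).continuous.continuousAt (hN b))
  exact (gt_mem_nhds h1).mono fun r hr v hv => h2 (mem_ball_zero_iff.2 (lt_of_le_of_lt hv hr))

theorem ev_S {S : Set Z₀.M} (hS : ∀ K, IsCompact K → (S ∩ K).Finite) :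
    ∀ᶠ r in 𝓝 (0 : ℝ), Sh β (Iic r) ∩ S ⊆ Sh β (Iic 0) := by
  have f := (hS _ (w.cp_sh isClosed_Iic (subset_refl (Iic 1)))).subset
    (sdiff_subset (t := Sh β (Iic 0)))
  exact (w.ev fun b => inter_mem (w.nhds b one_pos) (f.isClosed.isOpen_compl.mem_nhds fun k =>
    k.2 (w.mem_sh.2 (by simp)))).mono fun r hr x hx => by_contra fun k =>
      (hr hx.1).2 ⟨⟨hx.2, (hr hx.1).1⟩, k⟩

theorem small (F : Pre Z₀.I Z₀.M ι) {f : Z₀.M → ℝ} (hf : Continuous f) :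
    ∀ᶠ r in 𝓝 (0 : ℝ), ∫ x in Sh β (Iic r), f x ∂F.μ ≤ 1 / 4 := by
  obtain ⟨D, hD⟩ := (w.cp_sh (I := Iic 1) isClosed_Iic subset_rfl).exists_bound_of_continuousOn
    hf.continuousOn
  have D0 : 0 < |D| + 1 := by positivity
  choose K k1 k2 k3 k4 using fun b => small_nhds Z₀.dim F (β b 0) (w.nhds b one_pos)
    (div_pos (by norm_num : (0 : ℝ) < 1 / 8) D0)
  refine (w.ev fun b => mem_of_superset (k1 b) (subset_iUnion K b)).mono fun r hr => ?_
  have c := isCompact_iUnion k3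
  have e := (le_abs_self _).trans (norm_setIntegral_le_of_norm_le_const (μ := F.μ)
    ((measure_mono hr).trans_lt c.measure_lt_top) fun x hx =>
      (hD x (iUnion_subset k2 (hr hx))).trans ((le_abs_self D).trans (lt_add_one _).le))
  have e' := (measureReal_mono (μ := F.μ) hr c.measure_lt_top.ne).trans (measureReal_iUnion_fintype_le K)
  have := k4 true
  have := k4 false
  simp only [lt_div_iff₀ D0, Fintype.sum_bool] at *
  nlinarith

variable (hb : BandStmt ι lam) (hm : ModStmt ι lam)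
  (hs : ∀ s t : ℝ, ∀ q ∈ (univ : Set Y.M) ×ˢ Ioo s t, Dfl49.Sur {q} (univ ×ˢ Ioo s t))
include hb hm hs

/-- the level of a thin band is the level of the two balls up to an integer -/
theorem one {B₀ : Base Z₀.M ι lam} {H : Geo Z₀.I Z₀.M ι lam} {B : Base Z.M ι lam}
    {G : Geo Z.I Z.M ι lam} {A D : Set Z₀.M} {Ψ U v} {m₀ : Md Z₀.M ι lam} {m : Md Z.M ι lam}
    {V φ : m₀.Cn} {W : m.Cn} {t} (g : KG B₀ H B G A (Φ '' A) Φ Ψ U v)
    (l : LM B₀ H B G A Φ U v V W t) (hF : Dfl49.Frs Z.I B (ν '' {q | |q.2| < 1}))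
    (c : ConnOn B₀ H m₀ φ D) (f : ∀ x ∈ D, m₀.Fg H.F φ x = 0) (r0 : 0 < r) (r1 : 24 * r < 1)
    (hA : Sh β (Icc r (4 * r)) ⊆ A) (hD' : Sh β (Iic (4 * r)) ⊆ D) :
    ∃ k : ℤ, ∫ z in Sl ν (Iic r), m.kd B G.F W z ∂G.F.μ -
      ∫ x in Sh β (Iic r), m₀.kd B₀ H.F V x ∂H.F.μ = k := by
  obtain ⟨χ, c1, c2, c3, -, c5⟩ := Met55.exists_cut (I := Z₀.I) (O := Sh β (Ioo r (4 * r)))
    (w.cp_sh (I := Icc (2 * r) (3 * r)) isClosed_Icc Icc_subset_Iic_self) (w.op_sh isOpen_Ioo)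
    (sh_mono fun s hs => ⟨by linarith [hs.1], by linarith [hs.2]⟩)
  have sD : tsupport χ ⊆ D := c3.trans ((sh_mono fun s hs => hs.2.le).trans hD')
  have sA : tsupport χ ⊆ A := c3.trans ((sh_mono Ioo_subset_Icc_self).trans hA)
  have k0 := (cmt_sub (IsConn.on l.cn D) c).mul_p (OK.on l.ok D)
  let ξ : m₀.Cn := fun a x => χ x • ((φ a x - V a x) * m₀.p x)
  have z0 : ∀ x ∉ tsupport χ, ∀ a, ξ a x = 0 := fun x hx a => by
    simp only [ξ, image_eq_zero_of_notMem_tsupport hx, zero_smul]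
  have cs : ∀ {P : Z₀.M → Prop}, (∀ x ∈ D, P x) → (∀ x, χ x = 0 → P x) → ∀ x ∈ univ, P x :=
    fun a b x _ => (em _).elim (fun k => a x (sD k)) fun k => b x (image_eq_zero_of_notMem_tsupport k)
  have k1 : Cmt Z₀.I B₀ m₀ ξ univ := ⟨fun a x _ => Met55.sm_cut c1 sD (k0.sm a) x,
    fun a => cs (fun x hx => by
      simp only [ξ, smul_comm (B₀.P a _ x), ← Finset.smul_sum, k0.proj a x hx]) fun x hx => by
      simp [ξ, hx],
    fun a => cs (fun x hx => (k0.p a x hx).smul_left _) fun x hx => by simp [ξ, hx],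
    fun a b => cs (fun x hx => (k0.ρ a b x hx).smul_left _) fun x hx => by simp [ξ, hx],
    fun a => cs (fun x hx v w => by
      simp only [ξ, smul_apply, real_inner_smul_left, real_inner_smul_right, k0.sk a x hx v w]
      ring) fun x hx v w => by simp [ξ, hx],
    fun a => cs (fun x hx => (k0.J a x hx).smul_left _) fun x hx => by simp [ξ, hx],
    fun a => cs (fun x hx s => (k0.j a x hx s).smul_left _) fun x hx s => by simp [ξ, hx]⟩
  obtain ⟨W', e1, l'⟩ := hm _ _ _ _ _ _ _ _ _ _ _ _ _ _ V ξ W t _ g l k1 (fun a x => by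
    simp only [ξ, smul_mul_assoc, mul_assoc, l.ok.pidem]) c2 sA z0
  have o3 : IsOpen (Sh β (Ioo (2 * r) (3 * r))) := w.op_sh isOpen_Ioo
  have s3 : Sh β (Ioo (2 * r) (3 * r)) ⊆ D :=
    (sh_mono fun s hs => mem_Iic.2 (by linarith [hs.2])).trans hD'
  have p3 : Par0 H.F φ (fun a x => V a x + ξ a x) (Sh β (Ioo (2 * r) (3 * r))) m₀.p :=
    fun x hx a => by
      have e : χ x = 1 := (c5 x (sh_mono Ioo_subset_Icc_self hx)).eq_of_nhds
      rw [← c.par a x (s3 hx)]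
      simp only [ξ, e, one_smul, ← ContinuousLinearMap.mul_def, add_mul, mul_assoc, l.ok.pidem,
        sub_mul]
      abel
  obtain ⟨k, hk⟩ := hb Z Y B G m W' ν 1 (2 * r) (3 * r) l.hB' l.hG' l.ok' l'.cn'
    (fun q _ => w.oν.loc q) w.oν.inj.injOn hF hs (by positivity) (by linarith) (by linarith)
    fun q h1 h2 => by
      obtain ⟨b, v, e, e'⟩ := w.p2 q fun e => by rw [e, abs_zero] at h1; linarith
      have hx : β b v ∈ Sh β (Ioo (2 * r) (3 * r)) := w.mem_sh.2 (e ▸ ⟨h1, h2⟩)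
      have : m₀.Fg H.F (fun a x => V a x + ξ a x) (β b v) = 0 := PiLp.ext fun s => by
        rw [Fg_loc (Iso0.refl (OK.on l.ok _)) o3 (OK.on l.ok _) (OK.on l.ok _)
          (fun a => c.sm a _ (s3 hx)) (fun a => l'.cn.cc.sm a _) p3 hx, f _ (s3 hx)]
        simp
      rw [← e', l'.Fg (hA (sh_mono (Ioo_subset_Icc_self.trans (Icc_subset_Icc (by linarith)
        (by linarith))) hx)), this, map_zero]
  have hj : ∀ b, ∃ j : ℤ, ∫ x in β b '' {v | ‖v‖ ∈ Iic (2 * r)},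
      m₀.kd B₀ H.F (fun a x => V a x + ξ a x) x ∂H.F.μ = j := fun b => by
    have s4 : Sh β (Iio (3 * r)) ⊆ D := (sh_mono fun s hs => mem_Iic.2 (by
      linarith [mem_Iio.1 hs])).trans hD'
    have s5 : MapsTo (β b) {v | ‖v‖ ∈ Iic (2 * r)} (β b '' {v | ‖v‖ ∈ Iio (3 * r)}) :=
      fun v (hv : ‖v‖ ≤ _) => ⟨v, show ‖v‖ < 3 * r by linarith, rfl⟩
    have s6 : β b '' {v | ‖v‖ ∈ Iio (3 * r)} ⊆ D := (subset_iUnion _ b).trans s4
    obtain ⟨j, hj⟩ := locint kt (ψ := β b) ⟨fun y _ => (w.oe b).loc y, (w.oe b).inj.injOn⟩ l.hB l.hG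
      (K := {v | ‖v‖ ∈ Iic (2 * r)}) ((isCompact_closedBall 0 (2 * r)).of_isClosed_subset
        (isClosed_Iic.preimage continuous_norm) fun _ k => mem_closedBall_zero_iff.2 k)
      (fun v (hv : ‖v‖ ≤ _) => mem_ball_zero_iff.2 (by linarith))
      ((w.oe b).isOpen_image (isOpen_Iio.preimage continuous_norm)) s5 (OK.on l.ok _)
      (OK.on l.ok _) (c.mono s6) (IsConn.on l'.cn _) (Iso0.refl (OK.on l.ok _)) fun x hx => by
        obtain ⟨⟨v, hv, rfl⟩, h2⟩ := hx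
        exact p3 _ (w.mem_sh.2 ⟨not_le.1 fun k => h2 ⟨v, k, rfl⟩, hv⟩)
    rw [setIntegral_eq_zero_of_forall_eq_zero fun x hx => by
      rw [Md.kd, f x (s6 (s5.image_subset hx))]; simp] at hj
    exact ⟨-j, by push_cast; linarith⟩
  choose j hj using hj
  have i0 := (sm_kd l.hB l.hG l.ok l'.cn).continuous
  have i1 := (sm_kd l.hB' l.hG' l.ok' l'.cn').continuous
  have K1 := w.cp_sh (I := Iic r) isClosed_Iic subset_rfl
  have K2 := w.cp_sh (I := Iic (2 * r)) isClosed_Iic subset_rfl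
  have le : Iic r ⊆ Iic (2 * r) := Iic_subset_Iic.2 (by linarith)
  have s7 : Sh β (Iic (2 * r) \ Iic r) ⊆ A := subset_trans (sh_mono fun s hs =>
    mem_Icc.2 ⟨(not_le.1 hs.2).le, by linarith [mem_Iic.1 hs.1]⟩) hA
  have a1 := kg_int g s7
    (w.sh_diff ▸ K2.measurableSet.diff K1.measurableSet) (by
      rw [w.img fun k => k.2 r0.le, w.sl_diff]
      exact (w.cp_sl _).measurableSet.diff (w.cp_sl _).measurableSet) (m.kd B G.F W')
  rw [setIntegral_congr_fun (w.sh_diff ▸ K2.measurableSet.diff K1.measurableSet)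
      fun x hx => l'.kd (s7 hx),
    w.img fun k => k.2 r0.le, w.sl_diff, w.sh_diff, setIntegral_sdiff (w.cp_sl _).measurableSet
      (i1.continuousOn.integrableOn_compact (w.cp_sl _)) (sl_mono le),
    setIntegral_sdiff K1.measurableSet (i0.continuousOn.integrableOn_compact K2) (sh_mono le),
    setIntegral_congr_fun (w.cp_sl r).measurableSet (g := m.kd B G.F W) fun z hz =>
      kd_congr (e1 z fun k => ?_),
    setIntegral_congr_fun K1.measurableSet (g := m₀.kd B₀ H.F V) fun x hx => kd_congr fun a => ?_,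
    Sh, integral_iUnion_fintype (fun b => (w.cp_b isClosed_Iic subset_rfl b).measurableSet)
      (fun b b' e => disjoint_left.2 fun _ ⟨_, _, k⟩ ⟨_, _, k'⟩ => e (w.dj _ _ _ _ (k.trans k'.symm)))
      fun b => i0.continuousOn.integrableOn_compact (w.cp_b isClosed_Iic subset_rfl b)] at a1
  · refine ⟨k - ∑ b, j b, ?_⟩
    simp only [hj] at a1
    push_cast
    linarith [show ∫ z in Sl ν (Iic (2 * r)), m.kd B G.F W' z ∂G.F.μ = k from hk]
  · obtain ⟨b, v, h1, rfl⟩ := of_sh hx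
    have : β b v ∉ tsupport χ := fun k => (w.mem_sh.1 (c3 k)).1.not_ge h1
    exact ((isClosed_tsupport χ).isOpen_compl.eventually_mem this).mono fun y hy => by
      simp only [z0 y hy, add_zero]
  · obtain ⟨q, h1, rfl⟩ := hz
    exact (w.mem_sl.1 ((w.img fun k => r0.not_gt k.1).subset (image_mono c3 k))).1.not_ge h1

/-- **the level lost at a pinching band** -/
theorem lim (hf : FlatStmt ι lam) {Y₁ : Mf 4} {α : Type} {n : ℕ}
    {g : Gs Y₁.I Z₀.I Z₀.M ι lam fun _ : α => Y₁.M} {h : Up Z.I (fun _ : α => Z.M) g n}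
    {b : Cfg Z₀.M ι lam n} {S : Set Z₀.M} {u} (k : h.OK) (hl : g.Lim h.x b S u)
    (hΦ : ∀ i, h.φ i ∘ g.ψ i = Φ) (hF : ∀ i, Dfl49.Frs Z.I (h.B i) (ν '' {q | |q.2| < 1}))
    (e1 : ∀ᶠ ρ in 𝓝[>] (0 : ℝ), ∀ᶠ i in (g.l : Filter α), ∫⁻ z in Sl ν (Iic ρ), ENNReal.ofReal
      (‖(h.y i).m.p2 (h.B i) z ((h.y i).m.Fg (h.G i).F (h.y i).W z)‖ ^ 2) ∂(h.G i).F.μ ≤
        ENNReal.ofReal 1) {C : ℝ≥0} (e2 : ∀ᶠ i in (g.l : Filter α), ∫⁻ z in Sl ν (Iic 1),
      ENNReal.ofReal (‖(h.y i).m.Fg (h.G i).F (h.y i).W z‖ ^ 2) ∂(h.G i).F.μ ≤ C) :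
    ∀ᶠ ρ in 𝓝[>] (0 : ℝ), ∃ m : ℕ, Tendsto (fun i => ∫ z in Sl ν (Iic ρ),
      (h.y i).m.kd (h.B i) (h.G i).F (h.y i).W z ∂(h.G i).F.μ) g.l
      (𝓝 (∫ x in Sh β (Iic ρ), b.m.kd g.B₀ g.G₀.F b.W x ∂g.G₀.F.μ + m)) := by
  have hg := k.bk.ok
  obtain ⟨D, d1, d2, d3⟩ := hf Z₀ g.B₀ b.m _ hg.B₀ hl.adm.ok (finite_range fun b => β b 0)
  have t : Tendsto (fun r : ℝ => 4 * r) (𝓝[>] 0) (𝓝 0) :=
    ((continuous_const.mul continuous_id).tendsto' _ _ (by simp)).mono_left nhdsWithin_le_nhds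
  filter_upwards [t.eventually ((w.ev fun b => d1.mem_nhds (d2 ⟨b, rfl⟩)).and (w.ev_S hl.fin)), e1,
    nhdsWithin_le_nhds (w.small g.G₀.F.toPre (sm_kd hg.B₀ hg.G₀ hl.adm.ok hl.adm.conn).continuous),
    Ioo_mem_nhdsGT (by norm_num : (0 : ℝ) < 1 / 24)] with ρ ⟨h1, h2⟩ h3 h4 ⟨r0, r1⟩
  obtain ⟨A, -, a2, -, V, cV, hV⟩ := apx ι lam Z Y₁ Z₀ α n g h b S u _ k hl
    (w.cp_sh (I := Icc ρ (4 * ρ)) isClosed_Icc Icc_subset_Iic_self) fun x hx e => by
      obtain ⟨c, v, k, rfl⟩ := of_sh hx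
      exact (r0.trans_le k.1).not_ge (w.mem_sh.1 (h2 ⟨w.mem_sh.2 k.2, e⟩))
  have K1 := w.cp_sh (I := Iic ρ) isClosed_Iic subset_rfl
  obtain ⟨j, hj⟩ : ∃ j : α → ℤ, ∀ᶠ i in (g.l : Filter α), ∫ z in Sl ν (Iic ρ),
      (h.y i).m.kd (h.B i) (h.G i).F (h.y i).W z ∂(h.G i).F.μ -
        ∫ x in Sh β (Iic ρ), b.m.kd g.B₀ (g.H i).F (V i) x ∂(g.H i).F.μ = j i := by
    refine Eventually.choice (r := fun i (k : ℤ) => _ = (k : ℝ)) (hV.mono fun i ⟨_, _, _, _, a, c⟩ => ?_)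
    obtain ⟨φ, f1, f2⟩ := d3 _ (hg.H i)
    rw [hΦ i] at a c
    exact w.one hb hm hs a c (hF i) f1 f2 r0 (by linarith) a2 h1
  have bd := (h3.and e2).mono fun i hi => have l := (k.pb i).lm
    kd_bd l.hB' l.hG' l.ok' l.cn' (w.cp_sl ρ) hi.1
      ((lintegral_mono_set (sl_mono (Iic_subset_Iic.2 (by linarith)))).trans hi.2)
  obtain ⟨m, hm⟩ := int_lim (k := j) (R := C + 1) (((Shi84.fcv hg).setIntegral isOpen_univ
    (.of_forall fun i => (hg.H i).vol) hg.G₀.vol ((Shi84.fcv hg).kd isOpen_univ hg.B₀ hl.adm.ok cV)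
    K1 (subset_univ _) K1.measurableSet subset_rfl).congr' (hj.mono fun i hi =>
      eq_sub_of_add_eq (eq_add_of_sub_eq' hi).symm)) (bd.mono fun i hi => abs_le.2 ⟨by linarith [C.2], by linarith⟩)
  have := ge_of_tendsto hm (bd.mono fun i hi => hi.1)
  lift m to ℕ using Int.lt_add_one_iff.1 (by exact_mod_cast (by linarith : (0 : ℝ) < m + 1))
  exact ⟨m, hm⟩

end Pw

end Crest.Agent.X212.M
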