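import Crest.Agent.X212.Lix26.Geo
import Crest.Agent.X212.Lns95.As0
import Crest.Agent.X212.Sep15.Spl
import Crest.Agent.X212.Dead36.Gen
import Crest.Agent.X212.Hol14.Stk

/-!
# Row 212, RF-LIX (helper20): no spinor inside a broken lens wall; the cut of a flat inside drops
-/

set_option autoImplicit false
set_option linter.unusedSectionVars false
noncomputable section
open scoped Manifold ContDiff Topology
open Set Function Filter

namespace Crest.Agent.X212.Lxv20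
open An M G75 Lns95 Rf65 Ins26
open An.Job (Sol)
open Dead36 (ZO)

section gen
variable {E : Type} [NormedAddCommGroup E] [NormedSpace ℝ E] [FiniteDimensional ℝ E]
  [MeasurableSpace E] [BorelSpace E]
  {HM : Type} [TopologicalSpace HM] {I : ModelWithCorners ℝ E HM} [I.Boundaryless]
  {M : Type} [TopologicalSpace M] [ChartedSpace HM M] [IsManifold I ∞ M]
  [MeasurableSpace M] [T2Space M] [BorelSpace M] [SecondCountableTopology M]
  {ι : Type} [Fintype ι] {lam : Type} [Fintype lam] {r : ℕ}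
  {B : Base M ι lam} {F : Fr I M ι} {O : Set M} {c : Cfg M ι lam r} {x : M}

theorem norm_cp {κ : Type} [Fintype κ] {J p : En κ} (h : Hol14.CP J p) : ‖p‖ ≤ 1 :=
  ContinuousLinearMap.opNorm_le_bound _ zero_le_one fun v => by
    have e : ‖p v‖ ^ 2 = inner ℝ v (p v) := by
      rw [← real_inner_self_eq_norm_sq, h.sym, ← mul_apply_eq_comp, h.idem]
    have k := real_inner_le_norm v (p v)
    rw [one_mul]
    nlinarith [norm_nonneg v, norm_nonneg (p v)]

theorem norm_sum_cl {H K : Type} [NormedAddCommGroup H] [NormedSpace ℝ H] (S : Finset K) (a : K → ℝ)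
    {T : K → CL H H} {b : K → ℝ} (h : ∀ w, ‖T w‖ ≤ b w) :
    ‖∑ w ∈ S, a w • T w‖ ≤ ∑ w ∈ S, |a w| * b w :=
  norm_sum_le_of_le _ fun w _ => (norm_smul _ _).trans_le (by gcongr; exacts [le_rfl, h w])

theorem norm_csE {κ : Type} [Fintype κ] {J : En κ} (h : Hol14.CJ J) (w : ℂ) : ‖csE J w‖ ≤ ‖w‖ :=
  ContinuousLinearMap.opNorm_le_bound _ (norm_nonneg _) fun v => (Mp86.norm_cs h.sq h.sk w v).le

theorem norm_xi (z : ZO F c O) (f : ∀ x ∈ O, c.m.Fg F c.W x = 0) (ξ : Xi M lam r) (hx : x ∈ O) :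
    ‖c.xi F ξ x‖ ≤ 1 := by
  rcases ξ with _ | ⟨_ | ⟨a, b, d⟩, l⟩ | _
  · exact ContinuousLinearMap.norm_id_le
  · simp only [Cfg.xi, Cfg.aw, Cfg.sd, z.q0 _ _ l x hx, map_zero, norm_zero, zero_le_one]
  · have : c.aw F ⟨.cv a b d, l⟩ x = 0 := z.la (fun x hx => Dead36.res_on z.cl z.bu z.ma
      (fun x hx => Dead36.res_on z.cl z.bu z.ma (fun x hx => by simp [f x hx]) hx) hx) l x hx
    simp only [Cfg.xi, this, map_zero, norm_zero, zero_le_one]
  · simp only [Cfg.xi, z.qj _ _ _ _ _ x hx, map_zero, norm_zero, zero_le_one]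

/-- the terms of the row of a cut at a flat configuration without spinor -/
theorem norm_tc (hB : B.OK I) (H : c.m.OK I B) {k : Cut M lam} (hk : k.OK B F) (z : ZO F c O)
    (f : ∀ x ∈ O, c.m.Fg F c.W x = 0) (hx : k.x0 ∈ O) (t : Tc M lam r) :
    ‖c.tc B F k t‖ ≤ ‖t.w‖ := by
  have p := (Hol14.qt_x0 hB H hk).hq
  refine (Hol14.norm_frk p.toCJ _ _ _).trans ?_
  have := norm_cp p
  have := norm_csE p.toCJ t.w
  have := norm_xi z f t.ξ hx
  refine (norm_mul_le _ _).trans ((mul_le_mul_of_nonneg_right ((norm_mul_le _ _).trans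
    (mul_le_mul_of_nonneg_right (norm_mul_le _ _) (norm_nonneg _))) (norm_nonneg _)).trans ?_)
  calc _ ≤ 1 * ‖t.w‖ * 1 * 1 := by gcongr
    _ = _ := by ring

end gen

variable {κ lam : Type} [Fintype κ] [Fintype lam] [DecidableEq lam] {Lm : LM κ lam}
  {S : Scene Lm} {D : S.Dat} {i : S.L} {Wi : Type} {r n : ℕ}
  {J : Job Wi (D.Λ i) (S.A ⊕ Unit) S.ls r n} {X : Finset S.A} {a₀ : Option S.A} {j : ℕ} {n₀ : ℤ}
  {T : ℝ} (G : GX J X a₀ j n₀ T) {c : S.M.Cl} {l : S.ls} (hl : l.1 ∈ c.1)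

theorem lok (H : LH Lm) : ∃ K : LOK Lm 4, ∀ σ, |K.k σ| ≤ 4 :=
  H.lok.imp fun _ k σ => (k σ).2.trans_le (by norm_num)

include G

theorem triv (l : S.ls) : (J.xs l).Triv :=
  let t := G.nil l fun k => (G.sc.fz _ (G.fz _ k)).2.1 l.2
  ⟨t.1.J0, t.1.J2, congrFun t.2⟩

include hl

/-- the cut of a lens wall lies inside the wall -/
theorem cut_in : l ∈ J.unc c ∧ (J.cut c l).supp ⊆ D.W.pc c (hp l.1 false) := by
  have := S.M.con
  have k : J.nb l ⊆ ⋃ ρ ∈ ({hp l.1 false} : Set _), S.M.sys.U ρ := by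
    rw [biUnion_singleton, Kl48.U_hp, G.nb]
    exact subset_rfl
  exact ⟨Job.unc_of (fun _ (h : _ = _) => h ▸ Lix26.piece G.sc l hl) k, (G.ok.cut_sub k).trans (by
    rw [Caps.un, biUnion_singleton])⟩

variable {σ : Cel (S.A ⊕ Unit)} (hσ : σ ∈ J.𝒦) {s : S.A ⊕ Unit → ℝ}
include hσ

theorem s_one (hs : J.Ov σ c s) : s (.inl l.1) = 1 := by
  obtain ⟨a, h2, h3⟩ := G.ok.inf σ hσ s hs.1 l (hs.2.ge hl)
  rw [G.hd] at h2
  rcases a with a | a
  · simp only [Sum.elim_inl] at h2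
    split_ifs at h2
    exact Option.some.inj h2 ▸ h3
  · exact ((G.sc.fz _ (G.fz _ h2)).2.1 l.2).elim

/-- no term acts inside a broken lens wall -/
theorem qt (h1 : s ∈ Job.cl σ) (hs : J.Ov σ c s) : J.Qt c s (hp l.1 false) :=
  qt_in G.sc l.2 Kl48.hp_self G.ok hσ (Lix26.piece G.sc l hl) hs (triv G l) fun w =>
    (em _).imp id fun k =>
      let ⟨_, a, b⟩ := G.ok.tw w
      ⟨_, inter_subset_left.trans (G.ok.hw_sub hσ hs b k), Sep15.Spl.tm_i a
        ((G.van σ hσ s h1 l (s_one G hl hσ hs) w).1 k), (S.M.sys.w l).dj.mono_left inter_subset_right⟩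

/-- **VAN**: no spinor inside a broken lens wall -/
theorem van (hL : ∃ K : LOK Lm 4, ∀ σ, |K.k σ| ≤ 4) {q : Wi →₀ ℝ} {y : J.Obc c} (h : Sol σ q y) :
    ¬y.TF (hp l.1 false) :=
  let ⟨K, hK⟩ := hL
  LOK.van G.sc l.2 Kl48.hp_self G.ok hσ (Lix26.piece G.sc l hl) K Lns4.neck hK h
    (qt G hl hσ h.cell h.ov)

omit hl hσ

/-- **CUT0**: the cut of a flat inside is dropped -/
theorem cut0 (hL : ∃ K : LOK Lm 4, ∀ σ, |K.k σ| ≤ 4) : Sml fun Adm => ∀ σ ∈ J.𝒦,
    ∀ (c : S.M.Cl) q (y : J.Obc c) (l : S.ls), Adm q → Sol σ q y → l.1 ∈ c.1 →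
      Fl y (hp l.1 false) → l ∉ y.H := by
  have hJ := G.ok
  choose b hb using fun l w => (isCompact_Icc (a := (0 : S.A ⊕ Unit → ℝ))
    (b := 1)).exists_bound_of_continuousOn (hJ.cc l w).continuous.continuousOn
  refine ⟨fun w => ∑ l, |b l w| * ‖(J.tc l w).w‖, fun w => by positivity,
    fun Adm hA σ hσ c q y l hq h hl f hH => ?_⟩
  have o := h.ov
  have hk := hJ.ct σ hσ _ o.1 c o.2 l (h.sub hH)
  have ci := (cut_in G hl).2
  have z : ZO (J.G c y.s).F y.x (D.W.pc c (hp l.1 false)) :=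
    ⟨Cyl58.isClopen_pc _ (Lix26.piece G.sc l hl), Mp86.bumps_of_tame _ (hJ.tame hσ o).choose_spec,
      Eqv71.mc_W h.sol.conn, Eqv71.mc_adW h.sol.conn,
      fun x hx => by_contra fun k => van G hl hσ hL h ⟨x, hx, k⟩⟩
  have e := Hol14.flat_ker ((D.Λ i).B_ok _ _) h.sol.ok hk h.sol.conn (hJ.G_ok hσ o)
    (fun x hx => f x (ci hx)) (lt_of_le_of_lt ?_ (hA q hq)) (h.cut l hH).2
  · simpa [e] using (h.cut l hH).1
  rw [sub_zero]
  refine (norm_sum_cl _ _ fun w => norm_tc ((D.Λ i).B_ok _ _) h.sol.ok hk z f (ci ⟨(0, 0), rfl⟩)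
    _).trans (Finset.sum_le_sum fun w _ => ?_)
  rw [abs_mul, mul_assoc]
  refine mul_le_mul_of_nonneg_left (le_trans ?_ (Finset.single_le_sum
    (f := fun l => |b l w| * ‖(J.tc l w).w‖) (fun _ _ => by positivity) (Finset.mem_univ l)))
    (abs_nonneg _)
  exact mul_le_mul_of_nonneg_right ((hb l w _ ⟨fun a => (h.cell.2 a).1, fun a => (h.cell.2 a).2⟩).trans
    (le_abs_self _)) (norm_nonneg _)

end Crest.Agent.X212.Lxv20
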