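import Crest.Agent.X212.M.Cut
import Crest.Agent.X212.M.Cnv

/-!
# Row 212, layer M: degenerating backgrounds of a world as a converging family
-/

set_option autoImplicit false
set_option linter.unusedSectionVars false
set_option linter.dupNamespace false
noncomputable section
open Set Function Filter Topology Module Matrix
open scoped ContDiff Manifold Classical

namespace Crest.Agent.X212.M
open An Cyl58 Prm93 Cmp73 Int54
open Met55 (Sp VF VJ atx pbv cF rotU)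
open Line51 (Ln Uni)
open Loc66 (FCv)
open Dr59 (mf Mp)
open Pj41 (FRel MSm cmB cmG)
open TopologicalSpace (Opens)
open Crest.Agent.R208.F (Ext)

variable {X : Mf 4} {A κ : Type} [Fintype A] [Fintype κ] {M : Mark X A κ}

theorem Mark.fr_anti {c c' : M.Cl} (h : c.1 ⊆ c'.1) : M.sys.fr c'.1 ⊆ M.sys.fr c.1 :=
  fun _ ha => ⟨fun k => ha.1 (h k), fun a' ha' => ha.2 a' (h ha')⟩

theorem Mark.O_mono {c c' : M.Cl} (h : c.1 ⊆ c'.1) : M.O c.1 ⊆ M.O c'.1 :=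
  fun _ hp a ha => hp a (Mark.fr_anti h ha)

theorem Mark.mem_fr {c c' : M.Cl} (h : c.1 ⊆ c'.1) {a : A} (ha : a ∈ c'.1) (hn : a ∉ c.1) :
    a ∈ M.sys.fr c.1 := ⟨hn, fun _ ha' => c'.2 ha (h ha') (by rintro rfl; exact hn ha')⟩

theorem Mark.dense_cores (c : M.Cl) : Dense (M.sys.cores c.1)ᶜ := fun x => by
  by_cases hx : x ∈ M.sys.cores c.1
  · obtain ⟨a, ha, y, rfl⟩ := Mark.mem_cores.1 hx
    exact mem_closure_of_tendsto (f := fun s : ℝ => (M.bn a).j (y, s)) (b := 𝓝[≠] 0)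
      (((M.bn a).oe.continuous.comp (Continuous.prodMk_right y)).continuousAt.mono_left
        nhdsWithin_le_nhds) (eventually_mem_nhdsWithin.mono fun s hs =>
          Mark.j_not_mem c (.inl ⟨ha, hs⟩))
  · exact subset_closure hx

theorem Mark.exists_br (c : M.Cl) : (M.Br c.1).Nonempty := by
  refine ⟨(0, fun a => if a ∈ c.1 then 1 else 0), ⟨fun a => ?_, ?_⟩, fun a ha => if_pos ha⟩
  · dsimp only; split_ifs <;> norm_num
  · exact c.2.mono fun a ha => by_contra fun h => ha (if_neg h)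

namespace Caps
variable (C : Caps M) (c c' : M.Cl)

instance : Nonempty (C.Z c).M := Nonempty.map (C.vl c) inferInstance

/-- the centres of `Z c'` that are new with respect to `c` -/
def nw : Set (C.Z c').M := {z | ∃ a ∈ c'.1, a ∉ c.1 ∧ M.pin a ∧ ∃ b, z = C.β c' a b 0}

theorem nw_finite : (C.nw c c').Finite :=
  (finite_range fun p : A × Bool => C.β c' p.1 p.2 0).subset
    fun _ ⟨a, _, _, _, b, e⟩ => ⟨(a, b), e.symm⟩

/-- `Z c'` without the new centres -/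
def Xo : Mf 4 := (C.Z c').op ⟨(C.nw c c')ᶜ, (C.nw_finite c c').isClosed.isOpen_compl⟩

/-- the inclusion -/
def xv : (C.Xo c c').M → (C.Z c').M := Subtype.val

/-- the orientation -/
def xo : (C.Xo c c').M → Ext (C.Xo c c').E := Dr59.pm (C.Xo c c').I (C.Z c').I (C.xv c c') (C.o c')

theorem xv_oe : IsOE (C.Xo c c').I (C.Z c').I (C.xv c c') :=
  isOE_val (IA := (C.Z c').I) ⟨(C.nw c c')ᶜ, (C.nw_finite c c').isClosed.isOpen_compl⟩

theorem range_xv : range (C.xv c c') = (C.nw c c')ᶜ := Subtype.range_coe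

theorem ori_xo : Ori (C.Xo c c').I (C.xo c c') := (C.ori c').pm (C.xv_oe c c').loc

variable {c c'}

theorem φ_nw {x : X.M} (hx : x ∉ M.sys.cores c'.1) : C.φ c' x ∉ C.nw c c' :=
  fun ⟨_, h1, _, h2, b, e⟩ => caps_ne C hx h1 h2 b e

theorem β_nw {a : A} (ha : a ∈ c'.1) (hp : M.pin a) (b : Bool) :
    C.β c' a b 0 ∈ C.nw c c' ↔ a ∉ c.1 :=
  ⟨fun ⟨_, h1, h2, h3, _, e⟩ => (caps_disj C ha hp h1 h3 e).1 ▸ h2, fun h => ⟨a, ha, h, hp, b, rfl⟩⟩

theorem cases_nw {z : (C.Z c').M} (hz : z ∉ C.nw c c') : (∃ x ∉ M.sys.cores c'.1, C.φ c' x = z) ∨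
    ∃ a ∈ c.1, a ∈ c'.1 ∧ M.pin a ∧ ∃ b, C.β c' a b 0 = z :=
  (caps_surj C z).imp_right fun ⟨a, h1, h2, b, e⟩ =>
    ⟨a, by_contra fun k => hz (e ▸ (C.β_nw h1 h2 b).2 k), h1, h2, b, e⟩

variable (c) in
/-- the point over `x` -/
def xp {x : X.M} (hx : x ∉ M.sys.cores c'.1) : (C.Xo c c').M := ⟨C.φ c' x, C.φ_nw hx⟩

instance : Nonempty (C.Xo c c').M := (nonempty_U (M := M) (c := c')).elim fun _ hx => ⟨C.xp c hx⟩

theorem mem_Ω_of {σ : Set A} {p : Prm A} (hp : ∀ a ∉ σ, p.2 a < 1) {w : (C.Z c).M}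
    (hw : ∀ x ∉ M.sys.cores c.1, C.φ c x = w → x ∉ M.sys.cores σ) : (p, w) ∈ M.Ω c.1 (C.φ c) :=
  fun a ha => (em (a ∈ σ)).elim (fun k => .inr fun ⟨x, hx, e⟩ =>
    hw x (Mark.fr_not_mem ha ((M.sys.w a).core_subset hx)) e (mem_biUnion k hx))
    fun k => .inl (hp a k)

theorem cext_nw (h : c.1 ⊆ c'.1) : cext C c' (M.sys.cores c'.1)ᶜ
    (Prod.map (MId.refl M).f id '' {p | p.1 ∈ c.1 ∧ M.pin p.1}) = (C.nw c c')ᶜ := by
  refine Subset.antisymm ?_ fun z hz => ?_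
  · rintro _ (⟨x, hx, rfl⟩ | ⟨_, ⟨p, hp, rfl⟩, rfl⟩)
    exacts [C.φ_nw hx, fun k => (C.β_nw (h hp.1) hp.2 _).1 k hp.1]
  · rcases C.cases_nw hz with ⟨x, k, rfl⟩ | ⟨a, ha, -, hp, b, rfl⟩
    exacts [.inl ⟨x, k, rfl⟩, .inr ⟨_, ⟨(a, b), ⟨ha, hp⟩, rfl⟩, rfl⟩]

omit C in
theorem thin_nw (h : c.1 ⊆ c'.1) : ∀ p ∈ {p : A × Bool | p.1 ∈ c.1 ∧ M.pin p.1},
    Thin M c' (M.sys.cores c'.1)ᶜ ((MId.refl M).f p.1, p.2) ∧ (MId.refl M).f' p.1 ∈ c.1 :=
  fun _ hp => ⟨⟨h hp.1, hp.2, 1, one_pos, fun y _ hr _ => half_not_mem (h hp.1) _ y hr⟩, hp.1⟩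

variable (h : c.1 ⊆ c'.1)
include h

theorem exists_dp : ∃ Ψ : PartialDiffeomorph (C.Z c').I (C.Z c).I (C.Z c').M (C.Z c).M ∞,
    Ψ.source = (C.nw c c')ᶜ ∧ (∀ x ∉ M.sys.cores c'.1, Ψ (C.φ c' x) = C.φ c x) ∧
      (∀ a ∈ c.1, M.pin a → ∀ b, Ψ (C.β c' a b 0) = C.β c a b 0) ∧
      SameOn (C.o c') (Dr59.pm (C.Z c').I (C.Z c).I Ψ (C.o c)) Ψ.source := by
  obtain ⟨Ψ, k1, -, k3, k4, k5⟩ := tr C C (.refl M) (c := c') (c' := c)
    (M.sys.isClosed_cores _).isOpen_compl (subset_univ _) subset_rfl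
    (fun x => Mark.cores_mono h) (thin_nw h)
  rw [C.cext_nw h] at k1
  exact ⟨Ψ, k1, k3, fun a ha hp b => k4 (a, b) ⟨ha, hp⟩ 0
    (k1 ▸ fun k => (C.β_nw (h ha) hp b).1 k ha), SameOn.symm k5⟩

/-- `Z c'` without the new centres as an open part of `Z c` -/
def dp : PartialDiffeomorph (C.Z c').I (C.Z c).I (C.Z c').M (C.Z c).M ∞ := (C.exists_dp h).choose

theorem dp_src : (C.dp h).source = (C.nw c c')ᶜ := (C.exists_dp h).choose_spec.1

theorem dp_φ {x : X.M} (hx : x ∉ M.sys.cores c'.1) : C.dp h (C.φ c' x) = C.φ c x :=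
  (C.exists_dp h).choose_spec.2.1 x hx

theorem dp_β {a : A} (ha : a ∈ c.1) (hp : M.pin a) (b : Bool) :
    C.dp h (C.β c' a b 0) = C.β c a b 0 := (C.exists_dp h).choose_spec.2.2.1 a ha hp b

theorem dp_same : SameOn (C.o c') (Dr59.pm (C.Z c').I (C.Z c).I (C.dp h) (C.o c)) (C.dp h).source :=
  (C.exists_dp h).choose_spec.2.2.2

theorem dp_ld {z : (C.Z c').M} (hz : z ∉ C.nw c c') :
    IsLocalDiffeomorphAt (C.Z c').I (C.Z c).I ∞ (C.dp h) z := Met55.pd_ld ((C.dp_src h).ge hz)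

theorem dp_ev {x : X.M} (hx : x ∉ M.sys.cores c'.1) : C.dp h ∘ C.φ c' =ᶠ[𝓝 x] C.φ c ∘ id :=
  eventually_of_mem ((M.sys.isClosed_cores _).isOpen_compl.mem_nhds hx) fun _ => C.dp_φ h

theorem eq_of_dp {z : (C.Z c').M} (hz : z ∉ C.nw c c') {x : X.M} (hx : x ∉ M.sys.cores c.1)
    (e : C.φ c x = C.dp h z) : x ∉ M.sys.cores c'.1 ∧ C.φ c' x = z := by
  rcases C.cases_nw hz with ⟨y, k, rfl⟩ | ⟨a, ha, -, hp, b, rfl⟩
  · rw [C.dp_φ h k] at e
    obtain rfl := C.inj hx (Mark.cores_mono h k) e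
    exact ⟨k, rfl⟩
  · rw [C.dp_β h ha hp] at e
    exact (caps_ne C hx ha hp b e).elim

/-- the dense embedding in the less broken manifold -/
def xd : (C.Xo c c').M → (C.Z c).M := C.dp h ∘ C.xv c c'

theorem xd_oe : IsOE (C.Xo c c').I (C.Z c).I (C.xd h) :=
  .of_pd (C.dp h) (C.xv_oe c c') fun z => (C.dp_src h).ge z.2

theorem xd_xp {x : X.M} (hx : x ∉ M.sys.cores c'.1) : C.xd h (C.xp c hx) = C.φ c x := C.dp_φ h hx

theorem mem_range_xd {z : (C.Z c).M} : z ∈ range (C.xd h) ↔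
    ∀ x ∉ M.sys.cores c.1, C.φ c x = z → x ∉ M.sys.cores c'.1 := by
  refine ⟨fun ⟨w, e⟩ x hx k => (C.eq_of_dp h w.2 hx (k.trans e.symm)).1, fun k => ?_⟩
  rcases caps_surj C z with ⟨y, hy, rfl⟩ | ⟨a, ha, hp, b, rfl⟩
  exacts [⟨_, C.xd_xp h (k y hy rfl)⟩,
    ⟨⟨_, fun k => (C.β_nw (h ha) hp b).1 k ha⟩, C.dp_β h ha hp b⟩]

theorem dense_xd : DenseRange (C.xd h) := by
  refine Dense.of_closure ((C.dense c).mono ?_)
  rintro _ ⟨x, hx, rfl⟩
  refine mem_closure_iff_frequently.2 ((C.ld hx).contMDiffAt.continuousAt.frequently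
    ((mem_closure_iff_frequently.1 (Mark.dense_cores c' x)).mono fun y hy => ⟨_, C.xd_xp h hy⟩))

theorem mf_xd (z : (C.Xo c c').M) (v : (C.Xo c c').E) : mf (C.Xo c c').I (C.Z c).I (C.xd h) z v =
    mf (C.Z c').I (C.Z c).I (C.dp h) (C.xv c c' z) (mf (C.Xo c c').I (C.Z c').I (C.xv c c') z v) :=
  DFunLike.congr_fun (Dr59.mf_comp ((C.dp_ld h z.2).mdifferentiableAt (by simp))
    (((C.xv_oe c c').loc z).mdifferentiableAt (by simp))) v

theorem pm_xd (b : (C.Z c).M → Ext (C.Z c).E) (z : (C.Xo c c').M) :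
    Dr59.pm (C.Xo c c').I (C.Z c).I (C.xd h) b z = Dr59.pm (C.Xo c c').I (C.Z c').I (C.xv c c')
      (Dr59.pm (C.Z c').I (C.Z c).I (C.dp h) b) z :=
  (Dr59.pm_comp (f := C.xv c c') ((C.dp_ld h z.2).mdifferentiableAt (by simp))
    (((C.xv_oe c c').loc z).mdifferentiableAt (by simp))).symm

theorem xd_same : SameOn (C.xo c c') (Dr59.pm (C.Xo c c').I (C.Z c).I (C.xd h) (C.o c)) univ :=
  fun z _ => by
    rw [C.pm_xd h]
    exact (C.dp_same h).pm (s := univ) (fun y _ => (C.xv_oe c c').loc y)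
      (fun y _ => (C.dp_src h).ge y.2) z trivial

omit h in
theorem xd_self (z : (C.Xo c c).M) : C.xd subset_rfl z = C.xv c c z := by
  rcases C.cases_nw z.2 with ⟨y, k, e⟩ | ⟨a, ha, -, hp, b, e⟩
  · exact (congrArg _ e.symm).trans ((C.dp_φ _ k).trans e)
  · exact (congrArg _ e.symm).trans ((C.dp_β _ ha hp b).trans e)

end Caps

variable {lam : Type} [Fintype lam] [DecidableEq lam] {N : ML M lam} {c c' c'' : M.Cl}
  (h : c.1 ⊆ c'.1) {p p' : Prm A}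

/-- at a parameter that is broken along `c'` the metrics agree off the broken cores -/
theorem World.co_dp (W : World M) (m m' : M.Cl) (hp : p ∈ M.Br c'.1) {w : (W.Z c').M}
    (hw : w ∉ W.nw c c') (hw' : ∀ x ∉ M.sys.cores c'.1, W.φ c' x = w →
      x ∉ M.sys.cores (Sys.inf p.2)) :
    Met55.Co (fun i => mf (W.Z c').I (W.Z c).I (W.dp h) w (atx ((W.L m' c').e p) w i))
      (atx ((W.L m c).e p) (W.dp h w)) := by
  have h1 : ∀ a ∉ Sys.inf p.2, p.2 a < 1 := fun a ha => (hp.1.1 a).2.lt_of_ne ha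
  have h2 : w ∈ closure (W.φ c' '' (M.sys.cores (Sys.inf p.2))ᶜ) := by
    rcases W.cases_nw hw with ⟨y, k, rfl⟩ | ⟨a, -, ha, hq, b, rfl⟩
    · exact subset_closure ⟨y, hw' y k rfl, rfl⟩
    · exact cext_subset_closure W.toCaps (J := {(a, b)}) (by
        rintro _ rfl
        exact ⟨ha, hq, 1, one_pos, fun y _ hr _ =>
          half_not_mem (c := M.cOf hp.1) (hp.2 ha) _ y hr⟩) (.inr ⟨_, rfl, rfl⟩)
  refine co_cl' (W.dp_ld h hw) ((W.L m' c').fAt (W.mem_Ω_of h1 hw')) ((W.L m c).fAt (W.mem_Ω_of h1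
    fun x hx e => hw' x (W.eq_of_dp h hw hx e).1 (W.eq_of_dp h hw hx e).2))
    ((mem_closure_iff_frequently.1 h2).mono ?_)
  rintro _ ⟨x, hx, rfl⟩
  have h3 := Mark.cores_mono hp.2 hx
  exact co_tr (ψ := id) m' m hp ⟨hp.1, h.trans hp.2⟩ hx hx mdifferentiableAt_id
    ((W.dp_ld h (W.φ_nw h3)).mdifferentiableAt (by simp)) (W.dp_ev h h3)
    (co_of_eq fun i => DFunLike.congr_fun (Dr59.mf_id (I := X.I) x) _)

namespace Lns
variable {W : World M} (Λ : Lns W N) (m m' : M.Cl)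

theorem exists_du : ∃ u : (W.Z c').M → Matrix lam lam ℂ,
    (∀ x ∉ M.sys.cores c'.1, u (W.φ c' x) = Λ.v m c x * (Λ.v m' c' x)ᴴ) ∧
    ∀ p ∈ M.Br c'.1, Line51.Iso (W.Z c').I ((Λ.Λ m' c').ln p)
      (((Λ.Λ m c).ln p).pull (W.Z c').I (W.Z c).I (W.dp h)) u (W.nw c c')ᶜ := by
  obtain ⟨u, u1, u2⟩ := exists_tw m' Λ m Λ (c := c') (c' := c) (LId.refl N) (subset_univ _)
    subset_rfl (fun x => Mark.cores_mono h) (Caps.thin_nw h)
  rw [W.cext_nw h] at u1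
  refine ⟨u, fun x hx => (u2 x hx).trans (tw_refl Λ (Mark.cores_mono h hx)), fun p hp => ?_⟩
  refine iso_cl (W.nw_finite c c').isClosed.isOpen_compl (fun z _ => W.dense c' z)
    (((Λ.Λ m' c').ok p).mono (subset_univ _)) (((Λ.Λ m c).ok p).pull
      ⟨fun z hz => (W.dp_ld h hz).contMDiffAt, mapsTo_univ _ _⟩) u1 ?_
  exact iso_tr (ψ := id) Λ Λ hp ⟨hp.1, h.trans hp.2⟩
    (M.sys.isClosed_cores _).isOpen_compl subset_rfl (fun _ => Mark.cores_mono h)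
    (fun _ _ => contMDiffAt_id) (fun _ hx => (W.dp_ld h (W.φ_nw hx)).contMDiffAt)
    (fun _ => W.dp_φ h) (cId_refl Λ p.1 _ _ (rel_refl hp.1 _)) u2

/-- the isometry from the line of `(m', c')` to the line of `(m, c)` -/
def du : (W.Z c').M → Matrix lam lam ℂ := (Λ.exists_du h m m').choose

theorem du_φ {x : X.M} (hx : x ∉ M.sys.cores c'.1) :
    Λ.du h m m' (W.φ c' x) = Λ.v m c x * (Λ.v m' c' x)ᴴ := (Λ.exists_du h m m').choose_spec.1 x hx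

theorem iso_du (hp : p ∈ M.Br c'.1) : Line51.Iso (W.Z c').I ((Λ.Λ m' c').ln p)
    (((Λ.Λ m c).ln p).pull (W.Z c').I (W.Z c).I (W.dp h)) (Λ.du h m m') (W.nw c c')ᶜ :=
  (Λ.exists_du h m m').choose_spec.2 p hp

theorem uni_du : Uni (W.Z c').I (Λ.Λ m' c').p (fun z => (Λ.Λ m c).p (W.dp h z)) (Λ.du h m m')
    (W.nw c c')ᶜ := (Mark.exists_br c').elim fun _ hp => (Λ.iso_du h m m' hp).toUni

theorem du_v {x : X.M} (hx : x ∉ M.sys.cores c'.1) :
    Λ.du h m m' (W.φ c' x) * Λ.v m' c' x = Λ.v m c x := by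
  rw [Λ.du_φ h m m' hx, Matrix.mul_assoc, ((Λ.uni m' c').iso _ ((W.mem_src _).2 hx)).src,
    ((Λ.uni m c).iso _ ((W.mem_src _).2 (Mark.cores_mono h hx))).idem]

end Lns

/-! ### the backgrounds of `Z c` on `Z c'` without the new centres -/

namespace World
variable (W : World M) (m : M.Cl)

variable (c c') in
/-- the restriction of the layer `(m, c')` -/
abbrev xL₀ := (W.L m c').pull (W.xv_oe c c').loc ((W.ori_xo c c').same _)

/-- the metrics of `(m, c)` in the frames of `(m, c')` -/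
def xL : Lay (W.Xo c c') (W.xo c c') (Prm A) (Option κ)
    (cΩ {q | (q.1, W.xv c c' q.2) ∈ M.Ω c'.1 (W.φ c')} (M.Ω c.1 (W.φ c)) (W.xd_oe h).pd) :=
  (W.xL₀ c c' m).cut (W.L m c) (cf_one rfl)

theorem x_mem (hp : p ∈ M.O c.1) (z : (W.Xo c c').M) : (p, z) ∈
    cΩ {q | (q.1, W.xv c c' q.2) ∈ M.Ω c'.1 (W.φ c')} (M.Ω c.1 (W.φ c)) (W.xd_oe h).pd :=
  ⟨Mark.mem_Ω _ (Mark.O_mono h hp) _, fun _ => Mark.mem_Ω _ hp _⟩

/-- where the frames of the two layers correspond, the new frame corresponds to both -/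
theorem xL_eq (hp : p ∈ M.O c.1) {z : (W.Xo c c').M} (he : ∀ i, mf (W.Z c').I (W.Z c).I (W.dp h)
    (W.xv c c' z) (atx ((W.L m c').e p) (W.xv c c' z) i) = atx ((W.L m c).e p) (W.xd h z) i)
    (i : Option κ) : mf (W.Xo c c').I (W.Z c).I (W.xd h) z (((W.xL h m).F p).e i z) =
      (W.F m c p).e i (W.xd h z) := by
  have k : ∀ i, mf (W.Xo c c').I (W.Z c).I (W.xd h) z (atx ((W.xL₀ c c' m).e p) z i) =
      atx ((W.L m c).e p) (W.xd h z) i := fun i => (W.mf_xd h z _).trans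
    ((congrArg _ (Met55.pbv_rel ((W.xv_oe c c').loc z) _)).trans (he i))
  rw [Lay.F_e _ (W.x_mem h hp), World.F, Lay.F_e _ (Mark.mem_Ω _ hp)]
  exact (congrArg _ (Lay.cut_eq _ _ _ (W.x_mem h hp z) (fun _ => co_of_eq k) i)).trans (k i)

end World

namespace Lns
variable {W : World M} (Λ : Lns W N) (m : M.Cl)

variable (c c') in
/-- the restriction of the line `(m, c')` -/
abbrev xΛ₀ := (Λ.Λ m c').pull (W.xv_oe c c').loc ((W.ori_xo c c').same _)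

/-- the isometry of the lines -/
def xu (z : (W.Xo c c').M) : Matrix lam lam ℂ := Λ.du h m m (W.xv c c' z)

theorem uni_xu : Uni (W.Xo c c').I (Λ.xΛ₀ c c' m).p (fun z => (Λ.Λ m c).p (W.xd h z)) (Λ.xu h m)
    univ := (Λ.uni_du h m m).comp ⟨fun z _ => (W.xv_oe c c').contMDiff z, fun z _ => z.2⟩

/-- the connections of `(m, c)` on the line of `(m, c')` -/
def xΛ : LLay (W.xL h m) lam := (Λ.xΛ₀ c c' m).cut (cf_one rfl) (Λ.Λ m c) (Λ.uni_xu h m)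

variable (c c') in
/-- the background -/
abbrev xB : Base (W.Xo c c').M (Option κ) (lam ⊕ lam) := cmB (W.xv c c') (Λ.B m c')

/-- the geometry at the parameter `p` -/
abbrev xG (p : Prm A) : Geo (W.Xo c c').I (W.Xo c c').M (Option κ) (lam ⊕ lam) := (Λ.xΛ h m).G p

theorem xΛ_B : (Λ.xΛ h m).B = Λ.xB c c' m :=
  LLay.pull_B (W.xv_oe c c').loc ((W.ori_xo c c').same _) (Λ.Λ m c')

theorem xB_ok : (Λ.xB c c' m).OK (W.Xo c c').I := Pj41.cmB_ok (W.xv_oe c c').contMDiff (Λ.B_ok m c')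

theorem xG_ok (hp : p ∈ M.O c.1) : (Λ.xG h m p).OK (Λ.xB c c' m) :=
  Λ.xΛ_B h m ▸ (Λ.xΛ h m).G_ok (W.x_mem h hp)

/-- **the backgrounds are those of `Z c`** -/
theorem x_geq (hp : p ∈ M.O c.1) : GEq (Λ.xB c c' m) (Λ.xG h m p) (Λ.B m c) (Λ.G m c p)
    (W.xd_oe h).pd.toOpenPartialHomeomorph
    (rotU ((W.xL h m).F p).toPre (W.F m c p).toPre (W.xd h)) fun z => Line51.rl (Λ.xu h m z) := by
  rw [← Λ.xΛ_B h m]
  exact LLay.cut_geq (Ψ := (W.xd_oe h).pd) (cf_one rfl) _ (Λ.Λ m c) (Λ.uni_xu h m) (W.ori_xo c c')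
    (W.ori c) (W.xd_same h) (fun _ _ => rfl) (fun _ => Mark.mem_Ω _ (Mark.O_mono h hp) _)
    (Mark.mem_Ω _ hp)

/-- where the frames correspond and the isometry is the projector, everything is literal -/
theorem xG_lit {z : (W.Xo c c').M} {i : Option κ}
    (he : mf (W.Xo c c').I (W.Z c).I (W.xd h) z (((W.xL h m).F p).e i z) =
      (W.F m c p).e i (W.xd h z)) (hu : ∀ᶠ y in 𝓝 z, Λ.xu h m y = (Λ.Λ m c).p (W.xd h y)) :
    (Λ.G m c p).a i (W.xd h z) = (Λ.xG h m p).a i z := by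
  have k := fun y => ((Λ.Λ m c).ok p).prj (W.xd h y) trivial
  refine geo_a_nat (L := (Λ.Λ m c).ln p) (K := (Λ.xΛ h m).ln p) (((Λ.Λ m c).ok p).sm _ trivial)
    (((W.xd_oe h).loc z).mdifferentiableAt (by simp)) (hu.mono fun y hy => ?_) ?_ he
  · refine ((Λ.uni_xu h m).iso y trivial).src.symm.trans ?_
    rw [hy, (k y).herm, (k y).idem]; rfl
  · refine (LLay.cut_a_one (Ψ := (W.xd_oe h).pd) (cf_one rfl) _ _ (Λ.uni_xu h m) rfl).trans ?_
    rw [Line51.th_herm ((Λ.uni_xu h m).sm z trivial) (hu.mono fun y hy => hy ▸ (k y).herm),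
      zero_add]
    rfl

end Lns

/-! ### the limit -/

section lim
variable {W : World M} (Λ : Lns W N) {m : M.Cl} (h' : M.Up c' c'')

variable (W c) in
/-- the map from the limit manifold -/
def World.xf : PartialDiffeomorph (W.Z c'').I (W.Xo c c').I (W.Z c'').M (W.Xo c c').M ∞ :=
  (W.up_oe h').pd.trans (W.xv_oe c c').pd.symm

theorem World.xf_src {z : (W.Z c'').M} : z ∈ (W.xf c h').source ↔ W.up c' c'' z ∉ W.nw c c' :=
  (and_iff_right trivial).trans (Set.ext_iff.1 (W.range_xv c c') _)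

theorem World.xv_xf {z : (W.Z c'').M} (hz : z ∈ (W.xf c h').source) :
    W.xv c c' (W.xf c h' z) = W.up c' c'' z := (W.xv_oe c c').pd.right_inv hz.2

theorem World.xf_φ {x : X.M} (hx : x ∉ M.sys.cores c''.1) :
    W.xf c h' (W.φ c'' x) = W.xp c (Mark.cores_mono h'.1 hx) :=
  (W.xv_oe c c').inj ((World.xv_xf h' ((World.xf_src h').2
    (W.up_φ h' hx ▸ W.φ_nw (Mark.cores_mono h'.1 hx)))).trans (W.up_φ h' hx))

theorem Lns.Nrm.pull_G (hΛ : Λ.Nrm) (hW : W.Nrm) (hm : c''.1 \ c'.1 ⊆ m.1) (hp : p' ∈ M.Br c''.1)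
    (ho : p' ∈ M.O c''.1) :
    ((Λ.Λ m c').pull (W.up_oe h').loc (W.up_same h')).G p' = Λ.G m c'' p' := by
  have e1 : ((W.L m c').pull (W.up_oe h').loc (W.up_same h')).F p' = W.F m c'' p' := by
    refine Met55.vol_ext (Lay.F_vol _ _) (Lay.F_vol _ _) ?_
    rw [Lay.F_e _ fun z => Mark.mp_br hp ▸ W.up_mem_Ω h' (Mark.mem_Ω _ ho z), World.F,
      Lay.F_e _ (Mark.mem_Ω _ ho)]
    funext i z
    refine (Met55.ld_bij ((W.up_oe h').loc z)).1 ((Met55.pbv_rel ((W.up_oe h').loc z) _).trans ?_)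
    have := hW.e m c' c'' h' hm p' z i
    rw [Mark.mp_br hp] at this
    exact this.symm
  rw [LLay.G, e1, Lns.G, LLay.G, hΛ.ln h' hm p', Mark.mp_br hp]; rfl

variable (W) in
/-- the map from the limit manifold to `Z c` -/
def World.yf : PartialDiffeomorph (W.Z c'').I (W.Z c).I (W.Z c'').M (W.Z c).M ∞ :=
  (W.up_oe h').pd.trans (W.dp h)

theorem World.yf_src : (W.yf h h').source = (W.up c' c'' ⁻¹' W.nw c c')ᶜ :=
  (univ_inter _).trans (congrArg (W.up c' c'' ⁻¹' ·) (W.dp_src h))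

theorem World.mp_up : Mp (W.Z c'').I (W.Z c').I (W.yf h h').source (W.nw c c')ᶜ (W.up c' c'') :=
  ⟨fun z _ => (W.up_oe h').contMDiff z, fun _ hz => (World.yf_src h h').le hz⟩

theorem World.y_mem {r : Prm A} (hr : ∀ a ∉ c''.1, r.2 a < 1) (z : (W.Z c'').M) :
    (r, z) ∈ cΩ {q | (q.1, W.up c' c'' q.2) ∈ M.Ω c'.1 (W.φ c')} (M.Ω c.1 (W.φ c)) (W.yf h h') :=
  ⟨W.mem_Ω_of hr fun _ hx e => (W.eq_of_up h' hx e).1, fun hz => W.mem_Ω_of hr fun _ hx e =>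
    have k := W.eq_of_dp h ((World.mp_up h h').maps hz) hx e
    (W.eq_of_up h' k.1 k.2).1⟩

theorem World.y_mem' (hp : p ∈ M.O c.1) (z : (W.Z c'').M) :
    (p, z) ∈ cΩ {q | (q.1, W.up c' c'' q.2) ∈ M.Ω c'.1 (W.φ c')} (M.Ω c.1 (W.φ c)) (W.yf h h') :=
  ⟨Mark.mem_Ω _ (Mark.O_mono h hp) _, fun _ => Mark.mem_Ω _ hp _⟩

variable (m) in
theorem World.y_co (hb : p' ∈ M.Br c''.1) (ho : p' ∈ M.O c''.1) : ∀ z ∈ (W.yf h h').source,
    Met55.Co (fun i => mf (W.Z c'').I (W.Z c).I (W.yf h h') z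
      (atx (((W.L m c').pull (W.up_oe h').loc (W.up_same h')).e p') z i))
      (atx ((W.L m c).e p') (W.yf h h' z)) := fun z hz => by
  have k := (World.mp_up h h').maps hz
  have e : ∀ v, mf (W.Z c'').I (W.Z c).I (W.yf h h') z v = mf (W.Z c').I (W.Z c).I (W.dp h)
      (W.up c' c'' z) (mf (W.Z c'').I (W.Z c').I (W.up c' c'') z v) := fun v => DFunLike.congr_fun
    (Dr59.mf_comp (f := W.up c' c'') ((W.dp_ld h k).mdifferentiableAt (by simp)) (W.md_up h' z)) v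
  refine (co_of_eq fun i => (e _).trans (congrArg _ (Met55.pbv_rel ((W.up_oe h').loc z) _))).trans
    (W.co_dp h m m ⟨hb.1, h'.1.trans hb.2⟩ k fun _ hx e => ?_)
  rw [Mark.inf_eq hb ho]; exact (W.eq_of_up h' hx e).1

variable (m) in
/-- the pulled back line -/
abbrev Lns.yΛ := (Λ.Λ m c').pull (W.up_oe h').loc (W.up_same h')

variable (m) in
theorem Lns.uni_y : Uni (W.Z c'').I (Λ.yΛ m h').p (fun z => (Λ.Λ m c).p (W.yf h h' z))
    (fun z => Λ.du h m m (W.up c' c'' z)) (W.yf h h').source :=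
  (Λ.uni_du h m m).comp (World.mp_up h h')

variable (m) in
theorem Lns.iso_y (hb : p' ∈ M.Br c'.1) : Line51.Iso (W.Z c'').I ((Λ.yΛ m h').ln p')
    (((Λ.Λ m c).ln p').pull (W.Z c'').I (W.Z c).I (W.yf h h'))
    (fun z => Λ.du h m m (W.up c' c'' z)) (W.yf h h').source :=
  ((Λ.iso_du h m m hb).pull (World.mp_up h h')).of_eq (fun _ _ => rfl) (fun _ _ => rfl)
    (fun _ _ => rfl) fun z hz => (Dr59.pm_comp ((W.dp_ld h
      ((World.mp_up h h').maps hz)).mdifferentiableAt (by simp)) (W.md_up h' z)).symm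

theorem Lns.y_rel {χ : (W.Z c'').M → ℝ} (hχ : Cf (W.yf h h').source χ) (hp : p ∈ M.O c.1)
    {z : (W.Z c'').M} (hz : z ∈ (W.xf c h').source) (h1 : χ z = 1) (a : Option κ) :
    mf (W.Z c'').I (W.Xo c c').I (W.xf c h') z
      ((((Λ.yΛ m h').cut hχ (Λ.Λ m c) (Λ.uni_y h m h')).G p).F.e a z) =
        (Λ.xG h m p).F.e a (W.xf c h' z) ∧ (Λ.xG h m p).a a (W.xf c h' z) =
          (((Λ.yΛ m h').cut hχ (Λ.Λ m c) (Λ.uni_y h m h')).G p).a a z := by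
  have ev : ∀ᶠ y in 𝓝 z, W.up c' c'' y = W.xv c c' (W.xf c h' y) :=
    eventually_of_mem ((W.xf c h').open_source.mem_nhds hz) fun y hy => (World.xv_xf h' hy).symm
  exact LLay.cut_nat (Ψ := (W.xd_oe h).pd) (cf_one rfl) (Λ.xΛ₀ c c' m) (Λ.Λ m c) (Λ.uni_xu h m)
    (Λ.yΛ m h') hχ (Λ.uni_y h m h') (Met55.pd_ld hz) h1 rfl (World.y_mem' h h' hp) (W.x_mem h hp)
    (fun i => pbv_fac (Met55.pd_ld hz) ((W.xv_oe c c').loc _) ((W.up_oe h').loc z) ev _)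
    (ev.mono fun y hy => congrArg (W.dp h) hy) (ev.mono fun y hy => congrArg (Λ.Λ m c').p hy)
    (ev.mono fun y hy => congrArg (Λ.du h m m) hy) a

variable (m) in
/-- the converging family -/
abbrev Lns.gs {α : Type} (l : Ultrafilter α) (p : α → Prm A) (p' : Prm A)
    (H : α → Geo (W.Z c'').I (W.Z c'').M (Option κ) (lam ⊕ lam)) (S : α → Opens (W.Z c'').M) :=
  rGs l (Λ.xB c c' m) (fun n => Λ.xG h m (p n)) (Λ.B m c'') (Λ.G m c'' p') H (W.xf c h') S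
    (W.up c' c'' ⁻¹' W.nw c c')

/-- **degenerating backgrounds converge** -/
theorem Lns.exists_gs (hW : W.Nrm) (hΛ : Λ.Nrm) (hm : c''.1 \ c'.1 ⊆ m.1) {α : Type}
    (l : Ultrafilter α) {p : α → Prm A} (hp : Tendsto p l (𝓝 p')) (hO : ∀ n, p n ∈ M.O c.1)
    (hb : p' ∈ M.Br c''.1) (ho : p' ∈ M.O c''.1) : ∃ H S, (Λ.gs h m h' l p p' H S).OK := by
  have hb' : p' ∈ M.Br c'.1 := ⟨hb.1, h'.1.trans hb.2⟩
  have hP := (W.nw_finite c c').preimage (W.up_oe h').inj.injOn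
  obtain ⟨x₀, hx₀⟩ := nonempty_U (M := M) (c := c'')
  have k1 := fun n => World.y_mem' (W := W) h h' (hO n)
  obtain ⟨χ, hχ, S, c1, c2, c3, c4⟩ := (Λ.yΛ m h').exists_cut (Λ.Λ m c) (Λ.uni_y h m h') hp
    ((Mark.ev_lt_one hb ho).mono fun _ => World.y_mem h h') k1 (World.y_co h m h' hb ho)
    (Λ.iso_y h m h' hb') hP (World.yf_src h h') (x₀ := W.φ c'' x₀)
    (fun k => W.φ_nw (Mark.cores_mono h'.1 hx₀) (W.up_φ h' hx₀ ▸ mem_preimage.1 k))
    fun ⟨_, a, a1, a2, _⟩ => .of_forall fun n e =>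
      (hO n a (Mark.mem_fr h a1 a2)).ne (e ▸ hb'.2 a1)
  have eB : (Λ.yΛ m h').B = Λ.B m c'' :=
    (LLay.pull_B (W.up_oe h').loc (W.up_same h') _).trans (hΛ.B hW h' hm).symm
  rw [hΛ.pull_G Λ h' hW hm hb ho] at c3 c4
  refine ⟨_, S, rGs_ok (Λ.xB_ok m) (fun n => Λ.xG_ok h m (hO n)) (Λ.B_ok m c'') (Λ.G_ok m ho)
    (fun n => eB ▸ ((Λ.yΛ m h').cut (hχ n) (Λ.Λ m c) (Λ.uni_y h m h')).G_ok (k1 n)) hP
    (fun z hz => (World.xf_src h').2 hz) c2 (fun z hz a b d e => ?_) (fun z hz => ?_) rfl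
    (fun n z hz hs => Λ.y_rel h h' (hχ n) (hO n) hz (c1 n z hs)) c3 c4⟩
  · rw [hΛ.B hW h' hm]; exact congrArg ((Λ.B m c').o a b d e) (World.xv_xf h' hz)
  · rw [hΛ.B hW h' hm]; exact congrArg (Λ.B m c').l (World.xv_xf h' hz)

end lim

end Crest.Agent.X212.M
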