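import Crest.Agent.X212.M.Pin
import Crest.Agent.X212.M.Gfk
import Crest.Agent.X212.Cmp73.Qcl
import Crest.Agent.X212.Pat85.Star

/-!
# Row 212, layer M: transported terms converge along degenerating backgrounds of a world
-/

set_option autoImplicit false
set_option linter.unusedSectionVars false
set_option linter.dupNamespace false
noncomputable section
open Set Function Filter Topology Matrix
open scoped ContDiff Manifold Classical

namespace Crest.Agent.X212.M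
open An Cyl58 Cmp73 Eqv71 Wrd81 Int54
open Pj41 (FRel GRel cmB cmG)
open TopologicalSpace (Opens)
open Line51 (rl)

/-! ### convergent transports -/

section tk
variable {E : Type} [NormedAddCommGroup E] [NormedSpace ℝ E] [FiniteDimensional ℝ E]
  [MeasurableSpace E] [BorelSpace E]
  {HM : Type} [TopologicalSpace HM] {I : ModelWithCorners ℝ E HM} [I.Boundaryless]
  {X Z : Mf 4} {ι lam lam' α : Type} [Fintype ι] [Fintype lam] [Fintype lam']
  {Y : α → Type} [∀ n, TopologicalSpace (Y n)] [∀ n, ChartedSpace HM (Y n)]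
  [∀ n, IsManifold I ∞ (Y n)] [∀ n, MeasurableSpace (Y n)] [∀ n, BorelSpace (Y n)]
  [∀ n, T2Space (Y n)] [∀ n, SecondCountableTopology (Y n)] {r k : ℕ}
  (g : Gs I Z.I Z.M ι lam Y) (t : ∀ n, Tp X.M (Y n) lam' lam) (t' : Tp X.M Z.M lam' lam)
  (Ω : Set X.M)

/-- the transports `t n` converge to `t'` on data supported in `Ω` -/
structure TK : Prop where
  f : ∀ u, Tf X.I Ω u → ∃ f₁ K, LK g (fun n => (t n).f u) f₁ (t'.f u) K
  s : ∀ u, Tv X.I Ω u → ∃ f₁ K, LK g (fun n => (t n).s u) f₁ (t'.s u) K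

namespace TK
variable {g t t' Ω} (h : TK g t t' Ω) (hg : g.OK) (c : ∀ n, Cfg (Y n) ι lam r)
include h hg

theorem fk {u : X.M → ℝ} (hu : Tf X.I Ω u) : g.FK c (fun n => (t n).f u) (t'.f u) :=
  let ⟨_, _, k⟩ := h.f u hu; k.fk hg c

theorem fd {u : X.M → ℝ} (hu : Tf X.I Ω u) : g.FD c (fun n => (t n).f u) (t'.f u) :=
  let ⟨_, _, k⟩ := h.f u hu; k.fd hg c

theorem fs {u : X.M → Eu lam'} (hu : Tv X.I Ω u) : g.FK c (fun n => (t n).s u) (t'.s u) :=
  let ⟨_, _, k⟩ := h.s u hu; k.fk hg c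

theorem sw {u : SW X.M} (hu : SwIn X.I Ω u) :
    g.cS c (fun n => u.map (t n).lt) fun _ => u.map t'.lt := FL.map u fun a ha => by
  have := hu a ha
  cases a
  exacts [.mul (h.fk hg c this).qs, .cl (h.fd hg c this), .im, .G]

theorem ll {l : List (La X.M)} (hl : LlIn X.I Ω l) :
    FL (g.cLa c) (fun n => l.map (t n).la) fun _ => l.map t'.la := FL.map l fun a ha => by
  have := hl a ha
  cases a
  exacts [.mul (h.fk hg c this).qs, .G]

theorem aw {ξ : AW X.M} (hξ : AwIn X.I Ω ξ) : g.cA c (fun n => (t n).aw ξ) fun _ => t'.aw ξ := by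
  obtain ⟨s, l⟩ := ξ
  cases s
  exacts [.q (h.sw hg c hξ.1.1) (h.sw hg c hξ.1.2) (h.ll hg c hξ.2),
    .cv (h.fk hg c hξ.1.1).toFC (h.fd hg c hξ.1.2.1) (h.fd hg c hξ.1.2.2) (h.ll hg c hξ.2)]

theorem sg {a : Sg X.M lam'} (ha : SgIn X.I Ω a) :
    g.cG c (fun n => (t n).sg a) fun _ => t'.sg a :=
  .mk (h.fs hg c ha.1) (h.sw hg c ha.2.1) (h.sw hg c ha.2.2)

theorem co {d : Co X.M lam' r} (hd : CoIn X.I Ω d) :
    g.cC c (fun n => (t n).co d) fun _ => t'.co d := by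
  cases d
  exacts [.z _, .s (h.sg hg c hd.1) (FL.map _ fun a ha => h.sg hg c (hd.2 a ha))]

/-- **transported terms are convergent syntax** -/
theorem tm {T : Tm X.M lam' r k} (hT : TmIn X.I Ω T) :
    g.cT c (fun n => (t n).tm T) fun _ => t'.tm T := by
  cases T
  exacts [.lin (h.sw hg c hT.1), .anti (h.co hg c hT.1) (h.fs hg c hT.2.1).toFC (h.sw hg c hT.2.2),
    .ad (h.fd hg c hT.1) (h.fd hg c hT.2.1) (h.aw hg c hT.2.2),
    .adj (h.co hg c hT.1) (h.fs hg c hT.2.1).toFC (h.fd hg c hT.2.2.1) (h.fd hg c hT.2.2.2.1)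
      (h.sw hg c hT.2.2.2.2.1) (h.sw hg c hT.2.2.2.2.2.1) (h.ll hg c hT.2.2.2.2.2.2),
    .adn _ (h.fk hg c hT.1).qs (h.fd hg c hT.2.1) (h.fd hg c hT.2.2.1) hT.2.2.2.1
      (FL.map _ fun ξ k => h.aw hg c (hT.2.2.2.2.2 ξ k)),
    .cut _ _ (h.sg hg c hT), .cz _ _ _]

end TK
end tk

variable {X : Mf 4} {A κ : Type} [Fintype A] [Fintype κ] {M : Mark X A κ} {c c' c'' : M.Cl}

/-! ### extension by zero -/

namespace Caps
variable (C : Caps M) {V : Type} [NormedAddCommGroup V] [NormedSpace ℝ V] (u : X.M → V)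

variable (c) in
/-- push forward, extended by zero -/
abbrev ind : (C.Z c).M → V := (C.φ c).target.indicator (u ∘ (C.φ c).toPartialEquiv.symm)

theorem ind_φ {x : X.M} (hx : x ∉ M.sys.cores c.1) : C.ind c u (C.φ c x) = u x :=
  (indicator_of_mem ((C.φ c).map_source ((C.mem_src c).2 hx)) _).trans
    (congrArg u ((C.φ c).left_inv ((C.mem_src c).2 hx)))

theorem ind_β {a : A} (ha : a ∈ c.1) (hp : M.pin a) (b : Bool) : C.ind c u (C.β c a b 0) = 0 :=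
  indicator_of_notMem (fun k => (C.tgt c).subset k a ha hp b rfl) _

theorem ind_up (h : M.Up c c') (z : (C.Z c').M) : C.ind c u (C.up c c' z) = C.ind c' u z := by
  rcases caps_surj C z with ⟨x, k, rfl⟩ | ⟨a, ha, hp, b, rfl⟩
  · rw [C.up_φ h k, C.ind_φ u k, C.ind_φ u (Mark.cores_mono h.1 k)]
  · rw [C.up_β h ha hp, C.ind_β u ha hp, C.ind_β u (h.2 a ha hp) hp]

variable {u} in
theorem ind_ne {z : (C.Z c).M} (h : C.ind c u z ≠ 0) :
    ∃ x ∉ M.sys.cores c.1, C.φ c x = z ∧ u x ≠ 0 := by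
  rcases caps_surj C z with ⟨x, k, rfl⟩ | ⟨a, ha, hp, b, rfl⟩
  exacts [⟨x, k, rfl, C.ind_φ u k ▸ h⟩, (h (C.ind_β u ha hp b)).elim]

/-- the push forwards converge along any family with a fixed identification -/
theorem lk_ind {Y : Mf 4} {ι lam α : Type} [Fintype ι] [Fintype lam] {l : Ultrafilter α}
    {B : Base Y.M ι lam} {G : α → Geo Y.I Y.M ι lam} {B₀ : Base (C.Z c'').M ι lam}
    {G₀ : Geo (C.Z c'').I (C.Z c'').M ι lam} {H : α → Geo (C.Z c'').I (C.Z c'').M ι lam}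
    {f : PartialDiffeomorph (C.Z c'').I Y.I (C.Z c'').M Y.M ∞} {S : α → Opens (C.Z c'').M}
    {P : Set (C.Z c'').M} (h : M.Up c' c'') {j : Y.M → (C.Z c').M} (hj : IsOE Y.I (C.Z c').I j)
    (e : ∀ z ∈ f.source, j (f z) = C.up c' c'' z)
    (hP : ∀ x ∉ M.sys.cores c''.1, C.φ c'' x ∈ f.source ∧ C.φ c'' x ∉ P) {K : Set X.M}
    (hK : IsCompact K) (hs : K ⊆ (M.sys.cores c''.1)ᶜ) (h0 : ∀ x ∉ K, u x = 0)
    (hu : ContMDiffOn X.I 𝓘(ℝ, V) ∞ u (C.φ c').source) :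
    LK (rGs l B G B₀ G₀ H f S P) (fun _ => C.ind c' u ∘ j) (fun _ => C.ind c'' u) (C.ind c'' u)
      (C.φ c'' '' K) := by
  have s1 : (C.φ c'').source ⊆ (C.φ c').source := fun x hx =>
    (C.mem_src _).2 (Mark.cores_mono h.1 ((C.mem_src _).1 hx))
  have s2 : K ⊆ (C.φ c'').source := C.src c'' ▸ hs
  obtain ⟨k1, -, k2⟩ := Tp.push (C.φ c'') hK s2 h0 (hu.mono s1)
  refine ⟨hK.image_of_continuousOn ((C.φ c'').contMDiffOn.continuousOn.mono s2), ?_,
    fun _ => (Tp.push (C.φ c') hK (s2.trans s1) h0 hu).1.comp hj.contMDiff, k1,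
    fun _ y hy => (congrArg (C.ind c' u) (e y hy.1)).trans (C.ind_up u h y), .fixed' k1,
    fun x hx => image_eq_zero_of_notMem_tsupport fun k => hx (k2 k),
    .of_forall fun _ x hx => by_contra fun k => hx ?_⟩
  · rintro _ ⟨x, hx, rfl⟩; exact (hP x (hs hx)).2
  · obtain ⟨y, -, k3, k4⟩ := C.ind_ne k
    have k5 : y ∈ K := by_contra fun k => k4 (h0 y k)
    exact ⟨_, ⟨y, k5, rfl⟩, hj.inj (((e _ (hP y (hs k5)).1).trans (C.up_φ h (hs k5))).trans k3)⟩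

variable (c) in
/-- `Z c` has a finite convex atlas -/
theorem cvxOn {E' : Type} [NormedAddCommGroup E'] [NormedSpace ℝ E'] [FiniteDimensional ℝ E']
    (hE : Module.finrank ℝ E' = 4) : Pat85.CvxOn (C.Z c).I E' (univ : Set (C.Z c).M) := by
  have k : ∀ p : {a // a ∈ c.1} × Bool, Pat85.CvxOn (C.Z c).I E'
      (C.nj c p.1 '' (univ ×ˢ {s | 0 < pm p.2 * s})) := fun p => by
    have := (M.bn p.1).con
    let Φ := (M.bn p.1.1).oe.pd.trans (C.φ c)
    have h1 : univ ×ˢ {s | 0 < pm p.2 * s} ⊆ Φ.source := fun q hq => ⟨trivial, (C.mem_src c).2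
      (Mark.j_not_mem c (.inl ⟨p.1.2, fun e => by simpa [e] using hq.2⟩))⟩
    exact Pat85.cvxOn_prod (J := (M.bn p.1.1).Y.I) (ContinuousLinearEquiv.ofFinrankEq
      ((Mark.finrank_cyl p.1.1).trans hE.symm)) Φ.toOpenPartialHomeomorph
      (isOpen_lt continuous_const (by fun_prop)) (convex_halfSpace_gt (f := fun s => pm p.2 * s)
        ⟨mul_add _, fun a b => mul_left_comm _ a b⟩ 0) h1
      (fun q hq => (Met55.pd_ld (φ := Φ) hq).contMDiffAt) fun q hq =>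
        (Met55.pd_ld' (φ := Φ) hq).contMDiffAt
  refine ((Pat85.cvxOn_compact (ContinuousLinearEquiv.ofFinrankEq ((C.Z c).dim.trans hE.symm))
    (isCompact_thick C (c := c) one_pos)).union (.iUnion k)).mono fun z _ => ?_
  by_cases hz : z ∈ thin C c 1
  · obtain ⟨x, hx, rfl⟩ := hz
    obtain ⟨a, ha, q, hq, rfl⟩ := mem_iUnion₂.1 hx
    rcases (show q.2 ≠ 0 from hq.2.1).lt_or_gt with e | e
    · exact .inr (mem_iUnion.2 ⟨(⟨a, ha.1⟩, false), q, ⟨trivial, by simpa [pm] using e⟩, rfl⟩)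
    · exact .inr (mem_iUnion.2 ⟨(⟨a, ha.1⟩, true), q, ⟨trivial, by simpa [pm] using e⟩, rfl⟩)
  · exact .inl hz

end Caps

variable {lam : Type} [Fintype lam] [DecidableEq lam] {N : ML M lam} {W : World M}

namespace Lns
variable (Λ : Lns W N) (m : M.Cl)

variable (c) in
/-- the transport from `X` to `Z c` (`= Job.tp`) -/
abbrev tp : Tp X.M (W.Z c).M (lam ⊕ lam) (lam ⊕ lam) :=
  Tp.of (W.φ c).toPartialEquiv fun x => rl (Λ.v m c x)

theorem tp_s (u : X.M → Eu (lam ⊕ lam)) :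
    (Λ.tp c m).s u = W.ind c fun x => rl (Λ.v m c x) (u x) := rfl

variable (c c') in
/-- the transport from `X` to `Z c'` without the new centres -/
def xt : Tp X.M (W.Xo c c').M (lam ⊕ lam) (lam ⊕ lam) where
  p x := (W.xv_oe c c').pd.symm (W.φ c' x)
  f u := (Λ.tp c' m).f u ∘ W.xv c c'
  s u := (Λ.tp c' m).s u ∘ W.xv c c'

theorem xt_p {x : X.M} (hx : x ∉ M.sys.cores c'.1) : (Λ.xt c c' m).p x = W.xp c hx :=
  (W.xv_oe c c').pd_symm_apply (W.xp c hx)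

variable (h : c.1 ⊆ c'.1)

/-- the transports to `Xo c c'` and to `Z c` correspond -/
theorem rel2_xt : Rel2 (Λ.xt c c' m) (Λ.tp c m) univ (W.xd h) fun z => rl (Λ.xu h m z) := by
  refine ⟨fun u z _ => ?_, fun u z _ => congrArg _ ?_⟩ <;>
    rcases W.cases_nw z.2 with ⟨x, k, e⟩ | ⟨a, ha, ha', hp, b, e⟩
  · obtain rfl : W.xp c k = z := Subtype.ext e
    exact ((congrArg _ (W.xd_xp h k)).trans (W.ind_φ u (Mark.cores_mono h k))).trans
      (W.ind_φ u k).symm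
  · exact ((congrArg (W.ind c u) ((congrArg _ e.symm).trans (W.dp_β h ha hp b))).trans
      (W.ind_β u ha hp b)).trans ((congrArg _ e.symm).trans (W.ind_β u ha' hp b)).symm
  · obtain rfl : W.xp c k = z := Subtype.ext e
    refine ((congrArg _ (W.xd_xp h k)).trans (W.ind_φ (fun x => rl (Λ.v m c x) (u x))
      (Mark.cores_mono h k))).trans (Eq.trans ?_ (congrArg _ (W.ind_φ
        (fun x => rl (Λ.v m c' x) (u x)) k)).symm)
    rw [← Λ.du_v h m m k, Line51.rl_comp]; rfl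
  · refine ((congrArg (W.ind c fun x => rl (Λ.v m c x) (u x)) ((congrArg _ e.symm).trans
      (W.dp_β h ha hp b))).trans (W.ind_β _ ha hp b)).trans (Eq.trans (map_zero _).symm
        (congrArg _ ((congrArg _ e.symm).trans
          (W.ind_β (fun x => rl (Λ.v m c' x) (u x)) ha' hp b)).symm))

theorem s_off {u : X.M → Eu (lam ⊕ lam)} (hu : tsupport u ⊆ (M.sys.cores c'.1)ᶜ) :
    ∀ y ∉ range (W.xd h), (Λ.tp c m).s u y = 0 := fun y hy => by_contra fun k => by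
  obtain ⟨x, -, rfl, k2⟩ := W.ind_ne (u := fun x => rl (Λ.v m c x) (u x)) k
  exact hy ⟨_, W.xd_xp h (hu (subset_tsupport _ fun e => k2 (by rw [e, map_zero])))⟩

theorem cut_xt {k : Cut X.M (lam ⊕ lam)} (hk : k.supp ⊆ (M.sys.cores c'.1)ᶜ) :
    ((Λ.xt c c' m).cut k).Rel ((Λ.tp c m).cut k) univ (W.xd h) fun z => rl (Λ.xu h m z) :=
  (Λ.rel2_xt m h).cut fun _ hx => ⟨trivial, by rw [Λ.xt_p m (hk hx)]; exact (W.xd_xp h _).symm⟩

omit h

theorem sm_v {u : X.M → Eu (lam ⊕ lam)} (hu : Sm X.I u) : ContMDiffOn X.I 𝓘(ℝ, Eu (lam ⊕ lam)) ∞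
    (fun x => rl (Λ.v m c x) (u x)) (W.φ c).source := fun x hx =>
  ((Line51.fsm_rl ((Λ.uni m c).sm x hx)).clm_apply (hu x)).contMDiffWithinAt

variable {Λ m} (hΛ : Λ.Nrm) (h' : M.Up c' c'') (hm : c''.1 \ c'.1 ⊆ m.1) {α : Type}
  {l : Ultrafilter α}
include hΛ h' hm

theorem Nrm.tk {Y : Mf 4} {B : Base Y.M (Option κ) (lam ⊕ lam)}
    {G : α → Geo Y.I Y.M (Option κ) (lam ⊕ lam)} {B₀ G₀ H}
    {f : PartialDiffeomorph (W.Z c'').I Y.I (W.Z c'').M Y.M ∞} {S : α → Opens (W.Z c'').M}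
    {P : Set (W.Z c'').M} {j : Y.M → (W.Z c').M} (hj : IsOE Y.I (W.Z c').I j)
    (e : ∀ z ∈ f.source, j (f z) = W.up c' c'' z)
    (hP : ∀ x ∉ M.sys.cores c''.1, W.φ c'' x ∈ f.source ∧ W.φ c'' x ∉ P) (q : X.M → Y.M) :
    TK (rGs l B G B₀ G₀ H f S P) (fun _ => ⟨q, fun u => (Λ.tp c' m).f u ∘ j,
      fun u => (Λ.tp c' m).s u ∘ j⟩) (Λ.tp c'' m) (M.sys.cores c''.1)ᶜ where
  f u hu := ⟨_, _, W.lk_ind u h' hj e hP hu.hcs hu.sub
    (fun _ => image_eq_zero_of_notMem_tsupport) hu.sm.contMDiffOn⟩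
  s u hu := by
    rw [tp_s, hΛ.v m c' c'' h' hm]
    exact ⟨_, _, W.lk_ind _ h' hj e hP hu.hcs hu.sub
      (fun _ k => by rw [image_eq_zero_of_notMem_tsupport k, map_zero]) (Λ.sm_v m hu.sm)⟩

/-- **transports converge along pinching families** -/
theorem Nrm.tk_gs (h : c.1 ⊆ c'.1) {p : α → Prm A} {p' : Prm A} {H S} :
    TK (Λ.gs h m h' l p p' H S) (fun _ => Λ.xt c c' m) (Λ.tp c'' m) (M.sys.cores c''.1)ᶜ :=
  hΛ.tk h' hm (W.xv_oe c c') (fun _ => World.xv_xf h') (fun _ hx =>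
    have k : W.up c' c'' (W.φ c'' _) ∉ W.nw c c' :=
      W.up_φ h' hx ▸ W.φ_nw (Mark.cores_mono h'.1 hx)
    ⟨(World.xf_src h').2 k, k⟩) _

end Lns

/-! ### the literal family when only cylindrical walls break -/

namespace Lns
variable (Λ : Lns W N) (m : M.Cl) (h' : M.Up c c'') {α : Type} (l : Ultrafilter α) (p : α → Prm A)
  (p' : Prm A)

/-- the converging family: `X n = Z c`, `ψ = up`, no punctures -/
abbrev cs := rGs l (Λ.B m c) (fun n => Λ.G m c (p n)) (Λ.B m c'') (Λ.G m c'' p')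
  (fun n => cmG (W.up_oe h').loc (Λ.G m c (p n))) (W.up_oe h').pd (fun _ => ⊤) ∅

variable {Λ m l p p'} (hΛ : Λ.Nrm) (hm : c''.1 \ c.1 ⊆ m.1)
include hΛ hm

theorem Nrm.tk_cs :
    TK (Λ.cs m h' l p p') (fun _ => Λ.tp c m) (Λ.tp c'' m) (M.sys.cores c''.1)ᶜ :=
  hΛ.tk h' hm (j := id) (f := (W.up_oe h').pd) IsOE.id (fun _ _ => rfl) (fun _ _ => ⟨trivial, id⟩) _

theorem Nrm.cs_ok (hW : W.Nrm) (hp : Tendsto p l (𝓝 p')) (hO : ∀ n, p n ∈ M.O c.1)
    (hb : p' ∈ M.Br c''.1) (ho : p' ∈ M.O c''.1) : (Λ.cs m h' l p p').OK := by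
  have e := fun n => LLay.pull_G (W.up_oe h').loc (W.up_same h') (Λ.Λ m c)
    (Mark.mem_Ω _ (hO n))
  have k1 : ∀ z, {q : Prm A × (W.Z c'').M | (q.1, W.up c c'' q.2) ∈ M.Ω c.1 (W.φ c)} ∈
      𝓝 (p', z) := fun z => (W.isOpen_Ω.preimage (continuous_fst.prodMk
        ((W.up_oe h').continuous.comp continuous_snd))).mem_nhds
      (Mark.mp_br hb ▸ W.up_mem_Ω h' (Mark.mem_Ω _ ho z))
  have k2 := Lay.fcv ((W.L m c).pull (W.up_oe h').loc (W.up_same h')) hp k1 (.of_forall fun n _ => Mark.mem_Ω _ (hO n) _)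
  have k3 := (Λ.yΛ m h').cv_a hp k1 (.of_forall fun n _ => Mark.mem_Ω _ (hO n) _)
  have k4 : Loc66.FCv l univ (fun n => ((Λ.yΛ m h').G (p n)).F) ((Λ.yΛ m h').G p').F := k2
  simp only [e, hΛ.pull_G Λ h' hW hm hb ho] at k3 k4
  refine rGs_ok (Λ.B_ok m c) (fun n => Λ.G_ok m (hO n)) (Λ.B_ok m c'') (Λ.G_ok m ho)
    (fun n => hΛ.B hW h' hm ▸ Pj41.cmG_ok _ (Λ.G_ok m (hO n))) finite_empty (subset_univ _)
    (fun _ _ => .of_forall fun _ => trivial) (fun z _ a b d e => by rw [hΛ.B hW h' hm]; rfl)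
    (fun z _ => by rw [hΛ.B hW h' hm]; rfl) rfl
    (fun n z _ _ a => ⟨Met55.pbv_rel ((W.up_oe h').loc z) _, rfl⟩) k4 k3

end Lns

end Crest.Agent.X212.M
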