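import Crest.Agent.X212.G75.Dat

/-!
# Row 212, twins: geometric data of two scenes which agree outside a wall
-/

set_option autoImplicit false
set_option linter.unusedSectionVars false
noncomputable section
open Set Function Filter Topology
open scoped ContDiff Manifold
open Crest.Agent.R208.F (Ext)

namespace Crest.Agent.X212.M
open An G75 Cyf70 Prm93
open Dr59 (mf)
open Met55 (atx Co Sp VF VJ VAt FAt dmp pbv pfd)
open Line51 (Ln th J1)

section cut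
variable {X : Mf 4}

/-- the cut-off of the side `true` of a band -/
def cou (N : Band X) (x : X.M) : ℝ := Real.smoothTransition (1 + N.s x)

theorem cou_sm (N : Band X) (x : X.M) : Pj41.FSm X.I (cou N) x :=
  (Real.smoothTransition.contDiff.comp (contDiff_const.add contDiff_id)).contDiffAt.comp_contMDiffAt
    (N.contMDiff_s x)

theorem cou_one {N : Band X} {x : X.M} (h : x ∈ N.wall.sd true) : cou N x = 1 :=
  Real.smoothTransition.one_of_one_le (by have := N.mem_sd.1 h; simp [M.pm] at this; linarith)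

theorem cou_supp (N : Band X) : tsupport (cou N) ⊆ N.wall.sd true ∪ N.wall.band := by
  refine (closure_minimal (t := {x | -1 ≤ N.s x}) (fun x (hx : _ ≠ _) => not_lt.1 fun k : N.s x < -1 =>
    hx (Real.smoothTransition.zero_of_nonpos (by linarith)))
    (isClosed_le continuous_const N.contMDiff_s.continuous)).trans fun x (hx : -1 ≤ N.s x) => ?_
  by_cases k : 0 < N.s x
  · exact .inl (N.mem_sd.2 (by simpa [M.pm] using k))
  · exact .inr ((N.exists_of_abs_s_lt (abs_lt.2 ⟨by linarith, by linarith⟩)).elim fun y h => ⟨_, h⟩)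

end cut

variable {κ lam : Type} [Fintype κ] [Fintype lam] [DecidableEq lam] {Lm : LM κ lam}
  {S S' : Scene Lm} {V : Set S.X.M} (m : Mt S S' V)

/-- **push-forward of base data** over the outside of `R` -/
theorem bs_push (i₀ : m.L₀) {R : S'.A} (img : m.I.ψ '' V = hf S'.M R true)
    (hl : ∀ l ∈ S'.ls, hf S'.M l false ⊆ (S'.M.sys.w R).sd true) (ok : S.OK) (ok' : S'.OK)
    (β : S.Bs) (β' : S'.Bs) : ∃ β₀ : S'.Bs, ∀ u, ∀ x ∈ V, m.I.ψ x ∈ (S'.M.sys.w R).sd true →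
      Co (fun k => mf S.X.I S'.X.I m.I.ψ x (atx (β.B.r 0) x k)) (atx (β₀.B.r u) (m.I.ψ x)) ∧
      ∀ i, th S.X.I (m.w i) x + Dr59.pm S.X.I S'.X.I m.I.ψ ((β₀.b (m.ι' i)).b u) x =
        (β.b (m.ι i)).b 0 x := by
  have := S'.M.cpt
  have src : V ⊆ m.I.ψ.source := (m.lid i₀).sub
  have ex : ∀ z ∈ hf S'.M R true, ∃ x ∈ V, m.I.ψ x = z := img.ge
  have li : ∀ x ∈ V, m.I.ψ.symm (m.I.ψ x) = x := fun x h => m.I.ψ.left_inv (src h)
  let χ := cou (S'.M.bn R)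
  have χs : tsupport χ ⊆ hf S'.M R true := cou_supp _
  have fb : ∀ {Y : Mf 4} (B : Bas Y univ) y, FAt (B.r 0) y := fun B y =>
    ⟨fun k => (B.sm 0 y trivial k).right, B.sp 0 y trivial⟩
  have fa : ∀ z ∈ hf S'.M R true, FAt (pfd m.I.ψ (β.B.r 0)) z := fun z h => by
    obtain ⟨x, hx, rfl⟩ := ex z h
    exact FAt.pfd (src hx) (fb _ x)
  let r : Fin β.B.n ⊕ Fin β'.B.n → VF S'.X.I S'.X.M :=
    Sum.elim (fun k z => χ z • pfd m.I.ψ (β.B.r 0) k z) fun k z => (1 - χ z) • β'.B.r 0 k z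
  have hr : ∀ z, FAt r z := fun z => by
    refine ⟨?_, ?_⟩
    · rintro (k | k)
      exacts [.cutoff (cou_sm _ z) χs fun h => (fa z h).sm _,
        .smul (contMDiffAt_const.sub (cou_sm _ z)) ((fb _ z).sm k)]
    · by_cases h : 1 - χ z = 0
      · have k : χ z ≠ 0 := by linarith
        exact (fa z (χs (subset_tsupport _ k))).sp.of_range fun a =>
          ⟨_, .inl a, (inv_smul_smul₀ k _).symm⟩
      · exact (fb _ z).sp.of_range fun a => ⟨_, .inr a, (inv_smul_smul₀ h _).symm⟩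
  let γ : m.L₀ → S'.X.M → Ext S'.X.E := fun i =>
    Dr59.pm S'.X.I S.X.I m.I.ψ.symm ((β.b (m.ι i)).b 0 - th S.X.I (m.w i))
  have sm : ∀ i, Dr59.Sm S'.X.I univ (χ • γ i + (1 - χ) • (β'.b (m.ι' i)).b 0) := fun i =>
    Dr59.Sm.add (fun z _ => Line51.smAt_cutoff (cou_sm _ z) χs fun h => by
      obtain ⟨x, hx, rfl⟩ := ex z h
      exact .pm (Met55.pd_ld' (m.I.ψ.map_source (src hx))).contMDiffAt ((li x hx).symm ▸
        ((β.b _).sm 0 x trivial).sub ((m.lid i).uni.sm_th x hx)))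
      (((β'.b _).sm 0).fsmul fun z _ => contMDiffAt_const.sub (cou_sm _ z))
  have dg : ∀ i, Dr59.Dg 1 univ (χ • γ i + (1 - χ) • (β'.b (m.ι' i)).b 0) := fun i =>
    (((((β.b _).dg 0).sub (Line51.dg_th _)).pm (mapsTo_univ _ _)).fsmul _).add
      (((β'.b _).dg 0).fsmul _)
  let b : S'.L → LBas S'.X univ := extend m.ι' (fun i => cstL _ (sm i) (dg i)) β'.b
  have b1 : ∀ i u z, (b (m.ι' i)).b u z = χ z • γ i z + (1 - χ z) • (β'.b (m.ι' i)).b 0 z :=
    fun i u z => by rw [show b (m.ι' i) = _ from m.ι'.injective.extend_apply _ _ i]; rfl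
  have b2 : ∀ i ∉ range m.ι', b i = β'.b i := extend_apply' _ _
  have A : ∀ u, ∀ x ∈ V, m.I.ψ x ∈ (S'.M.sys.w R).sd true →
      Co (fun k => mf S.X.I S'.X.I m.I.ψ x (atx (β.B.r 0) x k)) (atx ((cstB r hr).r u) (m.I.ψ x)) :=
    fun u x hx h => .trans (fun α α' => by
      have h1 : χ (m.I.ψ x) = 1 := cou_one h
      rw [Fintype.sum_sum_type, Finset.sum_eq_zero (s := Finset.univ (α := Fin β'.B.n)), add_zero]
      · refine Finset.sum_congr rfl fun k _ => ?_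
        have : atx r (m.I.ψ x) (.inl k) = mf S.X.I S'.X.I m.I.ψ x (atx (β.B.r 0) x k) :=
          ((congrArg (· • _) h1).trans (one_smul _ _)).trans (Met55.pfd_rel (src hx) k).symm
        rw [this]
      · intro k _
        have : atx r (m.I.ψ x) (.inr k) = 0 :=
          (congrArg (· • _) (sub_eq_zero.2 h1.symm)).trans (zero_smul _ _)
        rw [this, map_zero, zero_mul]) (cstB_co hr u _)
  have B : ∀ u, ∀ x ∈ V, m.I.ψ x ∈ (S'.M.sys.w R).sd true → ∀ i,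
      Dr59.pm S.X.I S'.X.I m.I.ψ ((b (m.ι' i)).b u) x = (β.b (m.ι i)).b 0 x - th S.X.I (m.w i) x :=
    fun u x hx h i => by
      have h1 : χ (m.I.ψ x) = 1 := cou_one h
      refine (Dr59.pm_congr_right (b := γ i) (by rw [b1, h1, sub_self, zero_smul, add_zero, one_smul])).trans ?_
      rw [Dr59.pm_comp ((Met55.pd_ld' (m.I.ψ.map_source (src hx))).mdifferentiableAt (by simp))
        (m.I.md (src hx))]
      exact Dr59.pm_of_eventually_id (eventually_of_mem (m.I.ψ.open_source.mem_nhds (src hx))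
        fun _ k => m.I.ψ.left_inv k) _
  have el : ∀ l ∈ S'.ls, ∃ a ∈ m.ls, m.I.f' a = l ∧ ∃ _ : m.I.f a ∈ S.ls, hf S.M (m.I.f a) false ⊆ V :=
    fun l h => by
      obtain ⟨a, h, e⟩ := Finset.mem_map.1 (m.ls' ▸ h)
      have k := Finset.mem_map_of_mem m.I.f h
      exact ⟨a, h, e, m.lsub k, (m.lin _ (m.lsub k)).1 k⟩
  have ev := fun a h h' y (hy : y ∈ (Lm.M.sys.w ()).sd false) =>
    eventually_of_mem ((isOpen_hf () false).mem_nhds (.inl hy)) (m.mod a h h')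
  refine ⟨⟨cstB r hr, b, fun ⟨l, hl'⟩ u y hy => ?_, fun ⟨l, hl'⟩ i u y hy => ?_,
    fun l hl' i u z hz => ?_⟩, fun u x hx h => ⟨A u x hx h, fun i => by
      rw [B u x hx h, add_sub_cancel]⟩⟩ <;> obtain ⟨a, ha, rfl, h', hs⟩ := el l hl'
  · have s1 := ok.sd_in (m.ι i₀) ⟨_, h'⟩ hy
    have e := (ev a h' hl' y hy).self_of_nhds
    rw [Dr59.mf_congr (ev a h' hl' y hy), Dr59.mf_comp (m.I.md (src (hs (.inl s1))))
      ((S.I _).md (ok.src (m.ι i₀) _ (.inl hy))), e]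
    exact ((β.met ⟨_, h'⟩ 0 y hy).map (dmp S.X.I S'.X.I m.I.ψ _)).trans (A u _ (hs (.inl s1))
      (hl _ hl' (.inl (e ▸ ok'.sd_in (m.ι' i₀) ⟨_, hl'⟩ hy :))))
  · by_cases k : i ∈ range m.ι'
    · obtain ⟨i, rfl⟩ := k
      obtain ⟨-, -, k1, -, k2⟩ := m.hfl a ha i
      have s1 := ok.sd_in (m.ι i₀) ⟨_, h'⟩ hy
      have e := (ev a h' hl' y hy).self_of_nhds
      have k3 : th S.X.I (m.w i) ((S.I ⟨_, h'⟩).ψ y) = 0 := (Line51.th_congr (eventually_of_mem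
        ((isOpen_hf _ false).mem_nhds (.inl s1)) k2)).trans (th_p _ _)
      rw [← k1, ← β.con ⟨_, h'⟩ _ 0 y hy, Dr59.pm_congr (ev a h' hl' y hy) rfl, ← Dr59.pm_comp
        (m.I.md (src (hs (.inl s1)))) ((S.I _).md (ok.src (m.ι i₀) _ (.inl hy)))]
      exact Dr59.pm_congr_right ((B u _ (hs (.inl s1))
        (hl _ hl' (.inl (e ▸ ok'.sd_in (m.ι' i₀) ⟨_, hl'⟩ hy :))) i).trans (by rw [k3, sub_zero]))
    · rw [b2 i k]; exact β'.con ⟨_, hl'⟩ i u y hy
  · by_cases k : i ∈ range m.ι'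
    · obtain ⟨i, rfl⟩ := k
      obtain ⟨k1, k2, -, k3, -⟩ := m.hfl a ha i
      have k4 := β'.agr _ hl' (m.ι' i) 0 hz
      rw [← k2] at k4
      rw [← k2, b1, b1, k4]
      refine congrArg (· + _) ?_
      by_cases c : χ z = 0
      · rw [c, zero_smul, zero_smul]
      obtain ⟨x, hx, rfl⟩ := ex z (χs (subset_tsupport _ c))
      have k5 := (G75.hf_iff a true (src hx)).1 hz
      refine congrArg _ (Dr59.pm_congr_right ?_)
      rw [li x hx, Pi.sub_apply, Pi.sub_apply, k1, β.agr _ h' (m.ι i) 0 k5,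
        Line51.th_congr (I := S.X.I) (eventually_of_mem
          (((m.lid i).op.inter (isOpen_hf _ true)).mem_nhds ⟨hx, k5⟩) k3)]
    · rw [b2 i k, b2 _ fun ⟨j, e⟩ => k ⟨m.fl a j, by rw [(m.hfl a ha j).2.1, e, ok'.inv _ hl']⟩]
      exact β'.agr _ hl' i u hz

/-- **twin data**: the data agree outside `a₀`, and those of `S'` are changed inside -/
theorem dat_tw (hd : ∀ S : Scene Lm, S.OK → S.L → Nonempty S.Dat) {A₁ : Type} [Fintype A₁]
    (r : A₁ ↪ m.A₀) (a₀ : m.A₀) (i₀ : m.L₀) (hV : V = hf S.M (m.I.f a₀) true)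
    (img : m.I.ψ '' V = hf S'.M (m.I.f' a₀) true)
    (hl : ∀ l ∈ S'.ls, hf S'.M l false ⊆ (S'.M.sys.w (m.I.f' a₀)).sd true) (ok : S.OK) (ok' : S'.OK)
    {P : S'.Dat → Prop} (hP : ∀ β : S'.Bs, ∃ β' : S'.Bs,
      (∀ u, ∀ x ∈ (S'.M.sys.w (m.I.f' a₀)).sd true, Co (atx (β'.B.r u) x) (atx (β.B.r u) x) ∧
        ∀ i, (β'.b i).b u x = (β.b i).b u x) ∧ ∀ D : S'.Dat, D.B = β'.B → D.b = β'.b → P D) :
    ∃ (D : S.Dat) (D' : S'.Dat), P D' ∧
      WId D.W D'.W (m.I.re r) ((S.M.sys.w (m.I.f a₀)).sd true) 0 0 ∧ ∀ i,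
        CId (D.Λ (m.ι i)) (D'.Λ (m.ι' i)) (m.I.re r) ((S.M.sys.w (m.I.f a₀)).sd true) (m.w i) 0 0 := by
  obtain ⟨D⟩ := hd S ok (m.ι i₀)
  obtain ⟨D₁⟩ := hd S' ok' (m.ι' i₀)
  obtain ⟨β₀, h₀⟩ := bs_push m i₀ img hl ok ok' D.bs D₁.bs
  obtain ⟨β', h₁, h₂⟩ := hP β₀
  obtain ⟨C⟩ := Cyl58.caps _ _ _ S'.M
  obtain ⟨D', -, e1, e2⟩ := β'.exists_dat ok' C
  have hs : (S.M.sys.w (m.I.f a₀)).sd true ⊆ V := fun _ h => hV.ge (.inl h)
  have src := hs.trans (m.lid i₀).sub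
  have k := fun x (hx : x ∈ (S.M.sys.w (m.I.f a₀)).sd true) => (m.I.sd a₀ true x (src hx)).2 hx
  refine ⟨D, D', h₂ D' e1 e2, wId_std D.std D'.std src fun x hx => ?_, fun i => cId_std (D.lstd _)
    (D'.lstd _) (((m.lid i).re r).mono ((S.M.sys.w _).op_sd true) hs) fun x hx => ?_⟩
  · rw [e1]
    exact (h₀ 0 x (hs hx) (k x hx)).1.trans (h₁ 0 _ (k x hx)).1.symm
  · rw [e2]
    exact .trans (congrArg _ (Dr59.pm_congr_right ((h₁ 0 _ (k x hx)).2 _)))
      ((h₀ 0 x (hs hx) (k x hx)).2 i)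

end Crest.Agent.X212.M
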