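import Crest.Agent.X212.M.Twd
import Crest.Agent.X212.Tw55.Defs

/-!
# Row 212, twins: **TW-FAM-DAT**
-/

set_option autoImplicit false
noncomputable section

namespace Crest.Agent.X212.M
open G75

variable {κ lam : Type} [Fintype κ] [Fintype lam] [DecidableEq lam] {Lm : LM κ lam}

/-- **TW-FAM-DAT** -/
theorem datI (hd : Ins26.DatStmt Lm) {S S' : Scene Lm} {V : Set S.X.M} (m : Mt S S' V)
    (R₀ : Tw55.Ao m) (i₀ : m.L₀) (e : Bool → S.A) (P : S'.Dat → Prop) (h : Tw55.Tw1 m R₀ i₀ e)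
    (hP : Rf65.Rea ((Tw55.Io m).f' R₀) P) : ∃ (D : S.Dat) (D' : S'.Dat), P D' ∧
      WId D.W D'.W (Tw55.Io m) (Tw55.Ox S ((Tw55.Io m).f R₀)) 0 0 ∧
      ∀ i, M.CId (D.Λ (m.ι i)) (D'.Λ (m.ι' i)) (Tw55.Io m) (Tw55.Ox S ((Tw55.Io m).f R₀))
        (m.w i) 0 0 :=
  let ⟨_, _, _, _, _, k⟩ := h.ds
  dat_tw m hd _ R₀.1 i₀ h.hV h.img k.ls h.ok h.ok' hP

end Crest.Agent.X212.M
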