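import Crest.Agent.X212.M.Band
import Crest.Agent.X212.Met55.Vol
import Crest.Agent.X212.Line51.An

/-!
# Row 212, layer M: worlds

A `Mark` is a closed oriented 4-manifold with finitely many bands, `ML` a marked line on it.
A `World` over a mark gives, for every compatible set `c` of broken walls, the (disconnected)
manifold `Z c` (pinch walls capped by balls, cylindrical ends at the other walls) and, for every
further cell `m`, a family of frames `L m c` on `Z c` that is literal on the cylindrical bands of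
`c` and of `m`.  `Lns` is a line with a family of connections on all of them.
Parameters: `(u, t)`, `u : ℝ` free, `t : A → ℝ`.
-/

set_option autoImplicit false
set_option linter.unusedSectionVars false
set_option linter.dupNamespace false
noncomputable section
open Set Function Filter Topology
open scoped ContDiff Manifold InnerProductSpace
open Crest.Agent.R208.F (Ext)

namespace Crest.Agent.X212.M
open An Cyl58 Cyf70 Int54 Prm93
open Met55 (Sp VF VJ FAt fP atx rFr)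
open Line51 (Ln Uni)
open Dr59 (mf)

/-! ### cylinders -/

/-- translation invariant background of the cylinder `Y × ℝ` -/
structure Cy (Y : Mf 3) (κ lam : Type) [Fintype κ] where
  F : Fr Y.I Y.M κ
  o : Option κ → Option κ → Option κ → Option κ → Y.M → ℝ
  L : Ln Y.E Y.M lam

namespace Cy
variable {Y : Mf 3} [CompactSpace Y.M] {κ lam : Type} [Fintype κ] [Fintype lam] [DecidableEq lam]
  (C : Cy Y κ lam)

/-- the line of the cylinder -/
def ln : Ln (Y.E × ℝ) (Y.M × ℝ) lam := C.L.pull (IC Y.I) Y.I Prod.fst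

/-- the background of the cylinder -/
def B : Base (Y.M × ℝ) (Option κ) (lam ⊕ lam) :=
  C.ln.base (Cyf70.cyl C.F).P fun a b c d p => C.o a b c d p.1

/-- the geometry of the cylinder -/
def G : Geo (IC Y.I) (Y.M × ℝ) (Option κ) (lam ⊕ lam) := C.ln.geo (Cyf70.cyl C.F)

structure OK : Prop where
  vol : C.F.IsVol
  ln : C.L.On Y.I univ
  B : C.B.OK (IC Y.I)
  G : C.G.OK C.B

end Cy

/-! ### families of frames and of connections on one manifold -/

/-- the components of the unit volume form of the orientation `o` -/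
def ov {Z : Mf 4} {ι : Type} [Fintype ι] (o : Z.M → Ext Z.E) (e : ι → VF Z.I Z.M) :
    ι → ι → ι → ι → Z.M → ℝ := oc e (volF o e)

/-- a family of frames, defined on `Ω`, with the projector and the orientation of `F0` -/
structure Lay (Z : Mf 4) (o : Z.M → Ext Z.E) (T ι : Type) [NormedAddCommGroup T] [NormedSpace ℝ T]
    [Fintype ι] (Ω : Set (T × Z.M)) where
  F0 : Fr Z.I Z.M ι
  vol : F0.IsVol
  e : T → ι → VF Z.I Z.M
  sm : ∀ t x, (t, x) ∈ Ω → ∀ a, VJ Z.I (fun s => e s a) t x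
  sp : ∀ t x, (t, x) ∈ Ω → Sp (atx (e t) x)
  P : ∀ t x, (t, x) ∈ Ω → fP (e t) x = fP F0.e x
  ob : ∀ t x, (t, x) ∈ Ω → ∀ a b c d, ov o (e t) a b c d x = ov o F0.e a b c d x

section lay
variable {Z : Mf 4} {o : Z.M → Ext Z.E} {T ι : Type} [NormedAddCommGroup T] [NormedSpace ℝ T]
  [Fintype ι] {Ω : Set (T × Z.M)}

open Classical in
/-- the Riemannian frame at the parameter `t` -/
def Lay.F (L : Lay Z o T ι Ω) (t : T) : Fr Z.I Z.M ι :=
  if h : ∀ x, FAt (L.e t) x then rFr (L.e t) h else L.F0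

/-- a line with a family of connections -/
structure LLay (L : Lay Z o T ι Ω) (lam : Type) [Fintype lam] where
  p : Z.M → Matrix lam lam ℂ
  a : T → Z.M → Ext Z.E
  ok : ∀ t, Ln.On Z.I ⟨p, a t⟩ univ
  sm : ∀ k t x, JAt Z.I (fun s y => Num57.e1 (a s y) (atx L.F0.e y k)) t x

variable {L : Lay Z o T ι Ω} {lam : Type} [Fintype lam] [DecidableEq lam] (Λ : LLay L lam)

/-- the line with its connection at the parameter `t` -/
def LLay.ln (t : T) : Ln Z.E Z.M lam := ⟨Λ.p, Λ.a t⟩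

/-- the background -/
def LLay.B : Base Z.M ι (lam ⊕ lam) := (Λ.ln 0).base L.F0.P (ov o L.F0.e)

/-- the geometry at the parameter `t` -/
def LLay.G (t : T) : Geo Z.I Z.M ι (lam ⊕ lam) := (Λ.ln t).geo (L.F t)

end lay

/-! ### marks -/

/-- parameters -/
abbrev Prm (A : Type) : Type := ℝ × (A → ℝ)

/-- the walls that are compatible with `σ` and not in `σ` -/
def Sys.fr {X : Type} [TopologicalSpace X] {A : Type} (S : Sys X A) (σ : Set A) : Set A :=
  {a | a ∉ σ ∧ ∀ a' ∈ σ, S.Cmp a a'}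

/-- a closed connected oriented 4-manifold with bands -/
structure Mark (X : Mf 4) (A κ : Type) [Fintype κ] : Type 1 where
  [cpt : CompactSpace X.M]
  [con : ConnectedSpace X.M]
  o : X.M → Ext X.E
  ori : Ori X.I o
  bn : A → Band X
  pin : A → Prop
  gY : ∀ a, Fr (bn a).Y.I (bn a).Y.M κ
  gvol : ∀ a, (gY a).IsVol
  th : ∀ a, (bn a).Y.M → V4
  rnd : ∀ a, pin a → Round (gY a) (th a)

namespace Mark
variable {X : Mf 4} {A κ : Type} [Fintype κ] (M : Mark X A κ)

/-- the walls -/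
def sys : Sys X.M A := ⟨fun a => (M.bn a).wall⟩

/-- compatible sets of walls -/
def Cl : Type := {σ : Set A // M.sys.Cell σ}

/-- the empty cell -/
def c0 : M.Cl := ⟨∅, pairwise_empty _⟩

/-- the broken set of a parameter -/
def cOf {t : A → ℝ} (ht : t ∈ M.sys.Par) : M.Cl := ⟨Sys.inf t, Sys.cell_inf ht⟩

/-- parameters without further broken walls -/
def O (σ : Set A) : Set (Prm A) := {p | ∀ a ∈ M.sys.fr σ, p.2 a < 1}

/-- parameters and points off the further broken cores -/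
def Ω (σ : Set A) {Z : Type} (φ : X.M → Z) : Set (Prm A × Z) :=
  {q | ∀ a ∈ M.sys.fr σ, q.1.2 a < 1 ∨ q.2 ∉ φ '' (M.sys.w a).core}

/-- admissible parameters at which `σ` is broken -/
def Br (σ : Set A) : Set (Prm A) := {p | p.2 ∈ M.sys.Par ∧ σ ⊆ Sys.inf p.2}

/-- the height `s` of the band `a` lies in the literal part of the layer `(m, c)` -/
def Lit (m c : Set A) (a : A) (s : ℝ) : Prop :=
  |s| ≤ 1 ∧ (a ∈ c ∧ s ≠ 0 ∨ a ∈ m ∧ a ∈ M.sys.fr c)

open Classical in
/-- the weights of the model frame of a neck -/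
def wt (a : A) (t s : ℝ) : Option κ → ℝ
  | none => if M.pin a then 1 else sig t s
  | some _ => if M.pin a then (rad t s)⁻¹ else 1

/-- the model frame of a neck -/
def nf (a : A) (t : ℝ) (q : (M.bn a).Y.M × ℝ) (i : Option κ) : (M.bn a).Y.E × ℝ :=
  M.wt a t q.2 i • atx (ce (M.gY a).e) q i

/-- the orientation of the cylinder of a wall -/
def oY (a : A) (i k l n : Option κ) (y : (M.bn a).Y.M) : ℝ :=
  oc (ce (M.gY a).e) (volF (Dr59.pm (IC (M.bn a).Y.I) X.I (M.bn a).j M.o) (ce (M.gY a).e))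
    i k l n (y, 0)

end Mark

/-- a marked line: a line on `X`, identified with a pulled back line on every band -/
structure ML {X : Mf 4} {A κ : Type} [Fintype κ] (M : Mark X A κ) (lam : Type) [Fintype lam] where
  p : X.M → Matrix lam lam ℂ
  ok : Ln.On X.I ⟨p, 0⟩ univ
  LY : ∀ a, Ln (M.bn a).Y.E (M.bn a).Y.M lam
  okY : ∀ a, (LY a).On (M.bn a).Y.I univ
  cst : ∀ a, M.pin a → ∃ p₀, LY a = ⟨fun _ => p₀, 0⟩
  m : ∀ a, (M.bn a).Y.M × ℝ → Matrix lam lam ℂ
  um : ∀ a, Uni (IC (M.bn a).Y.I) (fun q => p ((M.bn a).j q)) (fun q => (LY a).p q.1) (m a)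
    {q | |q.2| ≤ 3}

/-- the cylinder of a wall -/
def ML.cy {X : Mf 4} {A κ : Type} [Fintype κ] {M : Mark X A κ} {lam : Type} [Fintype lam]
    (N : ML M lam) (a : A) : Cy (M.bn a).Y κ lam := ⟨M.gY a, M.oY a, N.LY a⟩

/-! ### worlds -/

/-- the capped manifolds of a mark -/
structure Caps {X : Mf 4} {A κ : Type} [Fintype κ] (M : Mark X A κ) : Type 1 where
  Z : M.Cl → Mf 4
  φ : ∀ c, PartialDiffeomorph X.I (Z c).I X.M (Z c).M ∞
  β : ∀ c, A → Bool → V4 → (Z c).M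
  o : ∀ c, (Z c).M → Ext (Z c).E
  ori : ∀ c, Ori (Z c).I (o c)
  src : ∀ c, (φ c).source = (M.sys.cores c.1)ᶜ
  tgt : ∀ c, (φ c).target = {z | ∀ a ∈ c.1, M.pin a → ∀ b, z ≠ β c a b 0}
  βoe : ∀ c, ∀ a ∈ c.1, M.pin a → ∀ b, IsOE 𝓘(ℝ, V4) (Z c).I (β c a b)
  βφ : ∀ c, ∀ a ∈ c.1, M.pin a → ∀ b y r, 0 < r →
    β c a b (r • M.th a y) = φ c ((M.bn a).j (y, pm b * r))
  oφ : ∀ c, SameOn M.o (Dr59.pm X.I (Z c).I (φ c) (o c)) (φ c).source

/-- families of frames on the capped manifolds; `k` is the common cometric -/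
structure World {X : Mf 4} {A κ : Type} [Fintype A] [Fintype κ] (M : Mark X A κ) : Type 1
    extends Caps M where
  k : Prm A → X.M → Option κ → X.E
  L : ∀ _m c : M.Cl, Lay (Z c) (o c) (Prm A) (Option κ) (M.Ω c.1 (φ c))
  loc : ∀ m c u t t' z, (∀ a ∈ M.sys.fr c.1, z ∈ φ c '' (M.bn a).slab (Icc (-2) 2) → t a = t' a) →
    atx ((L m c).e (u, t)) z = atx ((L m c).e (u, t')) z
  co : ∀ m c, ∀ p ∈ M.Br c.1, ∀ x, x ∉ M.sys.cores (Sys.inf p.2) →
    Met55.Co (fun i => mf X.I (Z c).I (φ c) x (k p x i)) (atx ((L m c).e p) (φ c x))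
  neck : ∀ a (p : Prm A), p.2 ∈ M.sys.Par → 1 / 2 ≤ p.2 a → ∀ q : (M.bn a).Y.M × ℝ, |q.2| ≤ 1 →
    (p.2 a, q.2) ∈ Off → Met55.Co
      (fun i => mf (IC (M.bn a).Y.I) X.I (M.bn a).j q (M.nf a (p.2 a) q i)) (k p ((M.bn a).j q))
  lit : ∀ m c a, ¬M.pin a → ∀ p ∈ M.Br c.1, 1 / 2 ≤ p.2 a → ∀ q : (M.bn a).Y.M × ℝ,
    M.Lit m.1 c.1 a q.2 → (p.2 a, q.2) ∈ Off → ∀ i, atx ((L m c).e p) (φ c ((M.bn a).j q)) i =
      mf (IC (M.bn a).Y.I) (Z c).I (φ c ∘ (M.bn a).j) q (M.nf a (p.2 a) q i)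

/-- a marked line with connections on all the manifolds of a world -/
structure Lns {X : Mf 4} {A κ : Type} [Fintype A] [Fintype κ] {M : Mark X A κ} (W : World M)
    {lam : Type} [Fintype lam] (N : ML M lam) where
  a0 : Prm A → X.M → Ext X.E
  Λ : ∀ m c, LLay (W.L m c) lam
  v : M.Cl → M.Cl → X.M → Matrix lam lam ℂ
  ok0 : ∀ p, Ln.On X.I ⟨N.p, a0 p⟩ univ
  loc : ∀ m c u (t t' : A → ℝ) z,
    (∀ a ∈ M.sys.fr c.1, z ∈ W.φ c '' (M.bn a).slab (Icc (-2) 2) → t a = t' a) →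
    (Λ m c).a (u, t) z = (Λ m c).a (u, t') z
  iso : ∀ m c, ∀ p ∈ M.Br c.1, Line51.Iso X.I ⟨N.p, a0 p⟩
    (((Λ m c).ln p).pull X.I (W.Z c).I (W.φ c)) (v m c) (W.φ c).source
  neck : ∀ a (p : Prm A), p.2 ∈ M.sys.Par → 1 / 2 ≤ p.2 a → Line51.Iso (IC (M.bn a).Y.I)
    (Ln.pull (IC (M.bn a).Y.I) X.I (M.bn a).j ⟨N.p, a0 p⟩) (N.cy a).ln (N.m a) {q | |q.2| ≤ 1}
  lit : ∀ m c a (q : (M.bn a).Y.M × ℝ), M.Lit m.1 c.1 a q.2 → v m c ((M.bn a).j q) = N.m a q

variable {X : Mf 4} {A κ : Type} [Fintype A] [Fintype κ] {M : Mark X A κ}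

/-- the piece of `Z c` over the region `π` -/
def Caps.pc (C : Caps M) (c : M.Cl) (π : Reg A) : Set (C.Z c).M :=
  C.φ c '' M.sys.U π ∪ {z | ∃ a b, M.pin a ∧ π a = some b ∧ z = C.β c a b 0}

/-- the frame on `Z c` -/
abbrev World.F (W : World M) (m c : M.Cl) (p : Prm A) :
    Fr (W.Z c).I (W.Z c).M (Option κ) := (W.L m c).F p

namespace Lns
variable {W : World M} {lam : Type} [Fintype lam] [DecidableEq lam] {N : ML M lam} (Λ : Lns W N)

/-- the background of `Z c` -/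
abbrev B (m c : M.Cl) : Base (W.Z c).M (Option κ) (lam ⊕ lam) := (Λ.Λ m c).B

/-- the geometry of `Z c` at the parameter `p` -/
abbrev G (m c : M.Cl) (p : Prm A) : Geo (W.Z c).I (W.Z c).M (Option κ) (lam ⊕ lam) :=
  (Λ.Λ m c).G p

end Lns

end Crest.Agent.X212.M
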